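import Vale.Agent.P194.Switch

/-! Erdos-Sachs: regular edge coloured bipartite graphs of large girth (general degree). -/

namespace Vale.Agent.P089

open Finset Vale.Agent.P194

open Classical in
theorem base_ball_card {P V : Type} [Fintype P] [Fintype V] (σ : P → V → V)
    (r : ℕ) (a : V) : (univ.filter (SwNear σ r a)).card ≤ (Fintype.card P + 1) ^ r := by
  induction r generalizing a with
  | zero =>
    rw [pow_zero, Finset.card_le_one]
    intro b hb c hc
    obtain ⟨w, h1, h2⟩ := (mem_filter.1 hb).2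
    obtain ⟨w', h3, h4⟩ := (mem_filter.1 hc).2
    rw [Nat.le_zero, List.length_eq_zero_iff] at h1 h3
    subst h1 h3
    exact h2.symm.trans h4
  | succ r ih =>
    have hsub : univ.filter (SwNear σ (r + 1) a) ⊆
        insert a (univ.biUnion (fun s : P => univ.filter (SwNear σ r (σ s a)))) := by
      intro b hb
      obtain ⟨w, h1, h2⟩ := (mem_filter.1 hb).2
      cases w with
      | nil => exact mem_insert.2 (Or.inl h2.symm)
      | cons s w =>
        refine mem_insert_of_mem (mem_biUnion.2 ⟨s, mem_univ _, mem_filter.2 ⟨mem_univ _, w, ?_, h2⟩⟩)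
        simpa using h1
    have h1 := card_le_card hsub
    have h2 := card_insert_le a (univ.biUnion (fun s : P => univ.filter (SwNear σ r (σ s a))))
    have h3 : (univ.biUnion (fun s : P => univ.filter (SwNear σ r (σ s a)))).card ≤
        (univ : Finset P).card * (Fintype.card P + 1) ^ r := card_biUnion_le_card_mul _ _ _ (fun s _ => ih _)
    rw [card_univ] at h3
    have h5 : 1 ≤ (Fintype.card P + 1) ^ r := Nat.one_le_pow _ _ (by omega)
    rw [pow_succ, mul_add, mul_one, mul_comm]
    omega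

variable {P V : Type} [Fintype P] [Fintype V] [DecidableEq P] [DecidableEq V]

theorem base_other {D : Design P V}
    (hbal : ∀ i s, (D.cls i true s).card = (D.cls i false s).card) {σ : P → V → V} (hσ : SwPre D σ)
    {s : P} {x : V} (h1 : s ∈ D.L x) (h2 : σ s x = x) :
    ∃ y, D.part y = D.part x ∧ D.side y = (!D.side x) ∧ s ∈ D.L y ∧ σ s y = y := by
  by_contra hc
  push Not at hc
  have hb : (D.cls (D.part x) (D.side x) s).card = (D.cls (D.part x) (!D.side x) s).card := by
    cases D.side x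
    · exact (hbal _ _).symm
    · exact hbal _ _
  have hx : x ∈ D.cls (D.part x) (D.side x) s := switch_mem_cls.2 ⟨rfl, rfl, h1⟩
  have hle : (D.cls (D.part x) (!D.side x) s).card ≤
      ((D.cls (D.part x) (D.side x) s).erase x).card := by
    refine Finset.card_le_card_of_injOn (σ s) ?_ ?_
    · intro y hy
      obtain ⟨a1, a2, a3⟩ := switch_mem_cls.1 (mem_coe.1 hy)
      have a4 := hc y a1 a2 a3
      refine mem_coe.2 (mem_erase.2 ⟨?_, switch_mem_cls.2 ⟨?_, ?_, ?_⟩⟩)
      · intro e
        apply a4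
        have : y = x := by rw [← hσ.invol s y, e, h2]
        rw [this, h2]
      · rw [hσ.part, a1]
      · rw [hσ.side s y a4, a2, Bool.not_not]
      · apply hσ.moves
        rw [hσ.invol]
        exact a4.symm
    · intro a _ b _ h
      rw [← hσ.invol s a, h, hσ.invol]
  have := card_erase_lt_of_mem hx
  omega

theorem base_augment {D : Design P V} {g : ℕ}
    (hbal : ∀ i s, (D.cls i true s).card = (D.cls i false s).card)
    (hlow : ∀ x b s, 2 * (Fintype.card P + 1) ^ (g + 1) < (D.cls (D.part x) b s).card) {σ : P → V → V} (hσ : SwPre D σ) (hg : Girth σ g)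
    {s : P} {x : V} (h1 : s ∈ D.L x) (h2 : σ s x = x) :
    ∃ σ', SwPre D σ' ∧ Girth σ' g ∧ swMiss D σ' ⊂ swMiss D σ := by
  classical
  obtain ⟨y, y1, y2, y3, y4⟩ := base_other hbal hσ h1 h2
  have hC : ((D.cls (D.part x) (!D.side x) s \ univ.filter (SwNear σ (g + 1) x)) \
      univ.filter (SwNear σ (g + 1) y)).Nonempty := by
    have a1 := le_card_sdiff (univ.filter (SwNear σ (g + 1) y))
      (D.cls (D.part x) (!D.side x) s \ univ.filter (SwNear σ (g + 1) x))
    have a2 := le_card_sdiff (univ.filter (SwNear σ (g + 1) x))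
      (D.cls (D.part x) (!D.side x) s)
    have a3 := base_ball_card σ (g + 1) x
    have a4 := base_ball_card σ (g + 1) y
    have a5 := hlow x (!D.side x) s
    rw [← card_pos]
    omega
  obtain ⟨y', hy'⟩ := hC
  obtain ⟨b1, b2, b3⟩ := switch_mem_cls.1 (mem_sdiff.1 (mem_sdiff.1 hy').1).1
  have b4 : ¬ SwNear σ (g + 1) x y' := fun hh =>
    (mem_sdiff.1 (mem_sdiff.1 hy').1).2 (mem_filter.2 ⟨mem_univ _, hh⟩)
  have b5 : ¬ SwNear σ (g + 1) y y' := fun hh =>
    (mem_sdiff.1 hy').2 (mem_filter.2 ⟨mem_univ _, hh⟩)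
  have n1 : x ≠ y' := fun e => b4 ⟨[], by simp, e⟩
  have n2 : y ≠ y' := fun e => b5 ⟨[], by simp, e⟩
  have n3 : x ≠ y := by
    intro e
    rw [← e] at y2
    simp at y2
  have hxm : (s, x) ∈ swMiss D σ := mem_filter.2 ⟨mem_univ _, h1, h2⟩
  by_cases hm : σ s y' = y'
  · let σ1 : P → V → V := fun t v =>
      if t = s ∧ v = x then y' else if t = s ∧ v = y' then x else σ t v
    have e1 : ∀ t v, ¬ (t = s ∧ (v = x ∨ v = y')) → σ1 t v = σ t v := by
      intro t v hc
      simp only [σ1]
      rw [if_neg (by tauto), if_neg (by tauto)]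
    have e2 : σ1 s x = y' := by simp [σ1]
    have e3 : σ1 s y' = x := by simp [σ1, n1.symm]
    have f1 : SwFar σ g x y' :=
      switch_far_of_not_near (fun _ _ _ => rfl) [] [] b4 rfl rfl (by simp)
    refine ⟨σ1, ⟨?_, ?_, ?_, ?_⟩,
      switch_girth_add e1 e2 e3 f1 (f1.symm hσ.invol) hg, ?_⟩
    · intro t v
      by_cases hc : t = s ∧ (v = x ∨ v = y')
      · obtain ⟨rfl, rfl | rfl⟩ := hc
        · rw [e2, e3]
        · rw [e3, e2]
      · rw [e1 t v hc, e1, hσ.invol]
        rintro ⟨rfl, hv | hv⟩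
        · apply hc
          refine ⟨rfl, Or.inl ?_⟩
          rw [← hσ.invol t v, hv, h2]
        · apply hc
          refine ⟨rfl, Or.inr ?_⟩
          rw [← hσ.invol t v, hv, hm]
    · intro t v hv
      by_cases hc : t = s ∧ (v = x ∨ v = y')
      · obtain ⟨rfl, rfl | rfl⟩ := hc
        · exact h1
        · exact b3
      · rw [e1 t v hc] at hv; exact hσ.moves t v hv
    · intro t v hv
      by_cases hc : t = s ∧ (v = x ∨ v = y')
      · obtain ⟨rfl, rfl | rfl⟩ := hc
        · rw [e2, b2]
        · rw [e3, b2, Bool.not_not]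
      · rw [e1 t v hc] at hv ⊢; exact hσ.side t v hv
    · intro t v
      by_cases hc : t = s ∧ (v = x ∨ v = y')
      · obtain ⟨rfl, rfl | rfl⟩ := hc
        · rw [e2, b1]
        · rw [e3, b1]
      · rw [e1 t v hc]; exact hσ.part t v
    · refine (ssubset_iff_of_subset ?_).2 ⟨(s, x), hxm, ?_⟩
      · rintro ⟨t, v⟩ hv
        obtain ⟨c1, c2⟩ := (mem_filter.1 hv).2
        simp only at c1 c2
        refine mem_filter.2 ⟨mem_univ _, c1, ?_⟩
        by_cases hc : t = s ∧ (v = x ∨ v = y')
        · obtain ⟨rfl, rfl | rfl⟩ := hc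
          · exact h2
          · exact hm
        · rw [e1 t v hc] at c2; exact c2
      · intro hv
        have c2 := (mem_filter.1 hv).2.2
        simp only at c2
        rw [e2] at c2
        exact n1 c2.symm
  · obtain ⟨x', hx'⟩ : ∃ x', x' = σ s y' := ⟨_, rfl⟩
    have hx'y' : σ s x' = y' := by rw [hx', hσ.invol]
    have n4 : x' ≠ y' := by rw [hx']; exact hm
    have n5 : x' ≠ x := by
      intro e; rw [e, h2] at hx'y'; exact n1 hx'y'
    have n6 : x' ≠ y := by
      intro e; rw [e, y4] at hx'y'; exact n2 hx'y'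
    have p1 : D.part x' = D.part x := by rw [hx', hσ.part, b1]
    have p2 : D.side x' = D.side x := by rw [hx', hσ.side s y' hm, b2, Bool.not_not]
    have p3 : s ∈ D.L x' := hσ.moves s x' (by rw [hx'y']; exact n4.symm)
    let σ0 : P → V → V := fun t v =>
      if t = s ∧ (v = x ∨ v = y' ∨ v = x' ∨ v = y) then v else σ t v
    let σ2 : P → V → V := fun t v =>
      if t = s ∧ v = x then y' else if t = s ∧ v = y' then x else
        if t = s ∧ v = x' then y else if t = s ∧ v = y then x' else σ t v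
    have hsub : ∀ t v, σ0 t v ≠ v → σ t v = σ0 t v := by
      intro t v hv
      simp only [σ0] at hv ⊢
      split_ifs at hv ⊢ with hc
      · exact absurd rfl hv
      · rfl
    have hout : ∀ t v, ¬ (t = s ∧ (v = x ∨ v = y' ∨ v = x' ∨ v = y)) → σ0 t v = σ t v := by
      intro t v hc
      simp only [σ0, if_neg hc]
    have hin : ∀ v, (v = x ∨ v = y' ∨ v = x' ∨ v = y) → σ0 s v = v := by
      intro v hv
      simp only [σ0, hv, and_self, if_true]
    have hcl : ∀ v, ¬ (v = x ∨ v = y' ∨ v = x' ∨ v = y) →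
        ¬ (σ s v = x ∨ σ s v = y' ∨ σ s v = x' ∨ σ s v = y) := by
      intro v hv hc
      apply hv
      rw [← hσ.invol s v]
      rcases hc with e | e | e | e <;> rw [e]
      · rw [h2]; simp
      · rw [← hx']; simp
      · rw [hx'y']; simp
      · rw [y4]; simp
    have hinv0 : ∀ t v, σ0 t (σ0 t v) = v := by
      intro t v
      by_cases hc : t = s ∧ (v = x ∨ v = y' ∨ v = x' ∨ v = y)
      · obtain ⟨rfl, hv⟩ := hc
        rw [hin v hv, hin v hv]
      · rw [hout t v hc, hout, hσ.invol]
        rintro ⟨rfl, hv⟩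
        exact hcl v (fun hv' => hc ⟨rfl, hv'⟩) hv
    have e0 : ∀ t v, ¬ (t = s ∧ (v = x ∨ v = y' ∨ v = x' ∨ v = y)) → σ2 t v = σ t v := by
      intro t v hc
      simp only [σ2]
      rw [if_neg (by tauto), if_neg (by tauto), if_neg (by tauto), if_neg (by tauto)]
    have e1 : σ2 s x = y' := by simp [σ2]
    have e2 : σ2 s y' = x := by simp [σ2, n1.symm]
    have e3 : σ2 s x' = y := by simp [σ2, n4, n5]
    have e4 : σ2 s y = x' := by simp [σ2, n2, n3.symm, n6.symm]
    refine ⟨σ2, ⟨?_, ?_, ?_, ?_⟩, ?_, ?_⟩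
    · intro t v
      by_cases hc : t = s ∧ (v = x ∨ v = y' ∨ v = x' ∨ v = y)
      · obtain ⟨rfl, rfl | rfl | rfl | rfl⟩ := hc
        · rw [e1, e2]
        · rw [e2, e1]
        · rw [e3, e4]
        · rw [e4, e3]
      · rw [e0 t v hc, e0, hσ.invol]
        rintro ⟨rfl, hv⟩
        exact hcl v (fun hv' => hc ⟨rfl, hv'⟩) hv
    · intro t v hv
      by_cases hc : t = s ∧ (v = x ∨ v = y' ∨ v = x' ∨ v = y)
      · obtain ⟨rfl, rfl | rfl | rfl | rfl⟩ := hc
        · exact h1
        · exact b3
        · exact p3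
        · exact y3
      · rw [e0 t v hc] at hv; exact hσ.moves t v hv
    · intro t v hv
      by_cases hc : t = s ∧ (v = x ∨ v = y' ∨ v = x' ∨ v = y)
      · obtain ⟨rfl, rfl | rfl | rfl | rfl⟩ := hc
        · rw [e1, b2]
        · rw [e2, b2, Bool.not_not]
        · rw [e3, y2, p2]
        · rw [e4, y2, p2, Bool.not_not]
      · rw [e0 t v hc] at hv ⊢; exact hσ.side t v hv
    · intro t v
      by_cases hc : t = s ∧ (v = x ∨ v = y' ∨ v = x' ∨ v = y)
      · obtain ⟨rfl, rfl | rfl | rfl | rfl⟩ := hc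
        · rw [e1, b1]
        · rw [e2, b1]
        · rw [e3, y1, p1]
        · rw [e4, y1, p1]
      · rw [e0 t v hc]; exact hσ.part t v
    · refine switch_girth_two (σ0 := σ0) (s := s) (x := x) (y := y) (x' := x') (y' := y') hinv0
        (fun t v hc => by rw [e0 t v hc, hout t v hc]) e1 e2 e3 e4 (hin _ (by simp))
        (hin _ (by simp)) ?_ ?_ ?_ ?_ (switch_girth_sub hsub hg)
      · exact switch_far_of_not_near hsub [] [] b4 rfl rfl (by simp)
      · exact switch_far_edge hsub hinv0 hg hx'.symm n4 (hin _ (by simp))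
      · exact (switch_far_of_not_near hsub [] [s] b4 rfl hx'y' (by simp)).symm hinv0
      · exact (switch_far_of_not_near hsub [] [s] b5 rfl hx'y' (by simp)).symm hinv0
    · refine (ssubset_iff_of_subset ?_).2 ⟨(s, x), hxm, ?_⟩
      · rintro ⟨t, v⟩ hv
        obtain ⟨c1, c2⟩ := (mem_filter.1 hv).2
        simp only at c1 c2
        refine mem_filter.2 ⟨mem_univ _, c1, ?_⟩
        by_cases hc : t = s ∧ (v = x ∨ v = y' ∨ v = x' ∨ v = y)
        · obtain ⟨rfl, rfl | rfl | rfl | rfl⟩ := hc
          · exact h2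
          · rw [e2] at c2; exact absurd c2 n1
          · rw [e3] at c2; exact absurd c2 n6.symm
          · exact y4
        · rw [e0 t v hc] at c2; exact c2
      · intro hv
        have c2 := (mem_filter.1 hv).2.2
        simp only at c2
        rw [e1] at c2
        exact n1 c2.symm

/-- C1. There is a labelled graph of large girth. -/
theorem base_nonempty {D : Design P V} {g : ℕ}
    (hbal : ∀ i s, (D.cls i true s).card = (D.cls i false s).card)
    (hlow : ∀ x b s, 2 * (Fintype.card P + 1) ^ (g + 1) < (D.cls (D.part x) b s).card) :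
    (GG D g).Nonempty := by
  have key : ∀ (m : ℕ) (σ : P → V → V), (swMiss D σ).card = m → SwPre D σ → Girth σ g →
      (GG D g).Nonempty := by
    intro m
    induction m using Nat.strong_induction_on with
    | _ m ih =>
      intro σ hm hσ hg
      by_cases hc : ∃ s x, s ∈ D.L x ∧ σ s x = x
      · obtain ⟨s, x, h1, h2⟩ := hc
        obtain ⟨σ', a1, a2, a3⟩ := base_augment hbal hlow hσ hg h1 h2
        exact ih _ (hm ▸ card_lt_card a3) σ' rfl a1 a2
      · push Not at hc
        exact ⟨σ, switch_mem_GG.2 ⟨⟨hσ.invol, fun s x => ⟨hσ.moves s x, hc s x⟩,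
          fun s x hx => hσ.side s x (hc s x hx), hσ.part⟩, hg⟩⟩
  refine key _ (fun _ v => v) rfl ⟨fun _ _ => rfl, fun _ _ h => absurd rfl h,
    fun _ _ h => absurd rfl h, fun _ _ => rfl⟩ ?_
  intro x w hw _ _ _
  cases w with
  | nil => rfl
  | cons s w => exact absurd rfl hw.1

end Vale.Agent.P089
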