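import Vale.Agent.P194.Chain
import Vale.Agent.P089.BaseAux1

namespace Vale.Agent.P089

open Finset Vale.Agent.P194

/-- The complete design on two sides of size `N`. -/
def bD (N : ℕ) (hN : 0 < N) : Design (Fin 41) (Fin N × Bool) where
  side := fun x => x.2
  part := fun _ => 0
  L := fun _ => univ
  root := (⟨0, hN⟩, true)

lemma card_side (N : ℕ) (b : Bool) :
    (univ.filter (fun y : Fin N × Bool => y.2 = b)).card = N := by
  have : univ.filter (fun y : Fin N × Bool => y.2 = b) = (univ : Finset (Fin N)) ×ˢ {b} := by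
    ext ⟨a, c⟩; simp only [mem_filter, mem_univ, true_and, mem_product, mem_singleton]
  rw [this]; simp

lemma bD_cls {N : ℕ} (hN : 0 < N) (b : Bool) (s : Fin 41) : ((bD N hN).cls 0 b s).card = N := by
  refine Eq.trans ?_ (card_side N b)
  congr 1
  ext y
  simp [Design.cls, bD]

lemma bD_nonempty {N g : ℕ} (hN : 0 < N) (h : 2 * 42 ^ (g + 1) < N) :
    (GG (bD N hN) g).Nonempty := by
  apply base_nonempty
  · intro i s
    by_cases hi : i = 0
    · subst hi; rw [bD_cls, bD_cls]
    · have : ∀ b, (bD N hN).cls i b s = ∅ := fun b => by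
        ext y; simp [Design.cls, bD, Ne.symm hi]
      rw [this, this]
  · intro x b s
    have := bD_cls hN b s
    simp only [Fintype.card_fin]
    show 2 * 42 ^ (g + 1) < ((bD N hN).cls 0 b s).card
    omega

variable {N g : ℕ} {hN : 0 < N}

lemma bD_side {σ : Fin 41 → Fin N × Bool → Fin N × Bool} (h : IsGraph (bD N hN) σ) (c : Fin 41)
    (x : Fin N × Bool) : (σ c x).2 = !x.2 := h.side c x (mem_univ _)

lemma base_step (U2 : Finset (Fin N × Bool)) (hU2 : ∀ y ∈ U2, y.2 = false)
    (E : Finset (Fin 41 × (Fin N × Bool))) (hE : ∀ e ∈ E, e.2.2 = true)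
    (e : Fin 41 × (Fin N × Bool)) (he : e ∉ E) (he1 : e.2.2 = true) (M : ℕ)
    (hM : M + 42 ^ (g + 1) ≤ N) :
    ((GG (bD N hN) g).filter (fun σ => ∀ e' ∈ insert e E, σ e'.1 e'.2 ∈ U2)).card * M ≤
      ((GG (bD N hN) g).filter (fun σ => ∀ e' ∈ E, σ e'.1 e'.2 ∈ U2)).card * U2.card := by
  classical
  obtain ⟨s, x⟩ := e
  simp only at he1
  obtain ⟨A, hA⟩ : ∃ A, A = (GG (bD N hN) g).filter (fun σ => ∀ e' ∈ E, σ e'.1 e'.2 ∈ U2) :=
    ⟨_, rfl⟩
  have e1 : (GG (bD N hN) g).filter (fun σ => ∀ e' ∈ insert (s, x) E, σ e'.1 e'.2 ∈ U2) =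
      A.filter (fun σ => σ s x ∈ U2) := by
    rw [hA, filter_filter]
    apply filter_congr
    intro σ _
    simp only [forall_mem_insert]
    tauto
  rw [e1, ← hA]
  have e2 := card_filter_add_card_filter_not (s := A) (fun σ => σ s x ∈ U2)
  have key : (A.filter (fun σ => σ s x ∈ U2)).card * (M - U2.card) ≤
      (A.filter (fun σ => ¬ σ s x ∈ U2)).card * U2.card := by
    refine Finset.card_mul_le_card_mul (fun σ σ' => σ' = swSwitch σ s (σ s x) (σ' s x)) ?_ ?_
    · intro σ hσ
      obtain ⟨h1, hy⟩ := mem_filter.1 hσ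
      rw [hA] at h1
      obtain ⟨h1, h2⟩ := mem_filter.1 h1
      obtain ⟨hG, hg⟩ := switch_mem_GG.1 h1
      obtain ⟨y, hxy⟩ : ∃ y, σ s x = y := ⟨_, rfl⟩
      rw [hxy] at hy
      have he2 := hU2 y hy
      have hne : x ≠ y := by
        intro e; rw [e, he2] at he1; exact absurd he1 (by simp)
      have hyx : σ s y = x := by rw [← hxy, hG.invol]
      let C : Finset (Fin N × Bool) := (univ.filter (fun y : Fin N × Bool => y.2 = false) \
        univ.filter (SwNear σ (g + 1) x)) \ U2
      have hC : M - U2.card ≤ C.card := by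
        have a1 := le_card_sdiff U2 (univ.filter (fun y : Fin N × Bool => y.2 = false) \
          univ.filter (SwNear σ (g + 1) x))
        have a2 := le_card_sdiff (univ.filter (SwNear σ (g + 1) x))
          (univ.filter (fun y : Fin N × Bool => y.2 = false))
        have a3 := base_ball_card σ (g + 1) x
        have a5 := card_side N false
        simp only [Fintype.card_fin, Nat.reduceAdd] at a3
        simp only [C]
        omega
      have hval : ∀ y' ∈ C, swSwitch σ s y y' s x = y' := by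
        intro y' hy'
        have b1 := (mem_filter.1 (mem_sdiff.1 (mem_sdiff.1 hy').1).1).2
        have n1 : x ≠ y' := by
          intro e; rw [e, b1] at he1; exact absurd he1 (by simp)
        simp only [swSwitch, if_true]
        rw [Equiv.swap_apply_of_ne_of_ne hne n1, hxy, Equiv.swap_apply_left]
      refine hC.trans (Finset.card_le_card_of_injOn (fun y' => swSwitch σ s y y') ?_ ?_)
      · intro y' hy'
        have hy'' : y' ∈ C := hy'
        have b2 := (mem_filter.1 (mem_sdiff.1 (mem_sdiff.1 hy'').1).1).2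
        have b4 : ¬ SwNear σ (g + 1) x y' := fun hh =>
          (mem_sdiff.1 (mem_sdiff.1 hy'').1).2 (mem_filter.2 ⟨mem_univ _, hh⟩)
        have b5 := (mem_sdiff.1 hy'').2
        simp only [coe_bipartiteAbove, Set.mem_ofPred_eq]
        refine ⟨mem_filter.2 ⟨?_, by rw [hval y' hy'']; exact b5⟩, by rw [hval y' hy'', hxy]⟩
        rw [hA]
        refine mem_filter.2 ⟨switch_mem_GG.2 ⟨swSwitch_isGraph hG (b2.trans he2.symm) rfl
          (mem_univ _) (mem_univ _),
          swSwitch_girth hG.invol hg hxy hne ((hG.moves s y').2 (mem_univ _)) b4⟩, ?_⟩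
        rintro ⟨t, a⟩ he'
        have c1 : σ t a ∈ U2 := h2 _ he'
        have c2 := hE _ he'
        simp only at c2 ⊢
        by_cases h : t = s
        · subst h
          have n1 : a ≠ y := by
            intro e; rw [e, he2] at c2; exact absurd c2 (by simp)
          have n2 : a ≠ y' := by
            intro e; rw [e, b2] at c2; exact absurd c2 (by simp)
          have n3 : σ t a ≠ y' := by
            intro e; exact b5 (e ▸ c1)
          have n4 : σ t a ≠ y := by
            intro e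
            apply he
            have : a = x := by rw [← hyx, ← e, hG.invol]
            rw [← this]; exact he'
          simp only [swSwitch, if_true]
          rw [Equiv.swap_apply_of_ne_of_ne n1 n2, Equiv.swap_apply_of_ne_of_ne n4 n3]
          exact c1
        · simp only [swSwitch, if_neg h, c1]
      · intro y1 h1 y2 h2 h
        have h' : swSwitch σ s y y1 = swSwitch σ s y y2 := h
        rw [← hval y1 h1, h', hval y2 h2]
    · intro σ' _
      refine Finset.card_le_card_of_injOn (fun σ => σ s x) ?_ ?_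
      · intro σ hσ
        have e1 := (mem_bipartiteBelow _).1 (mem_coe.1 hσ)
        exact (mem_filter.1 e1.1).2
      · intro σ1 h1 σ2 h2 h
        have e1 := ((mem_bipartiteBelow _).1 (mem_coe.1 h1)).2
        have e2 := ((mem_bipartiteBelow _).1 (mem_coe.1 h2)).2
        have h' : σ1 s x = σ2 s x := h
        rw [← swSwitch_swSwitch σ1 s (σ1 s x) (σ' s x), ← e1,
          ← swSwitch_swSwitch σ2 s (σ2 s x) (σ' s x), ← e2, h']
  rw [← e2, add_mul]
  have : M ≤ U2.card + (M - U2.card) := by omega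
  calc _ ≤ (A.filter (fun σ => σ s x ∈ U2)).card * (U2.card + (M - U2.card)) :=
        Nat.mul_le_mul_left _ this
    _ ≤ _ := by rw [mul_add]; omega

lemma base_prob (U2 : Finset (Fin N × Bool)) (hU2 : ∀ y ∈ U2, y.2 = false) (M : ℕ)
    (hM : M + 42 ^ (g + 1) ≤ N) (E : Finset (Fin 41 × (Fin N × Bool)))
    (hE : ∀ e ∈ E, e.2.2 = true) :
    ((GG (bD N hN) g).filter (fun σ => ∀ e' ∈ E, σ e'.1 e'.2 ∈ U2)).card * M ^ E.card ≤
      (GG (bD N hN) g).card * U2.card ^ E.card := by
  induction E using Finset.induction_on with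
  | empty => simp
  | insert e E he ih =>
    rw [card_insert_of_notMem he]
    have h2 : ∀ e' ∈ E, e'.2.2 = true := fun e' he' => hE e' (mem_insert_of_mem he')
    have h3 := base_step (g := g) (hN := hN) U2 hU2 E h2 e he (hE e (mem_insert_self _ _)) M hM
    have h4 := ih h2
    rw [pow_succ', ← mul_assoc]
    refine (Nat.mul_le_mul_right _ h3).trans ?_
    rw [mul_right_comm, pow_succ, ← mul_assoc]
    exact Nat.mul_le_mul_right _ h4

/-- a non expanding set spans many edges -/
lemma bad_edges {σ : Fin 41 → Fin N × Bool → Fin N × Bool} (h : IsGraph (bD N hN) σ)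
    (U : Finset (Fin N × Bool))
    (hU : ((U ×ˢ (univ : Finset (Fin 41))).filter (fun q => σ q.2 q.1 ∉ U)).card < U.card) :
    ∃ E ⊆ (univ : Finset (Fin 41)) ×ˢ U.filter (fun y => y.2 = true), 20 * U.card ≤ E.card ∧
      (∀ e ∈ E, σ e.1 e.2 ∈ U.filter (fun y => y.2 = false)) ∧
      41 * (U.filter (fun y => y.2 = true)).card ≤ 21 * U.card ∧
      41 * (U.filter (fun y => y.2 = false)).card ≤ 21 * U.card := by
  let F : Bool → Finset (Fin 41 × (Fin N × Bool)) := fun b =>
    ((univ : Finset (Fin 41)) ×ˢ U.filter (fun y => y.2 = b)).filter (fun e => σ e.1 e.2 ∈ U)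
  have a1 : ∀ b, (F b).card ≤ (F (!b)).card := by
    intro b
    refine card_le_card_of_injOn (fun e => (e.1, σ e.1 e.2)) ?_ ?_
    · intro e he
      simp only [F, coe_filter, mem_product, mem_univ, mem_filter, true_and,
        Set.mem_ofPred_eq] at he ⊢
      exact ⟨⟨he.2, by rw [bD_side h, he.1.2]⟩, by rw [h.invol]; exact he.1.1⟩
    · rintro ⟨c, x⟩ _ ⟨c', x'⟩ _ he
      simp only [Prod.mk.injEq] at he
      obtain ⟨rfl, he⟩ := he
      rw [← h.invol c x, he, h.invol]
  have a2 : ∀ b, (F b).card ≤ 41 * (U.filter (fun y => y.2 = b)).card := by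
    intro b
    refine (card_filter_le _ _).trans ?_
    simp
  have a3 : (U.filter (fun y => y.2 = true)).card + (U.filter (fun y => y.2 = false)).card =
      U.card := by
    have := card_filter_add_card_filter_not (s := U) (fun y => y.2 = true)
    simpa using this
  have a4 : ((U ×ˢ (univ : Finset (Fin 41))).filter (fun q => σ q.2 q.1 ∈ U)).card ≤
      (F true).card + (F false).card := by
    refine le_trans ?_ (card_union_le _ _)
    refine card_le_card_of_injOn Prod.swap ?_ (Prod.swap_injective.injOn)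
    rintro ⟨x, c⟩ he
    simp only [F, coe_filter, mem_product, mem_univ, mem_filter, true_and, and_true,
      Set.mem_ofPred_eq, coe_union, Set.mem_union, Prod.swap_prod_mk] at he ⊢
    cases hx : x.2 <;> simp [he.1, he.2]
  have a5 := card_filter_add_card_filter_not (s := U ×ˢ (univ : Finset (Fin 41)))
    (fun q => σ q.2 q.1 ∈ U)
  rw [card_product, card_univ, Fintype.card_fin] at a5
  have b1 := a1 true
  have b2 := a1 false
  have b3 := a2 true
  have b4 := a2 false
  simp only [Bool.not_true, Bool.not_false] at b1 b2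
  refine ⟨F true, filter_subset _ _, by omega, ?_, by omega, by omega⟩
  intro e he
  simp only [F, mem_product, mem_univ, mem_filter, true_and] at he ⊢
  exact ⟨he.2, by rw [bD_side h, he.1.2]; rfl⟩

open Classical in
lemma bad_count (M : ℕ) (hM : M + 42 ^ (g + 1) ≤ N) (hM2 : 9 * N ≤ 10 * M)
    (U : Finset (Fin N × Bool)) (hU : U.card ≤ N) :
    (((GG (bD N hN) g).filter (fun σ => ((U ×ˢ (univ : Finset (Fin 41))).filter
      (fun q => σ q.2 q.1 ∉ U)).card < U.card)).card : ℝ) ≤
      (GG (bD N hN) g).card * ((3 * U.card / (100 * N)) ^ (20 * U.card) * 21 ^ (21 * U.card)) := by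
  obtain ⟨U1, hU1⟩ : ∃ U1, U1 = U.filter (fun y => y.2 = true) := ⟨_, rfl⟩
  obtain ⟨U2, hU2⟩ : ∃ U2, U2 = U.filter (fun y => y.2 = false) := ⟨_, rfl⟩
  have hN' : (0 : ℝ) < N := by exact_mod_cast hN
  by_cases hc : 41 * U1.card ≤ 21 * U.card ∧ 41 * U2.card ≤ 21 * U.card
  swap
  · rw [filter_eq_empty_iff.2, card_empty, Nat.cast_zero]
    · positivity
    · intro σ hσ hb
      obtain ⟨E, _, _, _, h1, h2⟩ := bad_edges (switch_mem_GG.1 hσ).1 U hb
      exact hc ⟨hU1 ▸ h1, hU2 ▸ h2⟩
  obtain ⟨S, hS⟩ : ∃ S, S = (univ : Finset (Fin 41)) ×ˢ U1 := ⟨_, rfl⟩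
  have hsub : (GG (bD N hN) g).filter (fun σ => ((U ×ˢ (univ : Finset (Fin 41))).filter
      (fun q => σ q.2 q.1 ∉ U)).card < U.card) ⊆
      (S.powerset.filter (fun E => 20 * U.card ≤ E.card)).biUnion (fun E =>
        (GG (bD N hN) g).filter (fun σ => ∀ e' ∈ E, σ e'.1 e'.2 ∈ U2)) := by
    intro σ hσ
    obtain ⟨h1, hb⟩ := mem_filter.1 hσ
    obtain ⟨E, e1, e2, e3, _, _⟩ := bad_edges (switch_mem_GG.1 h1).1 U hb
    refine mem_biUnion.2 ⟨E, mem_filter.2 ⟨mem_powerset.2 ?_, e2⟩, mem_filter.2 ⟨h1, ?_⟩⟩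
    · rw [hS, hU1]; exact e1
    · rw [hU2]; exact e3
  have h1 := (Nat.cast_le (α := ℝ)).2 ((card_le_card hsub).trans card_biUnion_le)
  refine h1.trans ?_
  push_cast
  obtain ⟨q, hq⟩ : ∃ q : ℝ, q = 3 * U.card / (100 * N) := ⟨_, rfl⟩
  rw [← hq]
  have q0 : 0 ≤ q := by rw [hq]; positivity
  have q1 : q ≤ 1 := by
    have : (U.card : ℝ) ≤ N := by exact_mod_cast hU
    rw [hq, div_le_one (by positivity)]; linarith
  have hM0 : (0 : ℝ) < M := by exact_mod_cast (by omega : 0 < M)
  have q2 : (U2.card : ℝ) ≤ q * 20 * M := by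
    have b1 : (41 * U2.card : ℝ) ≤ 21 * U.card := by exact_mod_cast hc.2
    have b2 : (9 * N : ℝ) ≤ 10 * M := by exact_mod_cast hM2
    rw [hq, div_mul_eq_mul_div, div_mul_eq_mul_div, le_div_iff₀ (by positivity)]
    have b3 : (0 : ℝ) ≤ U.card := Nat.cast_nonneg _
    nlinarith
  have h2 : ∀ E ∈ S.powerset.filter (fun E => 20 * U.card ≤ E.card),
      (((GG (bD N hN) g).filter (fun σ => ∀ e' ∈ E, σ e'.1 e'.2 ∈ U2)).card : ℝ) ≤
        (GG (bD N hN) g).card * q ^ (20 * U.card) * 20 ^ E.card := by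
    intro E hE
    obtain ⟨e1, e2⟩ := mem_filter.1 hE
    have := (Nat.cast_le (α := ℝ)).2 (base_prob (g := g) (hN := hN) U2
      (fun y hy => by rw [hU2] at hy; exact (mem_filter.1 hy).2) M hM E (fun e he => by
        have := mem_powerset.1 e1 he
        rw [hS, hU1] at this
        exact (mem_filter.1 (mem_product.1 this).2).2))
    push_cast at this
    refine le_of_mul_le_mul_right (this.trans ?_) (pow_pos hM0 E.card)
    calc _ ≤ ((GG (bD N hN) g).card : ℝ) * (q * 20 * M) ^ E.card := by gcongr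
      _ = (GG (bD N hN) g).card * q ^ E.card * 20 ^ E.card * M ^ E.card := by
        rw [mul_pow, mul_pow]; ring
      _ ≤ _ := by
        have := pow_le_pow_of_le_one q0 q1 e2
        gcongr
  refine (sum_le_sum h2).trans ?_
  refine (sum_le_sum_of_subset_of_nonneg (filter_subset _ _) (fun _ _ _ => by positivity)).trans ?_
  rw [← mul_sum, mul_assoc]
  have h3 := Finset.sum_pow_mul_eq_add_pow (20 : ℝ) 1 S
  simp only [one_pow, mul_one] at h3
  rw [h3]
  have h4 : S.card ≤ 21 * U.card := by rw [hS]; simpa using hc.1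
  have h5 : ((20 : ℝ) + 1) ^ S.card ≤ 21 ^ (21 * U.card) := by
    rw [show (20 : ℝ) + 1 = 21 by norm_num]
    exact pow_le_pow_right₀ (by norm_num) h4
  gcongr

lemma choose_bound (N k : ℕ) (hN : 0 < N) (hk : k ≤ N) :
    ((2 * N).choose k : ℝ) * ((3 * k / (100 * N)) ^ (20 * k) * 21 ^ (21 * k)) ≤ (1 / 4) ^ k := by
  rcases Nat.eq_zero_or_pos k with rfl | hk0
  · simp
  have hN' : (0 : ℝ) < N := by exact_mod_cast hN
  have hk' : (0 : ℝ) < k := by exact_mod_cast hk0
  have h1 : ((2 * N).choose k : ℝ) ≤ (6 * N / k) ^ k := by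
    have a1 : ((2 * N).choose k : ℝ) ≤ ((2 * N : ℕ) : ℝ) ^ k / k.factorial :=
      Nat.choose_le_pow_div k (2 * N)
    have a2 := Real.pow_div_factorial_le_exp (x := k) hk'.le k
    have a3 : Real.exp k ≤ 3 ^ k := by
      rw [← Real.exp_one_pow]
      exact pow_le_pow_left₀ (Real.exp_pos _).le (by have := Real.exp_one_lt_d9; linarith) k
    refine a1.trans ?_
    have : ((2 * N : ℕ) : ℝ) ^ k / k.factorial =
        (2 * N / k) ^ k * ((k : ℝ) ^ k / k.factorial) := by
      push_cast; rw [div_pow]; field_simp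
    rw [this, show (6 * N / k : ℝ) = 2 * N / k * 3 by ring, mul_pow]
    gcongr
    exact a2.trans a3
  refine (mul_le_mul_of_nonneg_right h1 (by positivity)).trans ?_
  rw [pow_mul, pow_mul, ← mul_pow, ← mul_pow]
  apply pow_le_pow_left₀ (by positivity)
  obtain ⟨r, hr⟩ : ∃ r : ℝ, r = k / N := ⟨_, rfl⟩
  have r0 : 0 < r := by rw [hr]; positivity
  have r1 : r ≤ 1 := by rw [hr, div_le_one hN']; exact_mod_cast hk
  have e : (6 * N / k : ℝ) * ((3 * k / (100 * N)) ^ 20 * 21 ^ 21) =
      6 * (3 / 100) ^ 20 * 21 ^ 21 * r ^ 19 := by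
    rw [hr]; field_simp
  rw [e]
  have := pow_le_one₀ r0.le r1 (n := 19)
  calc _ ≤ 6 * (3 / 100 : ℝ) ^ 20 * 21 ^ 21 * 1 := by gcongr
    _ ≤ _ := by norm_num

lemma exists_expander (M : ℕ) (hM : M + 42 ^ (g + 1) ≤ N) (hM2 : 9 * N ≤ 10 * M)
    (h : 2 * 42 ^ (g + 1) < N) : ∃ σ ∈ GG (bD N hN) g, ∀ U : Finset (Fin N × Bool), U.card ≤ N →
      U.card ≤ ((U ×ˢ (univ : Finset (Fin 41))).filter (fun q => σ q.2 q.1 ∉ U)).card := by
  classical
  by_contra hc
  push Not at hc
  have hsub : GG (bD N hN) g ⊆ ((univ : Finset (Fin N × Bool)).powerset.filter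
      (fun U => 1 ≤ U.card ∧ U.card ≤ N)).biUnion (fun U =>
        (GG (bD N hN) g).filter (fun σ => ((U ×ˢ (univ : Finset (Fin 41))).filter
          (fun q => σ q.2 q.1 ∉ U)).card < U.card)) := by
    intro σ hσ
    obtain ⟨U, h1, h2⟩ := hc σ hσ
    exact mem_biUnion.2 ⟨U, mem_filter.2 ⟨by simp, by omega, h1⟩, mem_filter.2 ⟨hσ, h2⟩⟩
  have h1 := (Nat.cast_le (α := ℝ)).2 ((card_le_card hsub).trans card_biUnion_le)
  push_cast at h1
  have h2 := h1.trans (sum_le_sum (fun U hU =>
    bad_count (g := g) (hN := hN) M hM hM2 U (mem_filter.1 hU).2.2))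
  have h0 : (0 : ℝ) < (GG (bD N hN) g).card := by
    exact_mod_cast card_pos.2 (bD_nonempty hN h)
  rw [← mul_sum, le_mul_iff_one_le_right h0, sum_filter,
    Finset.sum_powerset_apply_card (fun k : ℕ => if 1 ≤ k ∧ k ≤ N then
      (3 * (k : ℝ) / (100 * N)) ^ (20 * k) * 21 ^ (21 * k) else 0)] at h2
  have h3 : ∀ k ∈ range ((univ : Finset (Fin N × Bool)).card + 1),
      ((univ : Finset (Fin N × Bool)).card.choose k) • (if 1 ≤ k ∧ k ≤ N then
        (3 * (k : ℝ) / (100 * N)) ^ (20 * k) * 21 ^ (21 * k) else 0) ≤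
      (1 / 4 : ℝ) ^ k - if k = 0 then 1 else 0 := by
    intro k _
    have e : (univ : Finset (Fin N × Bool)).card = 2 * N := by simp [mul_comm]
    rw [e, nsmul_eq_mul]
    split_ifs with c1 c2 c2
    · omega
    · rw [sub_zero]; exact choose_bound N k hN c1.2
    · simp [c2]
    · simp
  have h4 := h2.trans (sum_le_sum h3)
  rw [sum_sub_distrib, sum_ite_eq', if_pos (by simp)] at h4
  have h5 := Summable.sum_le_tsum (range ((univ : Finset (Fin N × Bool)).card + 1))
    (fun k _ => by positivity) (summable_geometric_of_lt_one (r := (1 / 4 : ℝ))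
      (by norm_num) (by norm_num))
  rw [tsum_geometric_of_lt_one (by norm_num) (by norm_num)] at h5
  norm_num at h4 h5
  linarith

/-- Bipartite regular edge-coloured expanders with logarithmic girth. -/
theorem base_graphs : ∃ d : ℕ, 3 ≤ d ∧ ∀ g : ℕ, ∃ (X : Type) (_ : Fintype X) (_ : DecidableEq X)
    (side : X → Bool) (τ : Fin d → X → X),
    (∀ c x, τ c (τ c x) = x) ∧ (∀ c x, side (τ c x) = !side x) ∧ Girth τ g ∧
    (d + 1) ^ (g + 2) ≤ Fintype.card X ∧ Fintype.card X ≤ (d + 1) ^ (g + 6) ∧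
    ∀ U : Finset X, 2 * U.card ≤ Fintype.card X →
      U.card ≤ ((U ×ˢ (univ : Finset (Fin d))).filter (fun q => τ q.2 q.1 ∉ U)).card := by
  refine ⟨41, by norm_num, fun g => ?_⟩
  have hp : 0 < 42 ^ (g + 1) := by positivity
  obtain ⟨σ, h1, h2⟩ := exists_expander (g := g) (N := 42 * 42 ^ (g + 1)) (hN := by omega)
    (41 * 42 ^ (g + 1)) (by omega) (by omega) (by omega)
  obtain ⟨hG, hg⟩ := switch_mem_GG.1 h1
  have e : Fintype.card (Fin (42 * 42 ^ (g + 1)) × Bool) = 84 * 42 ^ (g + 1) := by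
    simp only [Fintype.card_prod, Fintype.card_fin, Fintype.card_bool]; omega
  refine ⟨Fin (42 * 42 ^ (g + 1)) × Bool, inferInstance, inferInstance, fun x => x.2, σ,
    hG.invol, bD_side hG, hg, ?_, ?_, fun U hU => h2 U (by omega)⟩
  · rw [e, show g + 2 = (g + 1) + 1 from rfl, pow_succ]
    simp only [Nat.reduceAdd]; omega
  · rw [e, show g + 6 = (g + 1) + 5 from rfl, pow_add (41 + 1) (g + 1) 5]
    simp only [Nat.reduceAdd]; omega

end Vale.Agent.P089
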