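import Vale.Agent.P089.Metric

set_option linter.unusedSectionVars false

namespace Vale.Agent.P089

open Finset Vale.Agent.P194

variable {d M : ℕ} {V : Type} {S : Sys d M V} {γ : V → S.G}

/-- The quotient map. -/
abbrev Sys.Ψ (S : Sys d M V) : FreeGroup (Fin d × Fin M) →* S.G := qmk S.D S.σ

theorem Sys.surj (S : Sys d M V) : Function.Surjective S.Ψ := QuotientGroup.mk'_surjective _

/-- An edge of the Cayley graph lies in a copy. -/
def Sys.EIn (S : Sys d M V) (γ : V → S.G) (c : S.G × ℕ) (e : S.G × (Fin d × Fin M)) : Prop :=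
  ∃ x, S.comp x = c.2 ∧ S.side x = true ∧ S.σ e.2 x ≠ x ∧ e.1 = c.1 * γ x

theorem EIn_ends (hS : S.Good) (hγ : S.Pot γ) {c : S.G × ℕ} {e : S.G × (Fin d × Fin M)}
    (h : S.EIn γ c e) : S.InC γ c e.1 ∧ S.InC γ c (hd S.Ψ e) := by
  obtain ⟨x, h1, h2, h3, h4⟩ := h
  refine ⟨⟨x, h1, h4⟩, S.σ e.2 x, by rw [hS.comp_sigma, h1], ?_⟩
  rw [hd, h4, hS.pot_sigma hγ h3, h2, mul_assoc]

theorem EIn_ed (hS : S.Good) (hγ : S.Pot γ) (a : S.G) {x : V} {s : Fin d × Fin M}
    (h : S.σ s x ≠ x) : S.EIn γ (a, S.comp x) (ed S.Ψ (a * γ x) s (S.side x)) := by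
  cases hb : S.side x
  · refine ⟨S.σ s x, hS.comp_sigma _ _, ?_, ?_, ?_⟩
    · have := hS.isGraph.side_of_ne h
      change S.side (S.σ s x) = !S.side x at this
      rw [this, hb]; rfl
    · simp only [ed, Bool.false_eq_true, if_false]
      rw [hS.isGraph.invol]; exact h.symm
    · simp only [ed, Bool.false_eq_true, if_false]
      rw [hS.pot_sigma hγ h, hb, mul_assoc]
  · exact ⟨x, rfl, hb, h, rfl⟩

theorem EIn_word (hS : S.Good) (hγ : S.Pot γ) (a : S.G) {x : V} {w : List (Fin d × Fin M)}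
    (h : Valid S.σ x w) :
    ∀ e ∈ edges S.Ψ (a * γ x) (word S.D S.σ x w), S.EIn γ (a, S.comp x) e := by
  induction w generalizing x with
  | nil => simp [word, edges]
  | cons s w ih =>
    intro e he
    simp only [word, edges, List.mem_cons] at he
    rcases he with rfl | he
    · exact EIn_ed hS hγ a h.1
    · have := ih h.2 e
      rw [hS.comp_sigma, hS.pot_sigma hγ h.1, ← mul_assoc] at this
      exact this he

theorem pts_in (hS : S.Good) (hγ : S.Pot γ) {c : S.G × ℕ} {p : S.G}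
    {u : List ((Fin d × Fin M) × Bool)} (hp : S.InC γ c p)
    (h : ∀ e ∈ edges S.Ψ p u, S.EIn γ c e) {k : ℕ} (hk : k ≤ u.length) :
    S.InC γ c (pt S.Ψ p u k) := by
  cases k with
  | zero => rwa [pt_zero]
  | succ k =>
    have h1 := EIn_ends hS hγ (h _ (mem_edges.2 ⟨k, hk, rfl⟩))
    rcases edge_ends (Ψ := S.Ψ) p u hk with h2 | h2
    · exact h2.2 ▸ h1.2
    · exact h2.1 ▸ h1.1

/-- The Greendlinger type alternative. -/
theorem star (hS : S.Good) (hγ : S.Pot γ) (a : S.G) (x : V) (w : List (Fin d × Fin M))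
    (hw : Valid S.σ x w) (u : List ((Fin d × Fin M) × Bool))
    (hu : a * γ (walk S.σ x w) * ev S.Ψ u = a * γ x)
    (hn : (edges S.Ψ (a * γ (walk S.σ x w)) u).Nodup) :
    ((∀ e ∈ edges S.Ψ (a * γ (walk S.σ x w)) u, S.EIn γ (a, S.comp x) e) ∧
      (w = [] → u = []) ∧ (u = [] → walk S.σ x w = x)) ∨
    ∃ (c : S.G × ℕ) (L : ℕ) (J : Finset (S.G × (Fin d × Fin M))) (Q : S.G → Prop),
      2000 * S.pc c.2 ≤ L ∧ 9 * L ≤ 10 * J.card ∧
      (∀ e ∈ J, e ∈ edges S.Ψ (a * γ (walk S.σ x w)) u ∧ S.EIn γ c e ∧ Q e.1 ∧ Q (hd S.Ψ e)) ∧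
      (∀ g, Q g → S.InC γ c g) ∧ ∀ g g', Q g → Q g' → 2 * dst S.Ψ g g' ≤ L := by
  classical
  have e1 : a * γ (walk S.σ x w) = (a * γ x) * ev S.Ψ (word S.D S.σ x w) := by
    rw [hS.pot_walk hγ hw, mul_assoc]; rfl
  rw [e1] at hu hn ⊢
  rw [edges_mul] at hn ⊢
  have hu' : ev S.Ψ (word S.D S.σ x w) * ev S.Ψ u = 1 := by
    rw [mul_assoc] at hu
    exact mul_eq_left.1 hu
  rcases star0 hS x w hw u _ rfl hu' (List.Nodup.of_map _ hn) with
    ⟨⟨w', h1, h2⟩, h3⟩ | ⟨p, y, v, J, h1, h2, h3, h4, h5⟩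
  · refine Or.inl ⟨?_, h3⟩
    intro e he
    obtain ⟨e', he', rfl⟩ := List.mem_map.1 he
    apply EIn_word hS hγ a h1
    have := edges_mul (Ψ := S.Ψ) (a * γ x) 1 (word S.D S.σ x w')
    rw [mul_one] at this
    rw [this]
    exact List.mem_map_of_mem (h2 e' he')
  · right
    have hy : a * γ x * p = (a * γ x * p * (γ y)⁻¹) * γ y := by group
    have hl : ev S.Ψ (word S.D S.σ y v) = 1 := kills_qmk S.D S.σ y v h1 h2
    have hin := EIn_word hS hγ (a * γ x * p * (γ y)⁻¹) h1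
    rw [← hy] at hin
    refine ⟨(a * γ x * p * (γ y)⁻¹, S.comp y), v.length,
      J.image (fun e => (a * γ x * e.1, e.2)),
      fun g => ∃ k ≤ (word S.D S.σ y v).length, g = pt S.Ψ (a * γ x * p) (word S.D S.σ y v) k,
      h3, ?_, ?_, ?_, ?_⟩
    · rw [card_image_of_injective]
      · exact h4
      · intro e e' h
        simp only [Prod.mk.injEq, mul_right_inj] at h
        exact Prod.ext h.1 h.2
    · intro e he
      obtain ⟨e', he', rfl⟩ := mem_image.1 he
      have h6 : (a * γ x * e'.1, e'.2) ∈ edges S.Ψ (a * γ x * p) (word S.D S.σ y v) := by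
        rw [edges_mul]; exact List.mem_map_of_mem (h5 e' he').2
      refine ⟨List.mem_map_of_mem (h5 e' he').1, hin _ h6, ?_⟩
      obtain ⟨k, hk, e2⟩ := mem_edges.1 h6
      rw [e2]
      rcases edge_ends (Ψ := S.Ψ) (a * γ x * p) _ hk with h7 | h7
      · exact ⟨⟨k, hk.le, h7.1⟩, k + 1, hk, h7.2⟩
      · exact ⟨⟨k + 1, hk, h7.1⟩, k, hk.le, h7.2⟩
    · rintro g ⟨k, hk, rfl⟩
      exact pts_in hS hγ ⟨y, rfl, hy⟩ hin hk
    · rintro g g' ⟨k, hk, rfl⟩ ⟨k', hk', rfl⟩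
      have := dst_loop S.surj (a * γ x * p) hl hk hk'
      rwa [word_length] at this

theorem Sys.Good.valid_tau (hS : S.Good) (i : Fin d) (x : V) : S.σ (i, S.lab x i) x ≠ x :=
  (hS.moves _ _).2 rfl

theorem Sys.Good.conn (hS : S.Good) {x y : V} (h : S.comp x = S.comp y) :
    ∃ w, Valid S.σ x w ∧ walk S.σ x w = y := by
  classical
  let U := (S.Xs (S.comp x)).filter (fun z => ∃ w, Valid S.σ x w ∧ walk S.σ x w = z)
  let U' := (S.Xs (S.comp x)).filter (fun z => ¬ ∃ w, Valid S.σ x w ∧ walk S.σ x w = z)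
  have hc : U.card + U'.card = (S.Xs (S.comp x)).card := card_filter_add_card_filter_not _
  have hcl : ∀ z i, (∃ w, Valid S.σ x w ∧ walk S.σ x w = z) →
      ∃ w, Valid S.σ x w ∧ walk S.σ x w = S.τ i z := by
    rintro z i ⟨w, h1, rfl⟩
    refine ⟨w ++ [(i, S.lab (walk S.σ x w) i)], valid_append.2 ⟨h1, hS.valid_tau _ _, trivial⟩, ?_⟩
    rw [walk_append, walk, walk, hS.sigma_eq (hS.valid_tau _ _)]
  have key : ∀ W ⊆ S.Xs (S.comp x), 2 * W.card ≤ (S.Xs (S.comp x)).card →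
      (∀ z ∈ W, ∀ i, S.τ i z ∈ W) → W = ∅ := by
    intro W h1 h2 h3
    have := hS.exp _ W h1 h2
    rw [filter_eq_empty_iff.2 (fun q hq hn => hn (by
      convert h3 _ (mem_product.1 hq).1 q.2))] at this
    simpa using this
  by_contra hn
  rcases le_total U.card U'.card with hle | hle
  · have := key U (filter_subset _ _) (by omega) (fun z hz i => mem_filter.2
      ⟨(hS.mem _ _).2 (by rw [hS.comp_τ]; exact (hS.mem _ _).1 (mem_filter.1 hz).1),
        hcl z i (mem_filter.1 hz).2⟩)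
    have hx : x ∈ U := mem_filter.2 ⟨(hS.mem _ _).2 rfl, [], trivial, rfl⟩
    simp [this] at hx
  · have := key U' (filter_subset _ _) (by omega) (fun z hz i => mem_filter.2
      ⟨(hS.mem _ _).2 (by rw [hS.comp_τ]; exact (hS.mem _ _).1 (mem_filter.1 hz).1),
        fun hh => (mem_filter.1 hz).2 (by simpa [hS.invol] using hcl _ i hh)⟩)
    have hy : y ∈ U' := mem_filter.2 ⟨(hS.mem _ _).2 h.symm, hn⟩
    simp [this] at hy

theorem pot_inj (hS : S.Good) (hγ : S.Pot γ) (x y : V) (h : S.comp x = S.comp y)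
    (e : γ x = γ y) : x = y := by
  obtain ⟨w, h1, rfl⟩ := hS.conn h
  rcases star hS hγ 1 x w h1 [] (by rw [ev_nil, mul_one, e]) (by simp [edges]) with
    h2 | ⟨c, L, J, Q, h2, h3, h4, -⟩
  · exact (h2.2.2 rfl).symm
  · have : J = ∅ := eq_empty_of_forall_notMem (fun e he => by simpa [edges] using (h4 e he).1)
    have := hS.pc_pos c.2
    subst J
    simp at h3
    omega

theorem span_geo (hJ : Finset (S.G × (Fin d × Fin M))) {Q : S.G → Prop} {L : ℕ} (p : S.G)
    {u : List ((Fin d × Fin M) × Bool)} (hu : IsGeo S.Ψ u)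
    (h : ∀ e ∈ hJ, e ∈ edges S.Ψ p u ∧ Q e.1 ∧ Q (hd S.Ψ e))
    (hQ : ∀ g g', Q g → Q g' → 2 * dst S.Ψ g g' ≤ L) : 2 * hJ.card ≤ L := by
  rcases hJ.eq_empty_or_nonempty with rfl | hne
  · simp
  obtain ⟨i, j, h1, h2, h3, h4⟩ := span p u hJ Q h hne
  have := hQ _ _ h3 h4
  rw [hu.dst_pt S.surj p (by omega) h2] at this
  omega

/-- Convexity of the copies. -/
theorem convex (hS : S.Good) (hγ : S.Pot γ) {c : S.G × ℕ} {p : S.G}
    {u : List ((Fin d × Fin M) × Bool)} (hu : IsGeo S.Ψ u) (hp : S.InC γ c p)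
    (hq : S.InC γ c (p * ev S.Ψ u)) : ∀ e ∈ edges S.Ψ p u, S.EIn γ c e := by
  obtain ⟨y, h1, rfl⟩ := hp
  obtain ⟨x, h2, h3⟩ := hq
  obtain ⟨w, h4, rfl⟩ := hS.conn (h2.trans h1.symm)
  rcases star hS hγ c.1 x w h4 u h3 (hu.nodup S.surj _) with
    h5 | ⟨c', L, J, Q, h5, h6, h7, -, h8⟩
  · rw [h2] at h5; exact h5.1
  · have := span_geo J _ hu (fun e he => ⟨(h7 e he).1, (h7 e he).2.2⟩) h8
    have := hS.pc_pos c'.2
    omega

theorem conv_pt (hS : S.Good) (hγ : S.Pot γ) {c : S.G × ℕ} {p : S.G}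
    {u : List ((Fin d × Fin M) × Bool)} (hu : IsGeo S.Ψ u) {i j k : ℕ} (hik : i ≤ k)
    (hkj : k ≤ j) (hj : j ≤ u.length) (hi : S.InC γ c (pt S.Ψ p u i))
    (hj' : S.InC γ c (pt S.Ψ p u j)) : S.InC γ c (pt S.Ψ p u k) := by
  have h1 := convex hS hγ ((hu.drop S.surj i).take S.surj (j - i)) hi (by
    have := pt_drop (Ψ := S.Ψ) p u i (j - i)
    rw [show i + (j - i) = j by omega] at this
    rw [← this] at hj'
    exact hj')
  have h2 := pts_in hS hγ hi h1 (k := k - i) (by simp; omega)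
  rwa [pt_take _ _ (by omega), pt_drop, show i + (k - i) = k by omega] at h2

theorem lift1 (hS : S.Good) (hγ : S.Pot γ) {a : S.G} {x : V} {s : Fin d × Fin M} {b : Bool}
    (h : S.EIn γ (a, S.comp x) (ed S.Ψ (a * γ x) s b)) : S.σ s x ≠ x ∧ b = S.side x := by
  obtain ⟨x', h1, h2, h3, h4⟩ := h
  cases b
  · simp only [ed, Bool.false_eq_true, if_false] at h3 h4
    have h5 : γ x = γ (S.σ s x') := by
      rw [hS.pot_sigma hγ h3, h2]
      have h6 := gen_mul_not S.Ψ s false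
      simp only [Bool.not_false] at h6
      rw [mul_assoc, mul_right_inj] at h4
      rw [← h4, mul_assoc, h6, mul_one]
    have h6 := pot_inj hS hγ _ _ (by rw [hS.comp_sigma, h1]) h5
    have h7 := hS.isGraph.side_of_ne h3
    change S.side (S.σ s x') = !S.side x' at h7
    rw [h6, hS.isGraph.invol, h7, h2]
    exact ⟨h3.symm, rfl⟩
  · simp only [ed, if_true, mul_right_inj] at h3 h4
    obtain rfl := pot_inj hS hγ _ _ h1.symm h4
    exact ⟨h3, h2.symm⟩

theorem lift (hS : S.Good) (hγ : S.Pot γ) {a : S.G} {x : V}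
    {u : List ((Fin d × Fin M) × Bool)}
    (h : ∀ e ∈ edges S.Ψ (a * γ x) u, S.EIn γ (a, S.comp x) e) :
    Valid S.σ x (u.map Prod.fst) ∧ word S.D S.σ x (u.map Prod.fst) = u := by
  induction u generalizing x with
  | nil => exact ⟨trivial, rfl⟩
  | cons l u ih =>
    obtain ⟨h1, h2⟩ := lift1 hS hγ (h _ List.mem_cons_self)
    obtain ⟨h3, h4⟩ := ih (x := S.σ l.1 x) (by
      intro e he
      rw [hS.comp_sigma]
      apply h
      rw [hS.pot_sigma hγ h1, ← mul_assoc, ← h2] at he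
      exact List.mem_cons_of_mem _ he)
    refine ⟨⟨h1, h3⟩, ?_⟩
    rw [List.map_cons, word, h4]
    congr 1
    exact Prod.ext rfl h2.symm

theorem geo_chain (hS : S.Good) {x : V} {w : List (Fin d × Fin M)} (hw : Valid S.σ x w)
    (h : IsGeo S.Ψ (word S.D S.σ x w)) : w.IsChain (· ≠ ·) := by
  induction w generalizing x with
  | nil => simp
  | cons s w ih =>
    cases w with
    | nil => simp
    | cons t w =>
      rw [List.isChain_cons_cons]
      refine ⟨?_, ih hw.2 (h.split S.surj (u := [_])).2⟩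
      rintro rfl
      have h1 := (h.split S.surj (u := [_, _])).1
      rw [IsGeo, ev_cons, ev_cons, ev_nil, hS.isGraph.side_of_ne hw.1, mul_one, gen_mul_not,
        len_one] at h1
      simp at h1

/-- Two different copies have a small intersection. -/
theorem pc_bound (hS : S.Good) (hγ : S.Pot γ) {c c' : S.G × ℕ} (hc : c ≠ c') {v v' : S.G}
    (h1 : S.InC γ c v) (h2 : S.InC γ c' v) (h3 : S.InC γ c v') (h4 : S.InC γ c' v') :
    dst S.Ψ v v' < S.pc c.2 := by
  obtain ⟨u, rfl, h5, h6⟩ := exists_geo' S.surj v v'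
  rw [← h5]
  have k1 := convex hS hγ h6 h1 h3
  have k2 := convex hS hγ h6 h2 h4
  obtain ⟨a, n⟩ := c
  obtain ⟨a', n'⟩ := c'
  obtain ⟨x, rfl, rfl⟩ := h1
  obtain ⟨x', rfl, e⟩ := h2
  simp only at e k1 k2 ⊢
  obtain ⟨l1, l2⟩ := lift hS hγ k1
  rw [e] at k2
  obtain ⟨l3, l4⟩ := lift hS hγ k2
  cases u with
  | nil => exact hS.pc_pos _
  | cons l u =>
    have := hS.piece x x' _ (by
      rintro rfl
      exact hc (by rw [mul_left_inj] at e; rw [e])) (by
      have a1 := congrArg List.head? l2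
      have a2 := congrArg List.head? l4
      simp only [List.map_cons, word, List.head?_cons, Option.some.injEq] at a1 a2
      exact (congrArg Prod.snd a1).trans (congrArg Prod.snd a2).symm) l1 l3
      (geo_chain hS l1 (by rw [l2]; exact h6))
    rwa [List.length_map] at this

end Vale.Agent.P089
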