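import Vale.Agent.P194.Chain

/-!
Shared definitions for the P089 project (a projection of irrational trace).
-/

namespace Vale.Agent.P089

open Finset Vale.Agent.P194

/-- An infinite family of finite bipartite `d`-regular edge-coloured graphs with an additional
labelling of the edges by `M` letters. -/
structure Sys (d M : ℕ) (V : Type) where
  side : V → Bool
  comp : V → ℕ
  τ : Fin d → V → V
  lab : V → Fin d → Fin M
  Xs : ℕ → Finset V
  pc : ℕ → ℕ
  root : V

/-- Vertex types: a side and the labels of the `d` edges. -/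
abbrev Ty (d M : ℕ) : Type := Bool × (Fin d → Fin M)

namespace Sys

variable {d M : ℕ} {V : Type} (S : Sys d M V)

/-- The associated design. -/
def D : Design (Fin d × Fin M) V where
  side := S.side
  part := fun _ => 0
  L := fun x => univ.filter (fun s => S.lab x s.1 = s.2)
  root := S.root

/-- The associated labelled graph. -/
def σ (s : Fin d × Fin M) (x : V) : V := if S.lab x s.1 = s.2 then S.τ s.1 x else x

/-- The type of a vertex. -/
def ty (x : V) : Ty d M := (S.side x, S.lab x)

open Classical in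
/-- Small cancellation, expansion and growth hypotheses. -/
structure Good : Prop where
  three : 3 ≤ d
  mem : ∀ n x, x ∈ S.Xs n ↔ S.comp x = n
  invol : ∀ c x, S.τ c (S.τ c x) = x
  side_τ : ∀ c x, S.side (S.τ c x) = !S.side x
  comp_τ : ∀ c x, S.comp (S.τ c x) = S.comp x
  lab_τ : ∀ c x, S.lab (S.τ c x) c = S.lab x c
  pc_pos : ∀ n, 1 ≤ S.pc n
  girth : ∀ x w, Valid S.σ x w → w.IsChain (· ≠ ·) → walk S.σ x w = x → w ≠ [] →
    2000 * S.pc (S.comp x) ≤ w.length
  piece : ∀ x x' w, x ≠ x' → S.side x = S.side x' → Valid S.σ x w → Valid S.σ x' w →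
    w.IsChain (· ≠ ·) → w.length < S.pc (S.comp x)
  big : ∀ n, 8 * (d + 1) ^ (3 * S.pc n) ≤ (S.Xs n).card
  exp : ∀ n, ∀ U ⊆ S.Xs n, 2 * U.card ≤ (S.Xs n).card →
    U.card ≤ ((U ×ˢ (univ : Finset (Fin d))).filter (fun q => S.τ q.2 q.1 ∉ U)).card
  grow : ∀ n, 2 * ((S.Xs n).card + n) ≤ (S.Xs (n + 1)).card

/-- The group. -/
abbrev G : Type := Gq S.D S.σ

/-- Image of a signed generator. -/
def gn (s : Fin d × Fin M) (b : Bool) : S.G := gen (qmk S.D S.σ) s b

/-- A potential for the labelled graph. -/
def Pot (γ : V → S.G) : Prop :=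
  ∀ c x, γ (S.τ c x) = γ x * S.gn (c, S.lab x c) (S.side x)

/-- The point `g` lies in the copy `c = (a, n)`. -/
def InC (γ : V → S.G) (c : S.G × ℕ) (g : S.G) : Prop := ∃ x, S.comp x = c.2 ∧ g = c.1 * γ x

open Classical in
/-- The partial matchings of the group determined by a type assignment. -/
noncomputable def nu (T : S.G → Option (Ty d M)) (c : Fin d) (v : S.G) : S.G :=
  match T v with
  | none => v
  | some t =>
    if ∃ t', T (v * S.gn (c, t.2 c) t.1) = some t' ∧ t'.1 = (!t.1) ∧ t'.2 c = t.2 c then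
      v * S.gn (c, t.2 c) t.1 else v

/-- The type assignment shows the full pattern on the copy `c`. -/
def Pat (γ : V → S.G) (T : S.G → Option (Ty d M)) (c : S.G × ℕ) : Prop :=
  ∀ x, S.comp x = c.2 → T (c.1 * γ x) = some (S.ty x)

end Sys

/-- Squared norm of a finitely supported function. -/
noncomputable def nsq {α : Type} (f : α →₀ ℂ) : ℝ := f.sum (fun _ z => ‖z‖ ^ 2)

end Vale.Agent.P089
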