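import Vale.Agent.P089.Defs

namespace Vale.Agent.P089

open Finset Vale.Agent.P194

namespace Sys

variable {d M : ℕ} {V : Type} (S : Sys d M V)

open Classical in
/-- Geometric facts about a height function `h` on the group and the minimal heights `m` of the
copies. -/
structure Geo (γ : V → S.G) (h : S.G → ℕ) (m : S.G × ℕ → ℕ) : Prop where
  inj : ∀ x y, S.comp x = S.comp y → γ x = γ y → x = y
  par : ∀ v s b, h (v * S.gn s b) = h v + 1 ∨ h (v * S.gn s b) + 1 = h v
  down : ∀ a x s b, m (a, S.comp x) + 2 * S.pc (S.comp x) ≤ h (a * γ x) →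
    h (a * γ x * S.gn s b) < h (a * γ x) → S.lab x s.1 = s.2 ∧ b = S.side x
  two : ∀ v s b s' b', (s, b) ≠ (s', b') → h (v * S.gn s b) < h v → h (v * S.gn s' b') < h v →
    ∃ c, S.InC γ c v ∧ m c + 500 * S.pc c.2 ≤ h v
  disj : ∀ c c' v, S.InC γ c v → S.InC γ c' v → m c + 2 * S.pc c.2 ≤ h v →
    m c' + 2 * S.pc c'.2 ≤ h v → c = c'
  low : ∀ c : S.G × ℕ, 8 * ((S.Xs c.2).filter
    (fun x => h (c.1 * γ x) < m c + 2 * S.pc c.2)).card ≤ (S.Xs c.2).card

end Sys

end Vale.Agent.P089
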