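import Vale.Agent.P194.Reduce

set_option linter.unusedSectionVars false

namespace Vale.Agent.P089

open Vale.Agent.P194

variable {P V H : Type} [Group H] {D : Design P V} {σ : P → V → V} {Ψ : FreeGroup P →* H}

/-- Sign, label and position of a record. -/
def rdat (r : Rc P V H) : Bool × P × H := (r.b, r.s, r.p)

theorem map_rdat_ren (i j : ℕ) (l : List (Rc P V H)) : (l.map (ren i j)).map rdat = l.map rdat := by
  rw [List.map_map]
  apply List.map_congr_left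
  intro r _
  simp only [Function.comp, rdat, ren_b, ren_s, ren_p]

/-- A diagram with boundary of length `nB`, a special face and closed faces, of class `c`. -/
def Dg2 (D : Design P V) (σ : P → V → V) (Ψ : FreeGroup P →* H) (nB : List (Bool × P × H)) (u v : V × H)
    (c : (H × V × P) →₀ ℤ) (f0 : List (Rc P V H)) (Fs : List (List (Rc P V H))) : Prop :=
  (∃ Bd : List (Rc P V H), Bd.map rdat = nB ∧ Pl Ψ (Bd :: f0 :: Fs)) ∧ RPath D σ Ψ u f0 v ∧
    (∀ f ∈ Fs, ∃ w, RPath D σ Ψ w f w) ∧ clsL D σ Ψ (f0 :: Fs).flatten = c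

variable {nB : List (Bool × P × H)} {u v : V × H} {c : (H × V × P) →₀ ℤ}

theorem Dg2.perm {f0 : List (Rc P V H)} {Fs Fs' : List (List (Rc P V H))}
    (h : Dg2 D σ Ψ nB u v c f0 Fs) (hp : Fs.Perm Fs') : Dg2 D σ Ψ nB u v c f0 Fs' := by
  obtain ⟨⟨Bd, h1, h2⟩, h3, h4, h5⟩ := h
  refine ⟨⟨Bd, h1, h2.perm ((hp.cons _).cons _)⟩, h3, fun f hf => h4 f (hp.mem_iff.2 hf), ?_⟩
  rw [← h5]; exact clsL_perm (hp.cons _).flatten.symm

theorem Dg2.cons {f0 : List (Rc P V H)} {Fs : List (List (Rc P V H))}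
    (h : Dg2 D σ Ψ nB u v c f0 Fs) {r r' : Rc P V H} (hr : r ∈ (f0 :: Fs).flatten)
    (hr' : r' ∈ (f0 :: Fs).flatten) (hi : r.id = r'.id) :
    r.s = r'.s ∧ (r.b ≠ r'.b → r'.p = r.p * gen Ψ r.s r.b) := by
  obtain ⟨⟨Bd, _, h2⟩, -⟩ := h
  exact h2.1.cons r (List.mem_append_right _ hr) r' (List.mem_append_right _ hr') hi

theorem Dg2.drop_nil {f0 : List (Rc P V H)} {Fs : List (List (Rc P V H))}
    (h : Dg2 D σ Ψ nB u v c f0 ([] :: Fs)) : Dg2 D σ Ψ nB u v c f0 Fs := by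
  obtain ⟨⟨Bd, h1, h2⟩, h3, h4, h5⟩ := h
  refine ⟨⟨Bd, h1, ?_⟩, h3, fun f hf => h4 f (List.mem_cons_of_mem _ hf), ?_⟩
  · exact (h2.perm (List.perm_middle (l₁ := [Bd, f0]))).drop_nil
  · simpa using h5

theorem Dg2.rotate {f0 A B : List (Rc P V H)} {Fs : List (List (Rc P V H))}
    (h : Dg2 D σ Ψ nB u v c f0 ((A ++ B) :: Fs)) : Dg2 D σ Ψ nB u v c f0 ((B ++ A) :: Fs) := by
  obtain ⟨⟨Bd, h1, h2⟩, h3, h4, h5⟩ := h
  refine ⟨⟨Bd, h1, ?_⟩, h3, ?_, ?_⟩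
  · exact (h2.perm (List.perm_middle (l₁ := [Bd, f0]))).rotate.perm
      (List.perm_middle (l₁ := [Bd, f0])).symm
  · intro f hf
    rcases List.mem_cons.1 hf with rfl | hf
    · obtain ⟨w, hw⟩ := h4 _ List.mem_cons_self
      obtain ⟨m, a, b⟩ := rpath_append.1 hw
      exact ⟨m, rpath_append.2 ⟨w, b, a⟩⟩
    · exact h4 f (List.mem_cons_of_mem _ hf)
  · rw [← h5]
    simp only [List.flatten_cons, clsL_append]; abel

theorem Dg2.fold0 (hσ : IsGraph D σ) {A B : List (Rc P V H)} {r1 r2 : Rc P V H}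
    {Fs : List (List (Rc P V H))} (h : Dg2 D σ Ψ nB u v c (A ++ r1 :: r2 :: B) Fs)
    (hs : r1.s = r2.s) :
    Dg2 D σ Ψ nB u v c ((A ++ B).map (ren r1.id r2.id)) (Fs.map (List.map (ren r1.id r2.id))) := by
  obtain ⟨⟨Bd, h1, h2⟩, h3, h4, h5⟩ := h
  obtain ⟨a1, a2, a3, a4⟩ := rpath_fold hσ h3 hs
  refine ⟨⟨Bd.map (ren r1.id r2.id), by rw [map_rdat_ren]; exact h1, ?_⟩, rpath_ren _ _ a3, ?_, ?_⟩
  · have := (h2.perm (List.Perm.swap _ _ _)).fold hs a1 a2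
    exact this.perm (List.Perm.swap _ _ _)
  · intro f hf
    obtain ⟨f', hf', rfl⟩ := List.mem_map.1 hf
    obtain ⟨w, hw⟩ := h4 f' hf'
    exact ⟨w, rpath_ren _ _ hw⟩
  · rw [← h5, List.flatten_cons, List.flatten_cons, clsL_append, clsL_append, ← List.map_flatten,
      clsL_ren, clsL_ren, a4]

theorem Dg2.fold1 (hσ : IsGraph D σ) {f0 A B : List (Rc P V H)} {r1 r2 : Rc P V H}
    {Fs : List (List (Rc P V H))} (h : Dg2 D σ Ψ nB u v c f0 ((A ++ r1 :: r2 :: B) :: Fs))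
    (hs : r1.s = r2.s) :
    Dg2 D σ Ψ nB u v c (f0.map (ren r1.id r2.id))
      (((A ++ B) :: Fs).map (List.map (ren r1.id r2.id))) := by
  obtain ⟨⟨Bd, h1, h2⟩, h3, h4, h5⟩ := h
  obtain ⟨w0, hw0⟩ := h4 _ List.mem_cons_self
  obtain ⟨a1, a2, a3, a4⟩ := rpath_fold hσ hw0 hs
  refine ⟨⟨Bd.map (ren r1.id r2.id), by rw [map_rdat_ren]; exact h1, ?_⟩, rpath_ren _ _ h3, ?_, ?_⟩
  · have := (h2.perm (List.perm_middle (l₁ := [Bd, f0]))).fold hs a1 a2
    exact this.perm (List.perm_middle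
      (l₁ := [Bd.map (ren r1.id r2.id), f0.map (ren r1.id r2.id)])).symm
  · intro f hf
    obtain ⟨f', hf', rfl⟩ := List.mem_map.1 hf
    rcases List.mem_cons.1 hf' with rfl | hf'
    · exact ⟨w0, rpath_ren _ _ a3⟩
    · obtain ⟨w, hw⟩ := h4 f' (List.mem_cons_of_mem _ hf')
      exact ⟨w, rpath_ren _ _ hw⟩
  · rw [← h5, List.flatten_cons, clsL_append, ← List.map_flatten, clsL_ren, clsL_ren]
    simp only [List.flatten_cons, clsL_append] at a4 ⊢
    rw [a4]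

theorem Dg2.split0 (hσ : IsGraph D σ) {A B C : List (Rc P V H)} {r r' : Rc P V H}
    {Fs : List (List (Rc P V H))} (h : Dg2 D σ Ψ nB u v c (A ++ r :: (B ++ r' :: C)) Fs)
    (hi : r.id = r'.id) (hb : r.b ≠ r'.b) (hx : r'.x = σ r.s r.x) :
    Dg2 D σ Ψ nB u v c (A ++ C) (B :: Fs) := by
  obtain ⟨hs, hp⟩ := h.cons (r := r) (r' := r') (by simp) (by simp) hi
  obtain ⟨⟨Bd, h1, h2⟩, h3, h4, h5⟩ := h
  obtain ⟨a1, a2, a3⟩ := rpath_split hσ h3 hs.symm hx (hp hb)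
  refine ⟨⟨Bd, h1, ?_⟩, a1, ?_, ?_⟩
  · have := (h2.perm (List.Perm.swap _ _ _)).split (key_opp_of hi hb)
    exact this.perm (List.perm_middle (l₁ := [A ++ C, B]))
  · intro f hf
    rcases List.mem_cons.1 hf with rfl | hf
    · exact a2
    · exact h4 f hf
  · rw [← h5]
    simp only [List.flatten_cons]
    rw [clsL_append (A ++ C), clsL_append B, clsL_append (A ++ r :: (B ++ r' :: C)), ← a3,
      add_assoc]

theorem Dg2.split1 (hσ : IsGraph D σ) {f0 A B C : List (Rc P V H)} {r r' : Rc P V H}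
    {Fs : List (List (Rc P V H))} (h : Dg2 D σ Ψ nB u v c f0 ((A ++ r :: (B ++ r' :: C)) :: Fs))
    (hi : r.id = r'.id) (hb : r.b ≠ r'.b) (hx : r'.x = σ r.s r.x) :
    Dg2 D σ Ψ nB u v c f0 ((A ++ C) :: B :: Fs) := by
  obtain ⟨hs, hp⟩ := h.cons (r := r) (r' := r') (by simp) (by simp) hi
  obtain ⟨⟨Bd, h1, h2⟩, h3, h4, h5⟩ := h
  obtain ⟨w0, hw0⟩ := h4 _ List.mem_cons_self
  obtain ⟨a1, a2, a3⟩ := rpath_split hσ hw0 hs.symm hx (hp hb)
  refine ⟨⟨Bd, h1, ?_⟩, h3, ?_, ?_⟩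
  · have := (h2.perm (List.perm_middle (l₁ := [Bd, f0]))).split (key_opp_of hi hb)
    exact this.perm (List.perm_append_comm (l₁ := [A ++ C, B]) (l₂ := [Bd, f0]) |>.append_right Fs)
  · intro f hf
    simp only [List.mem_cons] at hf
    rcases hf with rfl | rfl | hf
    · exact ⟨w0, a1⟩
    · exact a2
    · exact h4 f (List.mem_cons_of_mem _ hf)
  · rw [← h5]
    simp only [List.flatten_cons]
    rw [clsL_append f0, clsL_append (A ++ C), clsL_append B, clsL_append f0,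
      clsL_append (A ++ r :: (B ++ r' :: C)), ← a3, add_assoc]

theorem Dg2.merge0 (hσ : IsGraph D σ) {A B C E : List (Rc P V H)} {r r' : Rc P V H}
    {Fs : List (List (Rc P V H))} (h : Dg2 D σ Ψ nB u v c (A ++ r :: B) ((C ++ r' :: E) :: Fs))
    (hi : r.id = r'.id) (hb : r.b ≠ r'.b) (hx : r'.x = σ r.s r.x) :
    Dg2 D σ Ψ nB u v c (A ++ (E ++ C) ++ B) Fs := by
  obtain ⟨hs, hp⟩ := h.cons (r := r) (r' := r') (by simp) (by simp) hi
  obtain ⟨⟨Bd, h1, h2⟩, h3, h4, h5⟩ := h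
  obtain ⟨w0, hw0⟩ := h4 _ List.mem_cons_self
  obtain ⟨a1, a2⟩ := rpath_merge hσ h3 hw0 hs.symm hx (hp hb)
  refine ⟨⟨Bd, h1, ?_⟩, a1, fun f hf => h4 f (List.mem_cons_of_mem _ hf), ?_⟩
  · have := (h2.perm (List.perm_middle (l₁ := [A ++ r :: B, C ++ r' :: E])).symm).merge
      (key_opp_of hi hb)
    exact this.perm (List.Perm.swap _ _ _)
  · rw [← h5]
    simp only [List.flatten_cons]
    rw [clsL_append, a2, clsL_append (A ++ r :: B), clsL_append _ Fs.flatten, add_assoc]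

theorem Dg2.merge1 (hσ : IsGraph D σ) {f0 A B C E : List (Rc P V H)} {r r' : Rc P V H}
    {Fs : List (List (Rc P V H))}
    (h : Dg2 D σ Ψ nB u v c f0 ((A ++ r :: B) :: (C ++ r' :: E) :: Fs))
    (hi : r.id = r'.id) (hb : r.b ≠ r'.b) (hx : r'.x = σ r.s r.x) :
    Dg2 D σ Ψ nB u v c f0 ((A ++ (E ++ C) ++ B) :: Fs) := by
  obtain ⟨hs, hp⟩ := h.cons (r := r) (r' := r') (by simp) (by simp) hi
  obtain ⟨⟨Bd, h1, h2⟩, h3, h4, h5⟩ := h
  obtain ⟨w0, hw0⟩ := h4 _ List.mem_cons_self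
  obtain ⟨w1, hw1⟩ := h4 _ (List.mem_cons_of_mem _ List.mem_cons_self)
  obtain ⟨a1, a2⟩ := rpath_merge hσ hw0 hw1 hs.symm hx (hp hb)
  refine ⟨⟨Bd, h1, ?_⟩, h3, ?_, ?_⟩
  · have := (h2.perm (List.perm_append_comm (l₁ := [Bd, f0])
      (l₂ := [A ++ r :: B, C ++ r' :: E]) |>.append_right Fs)).merge (key_opp_of hi hb)
    exact this.perm (List.perm_middle (l₁ := [Bd, f0])).symm
  · intro f hf
    rcases List.mem_cons.1 hf with rfl | hf
    · exact ⟨w0, a1⟩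
    · exact h4 f (List.mem_cons_of_mem _ (List.mem_cons_of_mem _ hf))
  · rw [← h5]
    simp only [List.flatten_cons]
    rw [clsL_append, clsL_append, a2, clsL_append f0, clsL_append (A ++ r :: B),
      clsL_append _ Fs.flatten, add_assoc]

/-- One reduction step for a mirror pair. -/
theorem Dg2.step_mirror (hσ : IsGraph D σ) {f0 : List (Rc P V H)} {Fs : List (List (Rc P V H))}
    (h : Dg2 D σ Ψ nB u v c f0 Fs) {r r' : Rc P V H} (hr : r ∈ (f0 :: Fs).flatten)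
    (hr' : r' ∈ (f0 :: Fs).flatten) (hi : r.id = r'.id) (hb : r.b ≠ r'.b)
    (hx : r'.x = σ r.s r.x) :
    ∃ f0' Fs', Dg2 D σ Ψ nB u v c f0' Fs' ∧ dgSize f0' Fs' < dgSize f0 Fs ∧
      (f0 = [] → f0' = []) := by
  have hx' : r.x = σ r'.s r'.x := by rw [hx, ← (h.cons hr hr' hi).1, hσ.invol]
  have hne : r ≠ r' := fun e => hb (by rw [e])
  simp only [List.flatten_cons, List.mem_append] at hr hr'
  rcases hr with hr | hr <;> rcases hr' with hr' | hr'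
  · rcases two_mem_decomp hr hr' hne with ⟨A, B, C, rfl⟩ | ⟨A, B, C, rfl⟩
    · exact ⟨_, _, h.split0 hσ hi hb hx, by simp [dgSize]; omega, by simp⟩
    · exact ⟨_, _, h.split0 hσ hi.symm hb.symm hx', by simp [dgSize]; omega, by simp⟩
  · obtain ⟨f, hf, hrf⟩ := List.mem_flatten.1 hr'
    have hp := perm_cons_of_mem hf
    obtain ⟨Fs', hp⟩ := hp
    obtain ⟨A, B, rfl⟩ := List.append_of_mem hr
    obtain ⟨C, E, rfl⟩ := List.append_of_mem hrf
    refine ⟨_, _, (h.perm hp).merge0 hσ hi hb hx, ?_, by simp⟩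
    rw [dgSize_perm hp]; simp [dgSize]; omega
  · obtain ⟨f, hf, hrf⟩ := List.mem_flatten.1 hr
    obtain ⟨Fs', hp⟩ := perm_cons_of_mem hf
    obtain ⟨A, B, rfl⟩ := List.append_of_mem hr'
    obtain ⟨C, E, rfl⟩ := List.append_of_mem hrf
    refine ⟨_, _, (h.perm hp).merge0 hσ hi.symm hb.symm hx', ?_, by simp⟩
    rw [dgSize_perm hp]; simp [dgSize]; omega
  · obtain ⟨f, hf, hrf⟩ := List.mem_flatten.1 hr
    obtain ⟨Fs', hp⟩ := perm_cons_of_mem hf
    have hr2 := hp.flatten.mem_iff.1 hr'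
    simp only [List.flatten_cons, List.mem_append] at hr2
    rcases hr2 with hr2 | hr2
    · rcases two_mem_decomp hrf hr2 hne with ⟨A, B, C, rfl⟩ | ⟨A, B, C, rfl⟩
      · refine ⟨_, _, (h.perm hp).split1 hσ hi hb hx, ?_, id⟩
        rw [dgSize_perm hp]; simp [dgSize]; omega
      · refine ⟨_, _, (h.perm hp).split1 hσ hi.symm hb.symm hx', ?_, id⟩
        rw [dgSize_perm hp]; simp [dgSize]; omega
    · obtain ⟨f', hf', hrf'⟩ := List.mem_flatten.1 hr2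
      obtain ⟨Fs'', hp'⟩ := perm_cons_of_mem hf'
      obtain ⟨A, B, rfl⟩ := List.append_of_mem hrf
      obtain ⟨C, E, rfl⟩ := List.append_of_mem hrf'
      have hp2 := hp.trans (hp'.cons _)
      refine ⟨_, _, (h.perm hp2).merge1 hσ hi hb hx, ?_, id⟩
      rw [dgSize_perm hp2]; simp [dgSize]; omega

/-- One reduction step for two consecutive equal labels. -/
theorem Dg2.step_fold (hσ : IsGraph D σ) {f0 : List (Rc P V H)} {Fs : List (List (Rc P V H))}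
    (h : Dg2 D σ Ψ nB u v c f0 Fs) {r r' : Rc P V H} (ha : Adj f0 Fs r r') (hs : r.s = r'.s) :
    ∃ f0' Fs', Dg2 D σ Ψ nB u v c f0' Fs' ∧ dgSize f0' Fs' < dgSize f0 Fs ∧
      (f0 = [] → f0' = []) := by
  rcases ha with ⟨A, B, rfl⟩ | ⟨f, hf, ha⟩
  · have e : A ++ [r, r'] ++ B = A ++ r :: r' :: B := by simp
    rw [e] at h ⊢
    refine ⟨_, _, h.fold0 hσ hs, ?_, by simp⟩
    rw [dgSize_map]; simp [dgSize]
  · obtain ⟨Fs', hp⟩ := perm_cons_of_mem hf
    rw [dgSize_perm hp]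
    have h' := h.perm hp
    rcases ha with ⟨A, B, rfl⟩ | ⟨h1, h2⟩
    · have e : A ++ [r, r'] ++ B = A ++ r :: r' :: B := by simp
      rw [e] at h' ⊢
      refine ⟨_, _, h'.fold1 hσ hs, ?_, by simp⟩
      rw [dgSize_map]; simp [dgSize]
    · obtain ⟨M, rfl⟩ := List.getLast?_eq_some_iff.1 h1
      cases M with
      | nil =>
        exfalso
        obtain ⟨w, hw⟩ := h'.2.2.1 _ List.mem_cons_self
        simp only [List.nil_append, RPath] at hw
        apply hw.2.2.2.1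
        exact (congrArg Prod.fst hw.2.2.2.2).trans hw.1.symm
      | cons y M =>
        simp only [List.cons_append, List.head?_cons, Option.some.injEq] at h2
        subst h2
        have h'' := h'.rotate
        have e : [r] ++ y :: M = [] ++ r :: y :: M := by simp
        rw [e] at h''
        refine ⟨_, _, h''.fold1 hσ hs, ?_, by simp⟩
        rw [dgSize_map]; simp [dgSize]

theorem Dg2.reduce (hσ : IsGraph D σ) {f0 : List (Rc P V H)} {Fs : List (List (Rc P V H))}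
    (h : Dg2 D σ Ψ nB u v c f0 Fs) :
    ∃ f0' Fs', Dg2 D σ Ψ nB u v c f0' Fs' ∧ (f0 = [] → f0' = []) ∧ (∀ f ∈ Fs', f ≠ []) ∧
      (∀ r r', Adj f0' Fs' r r' → r.s ≠ r'.s) ∧
      (∀ r ∈ (f0' :: Fs').flatten, ∀ r' ∈ (f0' :: Fs').flatten, r.id = r'.id → r.b ≠ r'.b →
        r'.x ≠ σ r.s r.x) := by
  induction hn : dgSize f0 Fs using Nat.strong_induction_on generalizing f0 Fs with
  | _ n ih =>
    have step : (∃ f0' Fs', Dg2 D σ Ψ nB u v c f0' Fs' ∧ dgSize f0' Fs' < dgSize f0 Fs ∧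
          (f0 = [] → f0' = [])) →
        ∃ f0' Fs', Dg2 D σ Ψ nB u v c f0' Fs' ∧ (f0 = [] → f0' = []) ∧ (∀ f ∈ Fs', f ≠ []) ∧
          (∀ r r', Adj f0' Fs' r r' → r.s ≠ r'.s) ∧
          (∀ r ∈ (f0' :: Fs').flatten, ∀ r' ∈ (f0' :: Fs').flatten, r.id = r'.id → r.b ≠ r'.b →
            r'.x ≠ σ r.s r.x) := by
      rintro ⟨f1, Fs1, h1, h2, h2'⟩
      obtain ⟨f2, Fs2, h3, h4, h5⟩ := ih _ (hn ▸ h2) h1 rfl
      exact ⟨f2, Fs2, h3, fun e => h4 (h2' e), h5⟩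
    by_cases c1 : ∀ f ∈ Fs, f ≠ []
    · by_cases c2 : ∀ r r', Adj f0 Fs r r' → r.s ≠ r'.s
      · by_cases c3 : ∀ r ∈ (f0 :: Fs).flatten, ∀ r' ∈ (f0 :: Fs).flatten, r.id = r'.id →
            r.b ≠ r'.b → r'.x ≠ σ r.s r.x
        · exact ⟨f0, Fs, h, id, c1, c2, c3⟩
        · push Not at c3
          obtain ⟨r, hr, r', hr', a1, a2, a3⟩ := c3
          exact step (h.step_mirror hσ hr hr' a1 a2 a3)
      · push Not at c2
        obtain ⟨r, r', a1, a2⟩ := c2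
        exact step (h.step_fold hσ a1 a2)
    · push Not at c1
      obtain ⟨f, hf, rfl⟩ := c1
      obtain ⟨Fs', hp⟩ := perm_cons_of_mem hf
      refine step ⟨f0, Fs', (h.perm hp).drop_nil, ?_, id⟩
      rw [dgSize_perm hp]; simp [dgSize]

end Vale.Agent.P089
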