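import Vale.Agent.P089.Fourier

namespace Vale.Agent.P089

open Filter Topology

theorem selfAdjoint_of_contraction {E : Type} [NormedAddCommGroup E] [InnerProductSpace ℂ E]
    [CompleteSpace E] (P : E →L[ℂ] E) (h1 : P * P = P) (h2 : ‖P‖ ≤ 1) : IsSelfAdjoint P := by
  have h3 : P = star P * P := by
    ext x
    have a1 : ‖(star P) (P x)‖ ≤ ‖P x‖ := by
      refine ((star P).le_opNorm _).trans ?_
      rw [norm_star]
      exact mul_le_of_le_one_left (norm_nonneg _) h2
    have a2 : inner ℂ (P x) ((star P) (P x)) = inner ℂ (P x) (P x) := by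
      rw [ContinuousLinearMap.star_eq_adjoint, ContinuousLinearMap.adjoint_inner_right]
      congr 1
      exact congrArg (fun T : E →L[ℂ] E => T x) h1
    have a3 := @norm_sub_sq ℂ _ _ _ _ (P x) ((star P) (P x))
    rw [a2, inner_self_eq_norm_sq] at a3
    have a4 : ‖(star P) (P x)‖ ^ 2 ≤ ‖P x‖ ^ 2 := pow_le_pow_left₀ (norm_nonneg _) a1 2
    have a5 : ‖P x - (star P) (P x)‖ ^ 2 = 0 := le_antisymm (by linarith) (by positivity)
    exact sub_eq_zero.1 (norm_eq_zero.1 (pow_eq_zero_iff two_ne_zero |>.1 a5))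
  rw [h3]
  exact IsSelfAdjoint.star_mul_self P

/-- Left translation on square summable functions. -/
noncomputable def lamL {Γ : Type} [Group Γ] (g : Γ) :
    lp (fun _ : Γ => ℂ) 2 →L[ℂ] lp (fun _ : Γ => ℂ) 2 :=
  LinearMap.mkContinuous
    { toFun := fun ξ => ⟨fun h => ξ (g⁻¹ * h), memℓp_gen
        ((Equiv.mulLeft g⁻¹).summable_iff.2 ((lp.memℓp ξ).summable (by norm_num)))⟩
      map_add' := fun _ _ => rfl
      map_smul' := fun _ _ => rfl } 1 (fun ξ => by
      rw [one_mul, lp.norm_eq_tsum_rpow (by norm_num), lp.norm_eq_tsum_rpow (by norm_num)]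
      apply le_of_eq
      congr 1
      exact (Equiv.mulLeft g⁻¹).tsum_eq (fun h => ‖ξ h‖ ^ (2 : ENNReal).toReal))

open Classical in
/-- The powers of a contraction with a spectral gap converge in the reduced group algebra to a
projection. -/
theorem ell2 {Γ : Type} [Group Γ] (q : MonoidAlgebra ℂ Γ) (θ : ℝ) (h0 : 0 ≤ θ) (h1 : θ < 1)
    (hq : ∀ ξ : MonoidAlgebra ℂ Γ, nsq (q * ξ).coeff ≤ nsq ξ.coeff)
    (hk : ∀ (k : ℕ) (ξ : MonoidAlgebra ℂ Γ),
      nsq ((q ^ k - q ^ (k + 1)) * ξ).coeff ≤ θ ^ k * nsq ξ.coeff)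
    (t : ℂ) (ht : Tendsto (fun k : ℕ => (q ^ k).coeff 1) atTop (𝓝 t)) :
    ∃ lam : Γ → (lp (fun _ : Γ => ℂ) 2 →L[ℂ] lp (fun _ : Γ => ℂ) 2),
      (∀ g ξ h, lam g ξ h = ξ (g⁻¹ * h)) ∧
      ∃ p : lp (fun _ : Γ => ℂ) 2 →L[ℂ] lp (fun _ : Γ => ℂ) 2,
        p ∈ closure ((Submodule.span ℂ (Set.range lam) : Submodule ℂ _) :
          Set (lp (fun _ : Γ => ℂ) 2 →L[ℂ] lp (fun _ : Γ => ℂ) 2)) ∧
        IsSelfAdjoint p ∧ p * p = p ∧ p (lp.single 2 1 1) 1 = t := by
  let lam0 : Γ →* (lp (fun _ : Γ => ℂ) 2 →L[ℂ] lp (fun _ : Γ => ℂ) 2) :=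
    { toFun := lamL
      map_one' := by
        refine ContinuousLinearMap.ext (fun ξ => lp.ext (funext (fun h => ?_)))
        change ξ (1⁻¹ * h) = ξ h
        simp
      map_mul' := fun g g' => by
        refine ContinuousLinearMap.ext (fun ξ => lp.ext (funext (fun h => ?_)))
        change ξ ((g * g')⁻¹ * h) = ξ (g'⁻¹ * (g⁻¹ * h))
        simp [mul_assoc] }
  let L := MonoidAlgebra.lift ℂ _ _ lam0
  let δ : lp (fun _ : Γ => ℂ) 2 := lp.single 2 1 1
  have hδ : ∀ g, lamL g δ = lp.single 2 g 1 := by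
    intro g
    refine lp.ext (funext (fun h => ?_))
    change δ (g⁻¹ * h) = _
    simp only [δ, lp.single_apply, Pi.single_apply, inv_mul_eq_one, eq_comm]
  have hι : ∀ ξ : MonoidAlgebra ℂ Γ,
      L ξ δ = ∑ g ∈ ξ.coeff.support, lp.single 2 g (ξ.coeff g) := by
    intro ξ
    simp only [L, MonoidAlgebra.lift_apply, Finsupp.sum, ContinuousLinearMap.sum_apply,
      ContinuousLinearMap.smul_apply]
    refine Finset.sum_congr rfl (fun g _ => ?_)
    change ξ.coeff g • lamL g δ = _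
    rw [hδ, ← lp.single_smul, smul_eq_mul, mul_one]
  have hn : ∀ ξ : MonoidAlgebra ℂ Γ, ‖L ξ δ‖ = √(nsq ξ.coeff) := by
    intro ξ
    have := lp.norm_sum_single (E := fun _ : Γ => ℂ) (p := 2) (by norm_num) ξ.coeff
      ξ.coeff.support
    simp only [ENNReal.toReal_ofNat, Real.rpow_ofNat] at this
    rw [hι, nsq, Finsupp.sum, ← this, Real.sqrt_sq (norm_nonneg _)]
  have hv : ∀ ξ : MonoidAlgebra ℂ Γ, L ξ δ 1 = ξ.coeff 1 := by
    intro ξ
    rw [hι, lp.coeFn_sum, Finset.sum_apply, Finset.sum_eq_single 1]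
    · simp
    · intro g _ hg
      exact lp.single_apply_ne _ _ _ hg.symm
    · intro h
      simp [Finsupp.notMem_support_iff.1 h]
  have hd : DenseRange (fun ξ : MonoidAlgebra ℂ Γ => L ξ δ) := by
    intro x
    refine mem_closure_of_tendsto (lp.hasSum_single (by norm_num) x)
      (Eventually.of_forall (fun s => ⟨∑ g ∈ s, MonoidAlgebra.single g (x g), ?_⟩))
    simp only [map_sum, ContinuousLinearMap.sum_apply, L, MonoidAlgebra.lift_single,
      ContinuousLinearMap.smul_apply]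
    refine Finset.sum_congr rfl (fun g _ => ?_)
    change x g • lamL g δ = _
    rw [hδ, ← lp.single_smul, smul_eq_mul, mul_one]
  have hb : ∀ (η : MonoidAlgebra ℂ Γ) (C : ℝ), 0 ≤ C →
      (∀ ξ : MonoidAlgebra ℂ Γ, nsq (η * ξ).coeff ≤ C * nsq ξ.coeff) → ‖L η‖ ≤ √C := by
    intro η C hC h
    apply ContinuousLinearMap.opNorm_le_bound _ (Real.sqrt_nonneg _)
    intro x
    refine hd.induction_on x (isClosed_le (by fun_prop) (by fun_prop)) (fun ξ => ?_)
    rw [← ContinuousLinearMap.mul_apply, ← map_mul, hn, hn, ← Real.sqrt_mul hC]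
    exact Real.sqrt_le_sqrt (h ξ)
  have h2 : ‖L q‖ ≤ 1 := by
    simpa using hb q 1 zero_le_one (fun ξ => by rw [one_mul]; exact hq ξ)
  have h3 : CauchySeq (fun k : ℕ => L q ^ k) := by
    apply cauchySeq_of_le_geometric (√θ) 1 ((Real.sqrt_lt' one_pos).2 (by simpa using h1))
    intro k
    rw [dist_eq_norm, one_mul, ← map_pow, ← map_pow, ← map_sub]
    refine (hb _ _ (pow_nonneg h0 k) (hk k)).trans (le_of_eq ?_)
    rw [Real.sqrt_eq_iff_mul_self_eq (pow_nonneg h0 k) (by positivity), ← mul_pow,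
      Real.mul_self_sqrt h0]
  obtain ⟨P, hP⟩ := cauchySeq_tendsto_of_complete h3
  have h4 : P * P = P := by
    have a1 := hP.mul hP
    simp only [← pow_add] at a1
    exact tendsto_nhds_unique a1 (hP.comp (tendsto_atTop_mono (f := fun n => n)
      (fun n => Nat.le_add_right n n) tendsto_id))
  refine ⟨lamL, fun _ _ _ => rfl, P, ?_, selfAdjoint_of_contraction P h4 ?_, h4, ?_⟩
  · refine mem_closure_of_tendsto hP (Eventually.of_forall (fun k => ?_))
    rw [← map_pow, MonoidAlgebra.lift_apply]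
    exact Submodule.sum_mem _ (fun g _ => Submodule.smul_mem _ _ (Submodule.subset_span ⟨g, rfl⟩))
  · refine le_of_tendsto' hP.norm (fun k => ?_)
    cases k with
    | zero => exact ContinuousLinearMap.norm_id_le
    | succ k => exact (norm_pow_le' _ (Nat.succ_pos k)).trans (pow_le_one₀ (norm_nonneg _) h2)
  · refine tendsto_nhds_unique ?_ ht
    have := (((lp.evalCLM ℂ (fun _ : Γ => ℂ) 2 1).continuous.comp
      (ContinuousLinearMap.apply ℂ _ δ).continuous).tendsto P).comp hP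
    convert this using 2 with k
    · rw [← hv, map_pow]
      rfl
    · rfl

end Vale.Agent.P089
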