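import Vale.Agent.P194.Planar

namespace Vale.Agent.P089

open Finset Vale.Agent.P194

theorem countP_flatten_ge {α : Type} (l : List (List α)) (p : α → Bool) (K : ℕ)
    (h : ∀ f ∈ l, K ≤ f.countP p) : l.length * K ≤ l.flatten.countP p := by
  induction l with
  | nil => simp
  | cons f l ih =>
    have h1 := ih (fun g hg => h g (List.mem_cons_of_mem _ hg))
    have h2 := h f List.mem_cons_self
    rw [List.length_cons, List.flatten_cons, List.countP_append, Nat.succ_mul]
    omega

/-- Some ordinary face of a planar diagram has few break points. -/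
theorem planar_face (B f0 : List Dt) (Fs : List (List Dt))
    (hn : (B :: f0 :: Fs).flatten.Nodup)
    (hcl : ∀ d ∈ (B :: f0 :: Fs).flatten, opp d ∈ (B :: f0 :: Fs).flatten)
    (hs : Sph ((B :: f0 :: Fs).map (wd ∅))) (hFs : Fs ≠ [])
    (hB : ∀ x, ¬ [x, opp x] <:+: B) (h0 : ∀ x, ¬ [x, opp x] <:+: f0)
    (h1 : ∀ f ∈ Fs, ∀ x, ¬ cadj f x (opp x)) :
    ∃ f ∈ Fs, ∃ Z : Finset Dt, f.countP (fun x => decide (x ∈ Z)) ≤ 140 ∧
      (∀ x, f.getLast? = some x → x ∈ Z) ∧
      ∀ x y, [x, y] <:+: f → x ∉ Z → ∃ f' ∈ B :: f0 :: Fs, [opp y, opp x] <:+: f' := by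
  classical
  obtain ⟨r, hr⟩ := List.exists_mem_of_ne_nil _ hFs
  obtain ⟨Cs, Rest, L, tr, h, Jmp, c1, c2, c5, -, -, c7, c8, -, -, c11, c12⟩ :=
    contour (B :: f0 :: Fs) ∅ hn (fun d hd _ => hcl d hd) hs r (by simp [hr])
  have hsub : ∀ f ∈ Cs, f ∈ B :: f0 :: Fs := fun f hf =>
    c1.mem_iff.2 (List.mem_append_left _ hf)
  have hnC : Cs.flatten.Nodup := by
    have := c1.flatten.nodup_iff.1 hn
    rw [List.flatten_append] at this
    exact this.of_append_left
  have hnL : L.Nodup := c5.nodup_iff.2 hnC
  have hNC := nc_of_wd hnL c7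
  obtain ⟨-, Zb, e1, e2⟩ := nc_breaks hNC
  have d8 : leaves L ≤ Jmp.card + 2 := by
    have f1 : leaves L ≤ L.countP
        (fun x => decide (x ∈ Jmp ∪ (f0.getLast?.toFinset ∪ B.getLast?.toFinset))) := by
      apply planar_countP_zip
      intro x y hxy e
      have e' : y = opp x := of_decide_eq_true e
      subst e'
      apply decide_eq_true
      by_cases hx : x ∈ Jmp
      · exact mem_union_left _ hx
      · obtain ⟨f, hf, h2⟩ := c12 _ _ hxy hx
        apply mem_union_right
        have h3 := hsub f hf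
        simp only [List.mem_cons] at h3
        rcases h3 with rfl | rfl | h3
        · rcases h2 with h2 | h2
          · exact absurd h2 (hB x)
          · simp [h2.1]
        · rcases h2 with h2 | h2
          · exact absurd h2 (h0 x)
          · simp [h2.1]
        · exact absurd h2 (h1 f h3 x)
    have f2 := planar_countP_le_card hnL (Jmp ∪ (f0.getLast?.toFinset ∪ B.getLast?.toFinset)) _
      (fun x _ hx => of_decide_eq_true hx)
    have f3 := card_union_le Jmp (f0.getLast?.toFinset ∪ B.getLast?.toFinset)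
    have f3' := card_union_le f0.getLast?.toFinset B.getLast?.toFinset
    have f4 : f0.getLast?.toFinset.card ≤ 1 := by cases f0.getLast? <;> simp
    have f5 : B.getLast?.toFinset.card ≤ 1 := by cases B.getLast? <;> simp
    omega
  have d9 : L.countP (fun x => decide (x.1 ∈ ∅ ∪ tr)) ≤ 2 * tr.card := by
    rw [empty_union]; exact planar_ids hnL tr
  obtain ⟨Z, m, z1, z2, z3, -, z5, -⟩ := planar_Z ∅ hnC c5 e2 c12 (Cs.flatten.length + 1)
    (by omega)
  have hm : m = 0 := by
    rcases Nat.eq_zero_or_pos m with h | h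
    · exact h
    · have := Nat.mul_le_mul_right (Cs.flatten.length + 1) h
      omega
  have hv : Cs.flatten.countP (fun d => decide (d.1 ∈ (∅ : Finset ℕ))) = 0 :=
    List.countP_eq_zero.2 (fun a _ => by simp)
  have hk : Cs.length ≤ (Cs.filter (fun f => decide (f ∈ Fs))).length + 2 := by
    have a1 := List.length_eq_countP_add_countP (l := Cs) (fun f => decide (f ∈ Fs))
    have a2 : Cs.countP (fun a => decide ¬ (decide (a ∈ Fs) = true)) ≤
        (B :: f0 :: Fs).countP (fun a => decide ¬ (decide (a ∈ Fs) = true)) := by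
      rw [c1.countP_eq, List.countP_append]; omega
    have a3 : Fs.countP (fun a => decide ¬ (decide (a ∈ Fs) = true)) = 0 :=
      List.countP_eq_zero.2 (fun a ha => by simp [ha])
    rw [List.countP_cons, List.countP_cons, a3] at a2
    rw [← List.countP_eq_length_filter]
    split_ifs at a2 <;> omega
  have hk1 : 0 < (Cs.filter (fun f => decide (f ∈ Fs))).length :=
    List.length_pos_of_mem (List.mem_filter.2 ⟨c2, decide_eq_true hr⟩)
  have hex : ∃ f ∈ Cs.filter (fun f => decide (f ∈ Fs)),
      f.countP (fun x => decide (x ∈ Z)) ≤ 140 := by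
    by_contra hc
    push Not at hc
    have a1 := countP_flatten_ge _ (fun x => decide (x ∈ Z)) 141 hc
    have a2 := planar_countP_le_card (hnC.sublist (List.filter_sublist (l := Cs)
      (p := fun f => decide (f ∈ Fs))).flatten) Z (fun x => decide (x ∈ Z))
      (fun x _ hx => of_decide_eq_true hx)
    omega
  obtain ⟨f, hf, hc⟩ := hex
  obtain ⟨hf1, hf2⟩ := List.mem_filter.1 hf
  refine ⟨f, of_decide_eq_true hf2, Z, hc, z3 f hf1, ?_⟩
  intro x y hxy hx
  obtain ⟨a1, f', a2, a3⟩ := z5 f hf1 x y (Or.inl hxy) hx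
  refine ⟨f', hsub f' a2, ?_⟩
  rcases a3 with a3 | a3
  · exact a3
  · exact absurd (z3 f' a2 _ a3.1) a1

/-- Counting along runs. -/
theorem runs_count {α : Type} (Z J : α → Bool) (m : ℕ) (n : ℕ) : ∀ f : List α, f.length ≤ n →
    (∀ x, f.getLast? = some x → Z x = true) →
    (∀ a x, a ++ [x] <:+: f → (∀ y ∈ a, Z y = false) →
      (∀ y ∈ a ++ [x], J y = true) ∨ a.length + 1 ≤ m) →
    f.length ≤ f.countP J + m * f.countP Z := by
  induction n with
  | zero => intro f hf _ _; omega
  | succ n ih =>
    intro f hf h1 h2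
    by_cases hf0 : f = []
    · simp [hf0]
    have hex : ∃ x ∈ f, Z x = true :=
      ⟨_, List.getLast_mem hf0, h1 _ (List.getLast?_eq_some_getLast hf0)⟩
    obtain ⟨x, hx⟩ : ∃ x, f.find? Z = some x := by
      cases hh : f.find? Z with
      | none =>
        obtain ⟨x, hx, hz⟩ := hex
        exact absurd hz (List.find?_eq_none.1 hh x hx)
      | some x => exact ⟨x, rfl⟩
    obtain ⟨hz, a, b, rfl, ha⟩ := List.find?_eq_some_iff_append.1 hx
    have ha' : ∀ y ∈ a, Z y = false := fun y hy => by simpa using ha y hy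
    have h3 := ih b (by simp at hf; omega) (by
      intro y hy
      apply h1
      rw [List.getLast?_append, List.getLast?_cons, hy]; rfl) (by
      intro a' x' hi hz'
      exact h2 a' x' (hi.trans ⟨a ++ [x], [], by simp⟩) hz')
    have h4 : a.countP Z = 0 := List.countP_eq_zero.2 (fun y hy => by simp [ha' y hy])
    have e : a ++ x :: b = (a ++ [x]) ++ b := by simp
    rcases h2 a x ⟨[], b, by simp⟩ ha' with h5 | h5
    · have h6 := List.countP_eq_length.2 h5
      rw [e, List.countP_append, List.countP_append (p := Z), List.length_append, h6,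
        Nat.mul_add]
      omega
    · rw [e, List.countP_append, List.countP_append (p := Z), List.countP_append (p := Z), h4,
        List.length_append, List.length_append]
      simp only [List.countP_singleton, hz, if_true, List.length_singleton, zero_add, Nat.mul_add,
        mul_one]
      omega

end Vale.Agent.P089
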