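import Vale.Agent.P089.Defs

namespace Vale.Agent.P089

open Finset ComplexConjugate

theorem nsq_eq_sum {α : Type} (f : α →₀ ℂ) (W : Finset α) (h : f.support ⊆ W) :
    nsq f = ∑ v ∈ W, ‖f v‖ ^ 2 :=
  Finsupp.sum_of_support_subset _ h _ (by simp)

theorem nsq_nonneg {α : Type} (f : α →₀ ℂ) : 0 ≤ nsq f := sum_nonneg (fun _ _ => by positivity)

theorem nsq_sum_single {ι α : Type} [DecidableEq α] (s : Finset ι) (φ : ι → α) (z : ι → ℂ) :
    (nsq (∑ x ∈ s, Finsupp.single (φ x) (z x)) : ℂ) =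
      ∑ x ∈ s, ∑ y ∈ s, if φ x = φ y then z x * conj (z y) else 0 := by
  rw [nsq_eq_sum _ (s.image φ), Complex.ofReal_sum]
  · simp only [Complex.ofReal_pow, ← Complex.mul_conj']
    simp only [Finsupp.finsetSum_apply, map_sum, sum_mul_sum, Finsupp.single_apply]
    rw [sum_comm]
    refine sum_congr rfl (fun x hx => ?_)
    rw [sum_comm]
    refine sum_congr rfl (fun y _ => ?_)
    rw [sum_eq_single (φ x) (fun v _ hv => by rw [if_neg hv.symm, zero_mul])
      (fun h => absurd (mem_image_of_mem φ hx) h), if_pos rfl]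
    by_cases h : φ x = φ y
    · rw [if_pos h, if_pos h.symm]
    · rw [if_neg h, if_neg (Ne.symm h), map_zero, mul_zero]
  · intro v hv
    obtain ⟨x, hx, h⟩ := mem_biUnion.1 (Finsupp.support_finsetSum hv)
    exact mem_image.2 ⟨x, hx, (mem_singleton.1 (Finsupp.support_single_subset h)).symm⟩

variable {K G A : Type} [CommRing K] [Group G] [AddCommGroup A] [Module K A]

/-- The semidirect product. -/
@[ext] structure SD (ρ : Representation K G A) where
  a : A
  g : G

/-- The group law of the semidirect product. -/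
@[reducible] def SD.group (ρ : Representation K G A) : Group (SD ρ) :=
  letI : Mul (SD ρ) := ⟨fun x y => ⟨x.a + ρ x.g y.a, x.g * y.g⟩⟩
  letI : One (SD ρ) := ⟨⟨0, 1⟩⟩
  letI : Inv (SD ρ) := ⟨fun x => ⟨-ρ x.g⁻¹ x.a, x.g⁻¹⟩⟩
  Group.ofLeftAxioms
    (fun x y z => SD.ext
      (show x.a + ρ x.g y.a + ρ (x.g * y.g) z.a = x.a + ρ x.g (y.a + ρ y.g z.a) by
        simp [add_assoc]) (mul_assoc _ _ _))
    (fun x => SD.ext (show 0 + ρ 1 x.a = x.a by simp) (one_mul _))
    (fun x => SD.ext (show -ρ x.g⁻¹ x.a + ρ x.g⁻¹ x.a = 0 by simp) (inv_mul_cancel _))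

open Classical in
/-- Twisted translation operators. -/
noncomputable def twist (c : G → ℂ) (h : G) : Module.End ℂ (G →₀ ℂ) where
  toFun f := Finsupp.onFinset (f.support.image (· * h⁻¹)) (fun v => c v * f (v * h)) (by
    intro v hv
    exact mem_image.2 ⟨v * h, Finsupp.mem_support_iff.2 (right_ne_zero_of_mul hv), by simp⟩)
  map_add' f f' := by ext v; simp [mul_add]
  map_smul' z f := by ext v; simp [mul_left_comm]

theorem twist_apply (c : G → ℂ) (h : G) (f : G →₀ ℂ) (v : G) :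
    twist c h f v = c v * f (v * h) := rfl

theorem exists_sep (p : ℕ) [Fact p.Prime] {A : Type} [AddCommGroup A] [Module (ZMod p) A]
    (B : Finset A) (Sd : Finset (Module.Dual (ZMod p) A)) :
    ∃ (Ω : Submodule (ZMod p) (Module.Dual (ZMod p) A)) (_ : Fintype Ω), (∀ ω ∈ Sd, ω ∈ Ω) ∧
      ∀ a ∈ B, a ≠ 0 → ∑ ω : Ω, ZMod.stdAddChar (ω.1 a) = 0 := by
  classical
  have h : ∀ a : A, ∃ ω : Module.Dual (ZMod p) A, a ≠ 0 → ω a ≠ 0 := by
    intro a
    by_cases ha : a = 0
    · exact ⟨0, fun h => absurd ha h⟩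
    · by_contra hc
      push Not at hc
      exact ha ((Module.forall_dual_apply_eq_zero_iff (ZMod p) a).1 (fun ω => (hc ω).2))
  choose sep hsep using h
  let Ω := Submodule.span (ZMod p) ((Sd ∪ B.image sep : Finset _) : Set (Module.Dual (ZMod p) A))
  haveI : Module.Finite (ZMod p) Ω := Module.Finite.span_of_finite _ (finite_toSet _)
  haveI : Finite Ω := Module.finite_of_finite (ZMod p)
  refine ⟨Ω, Fintype.ofFinite _, fun ω hω => Submodule.subset_span (by simp [hω]), ?_⟩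
  intro a ha h0
  letI := Fintype.ofFinite Ω
  let χ : AddChar Ω ℂ := (ZMod.stdAddChar (N := p)).compAddMonoidHom
    { toFun := fun ω => ω.1 a, map_zero' := rfl, map_add' := fun _ _ => rfl }
  apply (AddChar.sum_eq_zero_iff_ne_zero (ψ := χ)).2
  intro e
  have h1 := DFunLike.congr_fun e ⟨sep a, Submodule.subset_span (by
    simp only [coe_union, coe_image, Set.mem_union]; exact Or.inr ⟨a, ha, rfl⟩)⟩
  apply hsep a h0
  apply ZMod.injective_stdAddChar
  rw [AddChar.map_zero_eq_one]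
  exact h1

open Classical in
/-- Fourier analysis on the semidirect product of a vector space over `ZMod p` by a group. -/
theorem fourier (p : ℕ) [Fact p.Prime] {G : Type} [Group G] [Countable G] {A : Type}
    [AddCommGroup A] [Module (ZMod p) A] [Countable A] (ρ : Representation (ZMod p) G A) :
    ∃ (Γ : Type) (_ : Group Γ) (_ : Countable Γ)
      (π : Module.Dual (ZMod p) A → (MonoidAlgebra ℂ Γ →ₐ[ℂ] Module.End ℂ (G →₀ ℂ)))
      (e : A → ZMod p → MonoidAlgebra ℂ Γ) (u : G → MonoidAlgebra ℂ Γ),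
      (∀ ω a j f v, π ω (e a j) f v = if ω (ρ v a) = j then f v else 0) ∧
      (∀ ω g f v, π ω (u g) f v = f (v * g)) ∧
      (∀ (η : MonoidAlgebra ℂ Γ) (C : ℝ), (∀ ω f, nsq (π ω η f) ≤ C * nsq f) →
        ∀ ξ : MonoidAlgebra ℂ Γ, nsq (η * ξ).coeff ≤ C * nsq ξ.coeff) ∧
      ∀ (ξ : MonoidAlgebra ℂ Γ) (Sd : Finset (Module.Dual (ZMod p) A)),
        ∃ (Ω : Submodule (ZMod p) (Module.Dual (ZMod p) A)) (_ : Fintype Ω),
          (∀ ω ∈ Sd, ω ∈ Ω) ∧
          (Fintype.card Ω : ℂ) * ξ.coeff 1 = ∑ ω : Ω, π ω ξ (Finsupp.single 1 1) 1 := by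
  letI := SD.group ρ
  let ψ : AddChar (ZMod p) ℂ := ZMod.stdAddChar
  let π0 : Module.Dual (ZMod p) A → (SD ρ →* Module.End ℂ (G →₀ ℂ)) := fun ω =>
    { toFun := fun x => twist (fun v => ψ (ω (ρ v x.a))) x.g
      map_one' := by
        refine LinearMap.ext (fun f => Finsupp.ext (fun v => ?_))
        change ψ (ω (ρ v 0)) * f (v * 1) = f v
        simp
      map_mul' := fun x y => by
        refine LinearMap.ext (fun f => Finsupp.ext (fun v => ?_))
        change ψ (ω (ρ v (x.a + ρ x.g y.a))) * f (v * (x.g * y.g)) =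
          ψ (ω (ρ v x.a)) * (ψ (ω (ρ (v * x.g) y.a)) * f (v * x.g * y.g))
        simp [AddChar.map_add_eq_mul, mul_assoc] }
  let π : Module.Dual (ZMod p) A → (MonoidAlgebra ℂ (SD ρ) →ₐ[ℂ] Module.End ℂ (G →₀ ℂ)) :=
    fun ω => MonoidAlgebra.lift ℂ _ _ (π0 ω)
  have hπ : ∀ ω (x : SD ρ) f v, π ω (MonoidAlgebra.single x 1) f v =
      ψ (ω (ρ v x.a)) * f (v * x.g) := by
    intro ω x f v
    simp only [π, MonoidAlgebra.lift_single, one_smul]
    rfl
  have hF : ∀ ω (ξ : MonoidAlgebra ℂ (SD ρ)), π ω ξ (Finsupp.single 1 1) =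
      ∑ x ∈ ξ.coeff.support, Finsupp.single x.g⁻¹ (ξ.coeff x * ψ (ω (ρ x.g⁻¹ x.a))) := by
    intro ω ξ
    ext v
    simp only [π, MonoidAlgebra.lift_apply, Finsupp.sum, LinearMap.sum_apply,
      Finsupp.finsetSum_apply, LinearMap.smul_apply, Finsupp.smul_apply, smul_eq_mul]
    refine sum_congr rfl (fun x _ => ?_)
    change ξ.coeff x * (ψ (ω (ρ v x.a)) * Finsupp.single (1 : G) (1 : ℂ) (v * x.g)) = _
    by_cases h : x.g⁻¹ = v
    · subst h; simp
    · rw [Finsupp.single_eq_of_ne, Finsupp.single_eq_of_ne (Ne.symm h), mul_zero, mul_zero]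
      exact fun e => h (eq_inv_of_mul_eq_one_left e).symm
  have hP : ∀ (ξ : MonoidAlgebra ℂ (SD ρ)) (Ω : Submodule (ZMod p) (Module.Dual (ZMod p) A))
      (_ : Fintype Ω), (∀ x ∈ ξ.coeff.support, ∀ y ∈ ξ.coeff.support,
        ρ x.g⁻¹ (x.a - y.a) ≠ 0 → ∑ ω : Ω, ψ (ω.1 (ρ x.g⁻¹ (x.a - y.a))) = 0) →
      ∑ ω : Ω, nsq (π ω ξ (Finsupp.single 1 1)) = Fintype.card Ω * nsq ξ.coeff := by
    intro ξ Ω _ h
    apply Complex.ofReal_injective
    push_cast
    simp only [hF, nsq_sum_single]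
    rw [sum_comm, nsq, Finsupp.sum]
    push_cast
    rw [mul_sum]
    refine sum_congr rfl (fun x hx => ?_)
    rw [sum_comm, sum_eq_single x _ (fun h => absurd hx h)]
    · simp only [if_true, map_mul, ← AddChar.map_neg_eq_conj]
      rw [sum_congr rfl (g := fun _ => (‖ξ.coeff x‖ : ℂ) ^ 2), sum_const, card_univ, nsmul_eq_mul]
      intro ω _
      rw [mul_mul_mul_comm, ← AddChar.map_add_eq_mul, add_neg_cancel, AddChar.map_zero_eq_one,
        mul_one, Complex.mul_conj']
    · intro y hy hyx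
      by_cases hg : x.g⁻¹ = y.g⁻¹
      · simp only [if_pos hg, map_mul, ← AddChar.map_neg_eq_conj]
        have h1 := h x hx y hy (by
          intro e
          have := congrArg (ρ x.g) e
          simp only [Representation.self_inv_apply, map_zero, sub_eq_zero] at this
          exact hyx (SD.ext this.symm (inv_injective hg).symm))
        rw [← mul_zero (ξ.coeff x * conj (ξ.coeff y)), ← h1, mul_sum]
        refine sum_congr rfl (fun ω _ => ?_)
        rw [mul_mul_mul_comm, ← AddChar.map_add_eq_mul, ← hg, map_sub, map_sub, sub_eq_add_neg]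
      · simp only [if_neg hg, sum_const_zero]
  refine ⟨SD ρ, inferInstance, ?_, π,
    fun a j => (1 / p : ℂ) • ∑ t : ZMod p, ψ (-(t * j)) • MonoidAlgebra.single ⟨t • a, 1⟩ 1,
    fun g => MonoidAlgebra.single ⟨0, g⟩ 1, ?_, ?_, ?_, ?_⟩
  · exact Function.Injective.countable (f := fun x : SD ρ => (x.a, x.g))
      (fun x y e => SD.ext (congrArg Prod.fst e) (congrArg Prod.snd e))
  · intro ω a j f v
    simp only [map_smul, map_sum, LinearMap.smul_apply, LinearMap.sum_apply, Finsupp.smul_apply,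
      Finsupp.finsetSum_apply, hπ, smul_eq_mul, mul_one, ← mul_assoc, ← AddChar.map_add_eq_mul]
    rw [← sum_mul, sum_congr rfl (g := fun t => ψ (t * (ω (ρ v a) - j)))
      (fun t _ => by congr 1; ring), AddChar.sum_mulShift _ (ZMod.isPrimitive_stdAddChar p)]
    have hp : (p : ℂ) ≠ 0 := by exact_mod_cast (Fact.out : p.Prime).ne_zero
    simp only [sub_eq_zero, ZMod.card]
    split_ifs
    · field_simp
    · simp
  · intro ω g f v
    simp [hπ]
  · intro η C h ξ
    obtain ⟨Ω, _, -, h1⟩ := exists_sep p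
      (((ξ.coeff.support ∪ (η * ξ).coeff.support) ×ˢ (ξ.coeff.support ∪ (η * ξ).coeff.support)).image
        (fun q => ρ q.1.g⁻¹ (q.1.a - q.2.a))) ∅
    have h2 := hP ξ Ω _ (fun x hx y hy => h1 _ (mem_image.2 ⟨(x, y), by simp [hx, hy], rfl⟩))
    have h3 := hP (η * ξ) Ω _ (fun x hx y hy => h1 _ (mem_image.2 ⟨(x, y), by simp [hx, hy], rfl⟩))
    have hΩ : (0 : ℝ) < Fintype.card Ω := by exact_mod_cast Fintype.card_pos
    refine le_of_mul_le_mul_left ?_ hΩ
    rw [← h3, mul_left_comm, ← h2, mul_sum]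
    refine sum_le_sum (fun ω _ => ?_)
    rw [map_mul]
    exact h _ _
  · intro ξ Sd
    obtain ⟨Ω, _, h0, h1⟩ := exists_sep p (ξ.coeff.support.image (fun x => x.a)) Sd
    refine ⟨Ω, inferInstance, h0, ?_⟩
    simp only [hF, Finsupp.finsetSum_apply]
    rw [sum_comm, sum_eq_single (1 : SD ρ)]
    · change _ = ∑ ω : Ω, Finsupp.single (1 : G)⁻¹ (ξ.coeff 1 * ψ (ω.1 (ρ (1 : G)⁻¹ 0))) 1
      simp
    · intro x hx hx1
      by_cases hg : x.g = 1
      · have h2 := h1 _ (mem_image_of_mem _ hx) (fun e => hx1 (SD.ext e hg))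
        simp only [hg, inv_one, Finsupp.single_eq_same, map_one, Module.End.one_apply]
        rw [← mul_sum, h2, mul_zero]
      · apply sum_eq_zero
        intro ω _
        exact Finsupp.single_eq_of_ne (fun e => hg (inv_eq_one.1 e.symm))
    · intro h
      simp [Finsupp.notMem_support_iff.1 h]

end Vale.Agent.P089
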