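import Vale.Agent.P089.LabelAux
import Vale.Agent.P089.Base

namespace Vale.Agent.P089

open Finset Vale.Agent.P194

theorem label_term (d m N : ℕ) (hd : 1 ≤ d) (hN : N ≤ (d + 1) ^ (2000 * (2 * m + 6) + 6))
    (β : ℝ) (hβ : β = ((d + 1 : ℕ) : ℝ) ^ 4008) :
    4 * ((2 * m + 6 : ℕ) : ℝ) * N * d ^ (2 * m + 6) * (β / β ^ (m + 3)) ≤ β * (1 / 2) ^ (m + 1) := by
  have h1 : 4 * (2 * m + 6) * N * d ^ (2 * m + 6) * 2 ^ (m + 1) ≤ ((d + 1) ^ 4008) ^ (m + 3) := by
    have a1 : 2 * m + 6 ≤ 2 ^ (2 * m + 6) := Nat.lt_two_pow_self.le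
    have a2 : d ^ (2 * m + 6) ≤ (d + 1) ^ (2 * m + 6) := Nat.pow_le_pow_left (by omega) _
    have a3 : 2 ^ (6 * m + 12) ≤ (d + 1) ^ (6 * m + 12) := Nat.pow_le_pow_left (by omega) _
    have a4 : 2 ^ (3 * m + 9) ≤ 2 ^ (6 * m + 12) := Nat.pow_le_pow_right (by omega) (by omega)
    calc 4 * (2 * m + 6) * N * d ^ (2 * m + 6) * 2 ^ (m + 1)
        ≤ 4 * 2 ^ (2 * m + 6) * (d + 1) ^ (2000 * (2 * m + 6) + 6) * (d + 1) ^ (2 * m + 6) *
          2 ^ (m + 1) := by gcongr
      _ = 2 ^ (3 * m + 9) * (d + 1) ^ (2000 * (2 * m + 6) + 6 + (2 * m + 6)) := by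
          rw [pow_add (d + 1) (2000 * (2 * m + 6) + 6), show 3 * m + 9 = 2 + (2 * m + 6) + (m + 1) by
            ring, pow_add 2 _ (m + 1), pow_add 2 2]
          ac_rfl
      _ ≤ (d + 1) ^ (6 * m + 12) * (d + 1) ^ (2000 * (2 * m + 6) + 6 + (2 * m + 6)) :=
          Nat.mul_le_mul_right _ (a4.trans a3)
      _ = _ := by
          rw [← pow_add, ← pow_mul]
          congr 1
          ring
  have h2 : (4 * ((2 * m + 6 : ℕ) : ℝ) * N * d ^ (2 * m + 6) * 2 ^ (m + 1) : ℝ) ≤ β ^ (m + 3) := by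
    rw [hβ]
    exact_mod_cast h1
  have h3 : 0 < β := by rw [hβ]; exact pow_pos (Nat.cast_pos.2 (by omega)) _
  rw [one_div_pow, mul_one_div, ← mul_div_assoc, div_le_div_iff₀ (pow_pos h3 _) (by positivity)]
  calc _ = β * (4 * ((2 * m + 6 : ℕ) : ℝ) * N * d ^ (2 * m + 6) * 2 ^ (m + 1)) := by ring
    _ ≤ _ := mul_le_mul_of_nonneg_left h2 h3.le

theorem rd_take {d : ℕ} {X Λ : Type} (τ : Fin d → X → X) (lab : X → Fin d → Λ) (x : X)
    (w : List (Fin d)) (k : ℕ) : rd τ lab x (w.take k) = (rd τ lab x w).take k := by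
  induction w generalizing x k with
  | nil => simp [rd]
  | cons c w ih =>
    cases k with
    | zero => simp [rd]
    | succ k => simp [rd, ih]

/-- A small cancellation labelling of a sequence of expanders exists. -/
theorem exists_sys : ∃ (d M : ℕ) (V : Type) (S : Sys d M V), S.Good := by
  classical
  obtain ⟨d, hd, hbase⟩ := base_graphs
  choose X iF iD side τ hi hs hg hlo hhi hexp using fun n => hbase (2000 * (2 * n + 6))
  obtain ⟨B, hB1, hB2⟩ : ∃ B : ℕ, (1 : ℝ) ≤ B ∧ ∀ m : ℕ,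
      4 * ((2 * m + 6 : ℕ) : ℝ) * Fintype.card (X m) * d ^ (2 * m + 6) * (B / B ^ (m + 3)) ≤
        B * (1 / 2) ^ (m + 1) :=
    ⟨(d + 1) ^ 4008, Nat.one_le_cast.2 (Nat.one_le_pow _ _ (Nat.succ_pos d)),
      fun m => label_term d m _ (by omega) (hhi m) _ (Nat.cast_pow _ _)⟩
  have hex : ∀ n (prev : ∀ m, m < n → X m → Fin d → Fin (2 * B)),
      ∃ lab : X n → Fin d → Fin (2 * B), (∀ c x, lab (τ n c x) c = lab x c) ∧
      (∀ x x' w, x ≠ x' → side n x = side n x' → w.IsChain (· ≠ ·) → w.length = 2 * n + 6 →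
        rd (τ n) lab x w ≠ rd (τ n) lab x' w) ∧
      ∀ m (h : m < n) (x' : X m) (w : List (Fin d)), w.IsChain (· ≠ ·) → w.length = 2 * m + 6 →
        ∀ x, rd (τ n) lab x w ≠ rd (τ m) (prev m h) x' w := by
    intro n prev
    obtain ⟨lab, l1, l2, l3⟩ := level (hi n) (hs n) (hg n) (2 * n + 6) (by omega) (by omega) (2 * B)
      B hB1 (Σ m : Fin n, X m × {w : List.Vector (Fin d) (2 * m + 6) // w.toList.IsChain (· ≠ ·)})
      (fun k => k.2.2.1.toList) (fun k => rd (τ k.1) (prev k.1 k.1.2) k.2.1 k.2.2.1.toList) (by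
        intro k
        have := k.1.2
        rw [List.Vector.toList_length]
        exact ⟨k.2.2.2, by omega, by omega⟩) (by
        have a1 := hB2 n
        rw [show (2 * n + 6) / 2 = n + 3 by omega]
        have a2 : ∑ k : (Σ m : Fin n, X m ×
            {w : List.Vector (Fin d) (2 * m + 6) // w.toList.IsChain (· ≠ ·)}),
            2 * (k.2.2.1.toList.length : ℝ) * ((B : ℝ) / B ^ k.2.2.1.toList.length) ≤
            ∑ m ∈ range n, (B : ℝ) * (1 / 2) ^ (m + 1) := by
          rw [Fintype.sum_sigma, ← Fin.sum_univ_eq_sum_range (fun m => (B : ℝ) * (1 / 2) ^ (m + 1))]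
          refine sum_le_sum (fun m _ => le_trans ?_ (hB2 m))
          simp only [List.Vector.toList_length, sum_const, card_univ, Fintype.card_prod,
            nsmul_eq_mul]
          have b1 : (Fintype.card {w : List.Vector (Fin d) (2 * m + 6) //
              w.toList.IsChain (· ≠ ·)} : ℝ) ≤ d ^ (2 * m + 6 : ℕ) := by
            have := Fintype.card_subtype_le
              (fun w : List.Vector (Fin d) (2 * m + 6) => w.toList.IsChain (· ≠ ·))
            rw [card_vector, Fintype.card_fin] at this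
            exact_mod_cast this
          have b2 : (B : ℝ) / B ^ (2 * m + 6 : ℕ) ≤ B / B ^ (m + 3 : ℕ) :=
            div_le_div_of_nonneg_left (by positivity) (by positivity)
              (pow_le_pow_right₀ hB1 (by omega))
          rw [Nat.cast_mul]
          calc _ ≤ (Fintype.card (X m) : ℝ) * d ^ (2 * m + 6 : ℕ) *
                (4 * ((2 * m + 6 : ℕ) : ℝ) * (B / B ^ (m + 3 : ℕ))) := by gcongr; norm_num
            _ = _ := by ring
        have a3 : ∑ m ∈ range (n + 1), (1 / 2 : ℝ) ^ (m + 1) ≤ 1 := by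
          simp only [pow_succ]
          rw [← sum_mul]
          have := sum_geometric_two_le (n + 1)
          linarith
        rw [← mul_sum] at a2
        rw [sum_range_succ] at a3
        have a4 := mul_le_mul_of_nonneg_left a3 (show (0 : ℝ) ≤ B by positivity)
        rw [Nat.cast_mul, Nat.cast_ofNat]
        linarith)
    exact ⟨lab, l1, l2, fun m h x' w h1 h2 x => l3 ⟨⟨m, h⟩, x', ⟨w, h2⟩, h1⟩ x⟩
  choose F hF using hex
  let lab : ∀ n, X n → Fin d → Fin (2 * B) := Nat.lt_wfRel.wf.fix F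
  have hlab : ∀ n, lab n = F n (fun m _ => lab m) := fun n => Nat.lt_wfRel.wf.fix_eq F n
  have hL := fun n => hF n (fun m _ => lab m)
  simp only [← hlab] at hL
  have hne : ∀ n, Nonempty (X n) := fun n =>
    Fintype.card_pos_iff.1 (lt_of_lt_of_le (by positivity) (hlo n))
  let S : Sys d (2 * B) (Σ n, X n) :=
    { side := fun v => side v.1 v.2
      comp := fun v => v.1
      τ := fun c v => ⟨v.1, τ v.1 c v.2⟩
      lab := fun v => lab v.1 v.2
      Xs := fun n => univ.map (Function.Embedding.sigmaMk n)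
      pc := fun n => 2 * n + 6
      root := ⟨0, (hne 0).some⟩ }
  have hc : ∀ n, (S.Xs n).card = Fintype.card (X n) := fun n => by simp [S]
  have htr : ∀ n (w : List (Fin d × Fin (2 * B))) (x : X n), Valid S.σ ⟨n, x⟩ w →
      walk S.σ ⟨n, x⟩ w = ⟨n, walk (τ n) x (w.map Prod.fst)⟩ ∧
      rd (τ n) (lab n) x (w.map Prod.fst) = w.map Prod.snd ∧
      (w.IsChain (· ≠ ·) → (w.map Prod.fst).IsChain (· ≠ ·)) := by
    intro n w
    induction w with
    | nil => intro x _; exact ⟨rfl, rfl, by simp⟩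
    | cons s w ih =>
      intro x hv
      have h1 : lab n x s.1 = s.2 := by
        by_contra h
        exact hv.1 (if_neg h)
      have h2 : S.σ s ⟨n, x⟩ = ⟨n, τ n s.1 x⟩ := if_pos h1
      have h3 := hv.2
      rw [h2] at h3
      obtain ⟨i1, i2, i3⟩ := ih _ h3
      refine ⟨by rw [walk, h2, i1]; rfl, by rw [List.map_cons, rd, i2, h1]; rfl, fun hw => ?_⟩
      cases w with
      | nil => simp
      | cons t w =>
        rw [List.isChain_cons_cons] at hw
        rw [List.map_cons, List.map_cons, List.isChain_cons_cons]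
        refine ⟨fun e => hw.1 (Prod.ext e ?_), i3 hw.2⟩
        have h4 := (List.cons.inj i2).1
        rw [← h4, ← e, (hL n).1, h1]
  refine ⟨d, 2 * B, _, S, hd, ?_, ?_, ?_, ?_, ?_, ?_, ?_, ?_, ?_, ?_, ?_⟩
  · rintro n ⟨m, x⟩
    simp only [S, mem_map, mem_univ, true_and, Function.Embedding.sigmaMk_apply]
    constructor
    · rintro ⟨y, h⟩; exact (congrArg Sigma.fst h).symm
    · rintro rfl; exact ⟨x, rfl⟩
  · rintro c ⟨m, x⟩; simp only [S, hi]
  · rintro c ⟨m, x⟩; exact hs _ _ _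
  · intro c x; rfl
  · rintro c ⟨m, x⟩; exact (hL m).1 _ _
  · intro n; simp only [S]; omega
  · rintro ⟨n, x⟩ w h1 h2 h3 h4
    obtain ⟨i1, -, i3⟩ := htr n w x h1
    by_contra hc
    rw [i1] at h3
    have := hg n x _ (valid_all (hs n) _ _) (i3 h2) (by
      rw [List.length_map]; exact (not_le.1 hc).le) (eq_of_heq (Sigma.mk.inj h3).2)
    exact h4 (List.map_eq_nil_iff.1 this)
  · rintro ⟨n, x⟩ ⟨n', x'⟩ w h1 h2 h3 h4 h5
    obtain ⟨-, i2, i3⟩ := htr n w x h3
    obtain ⟨-, j2, -⟩ := htr n' w x' h4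
    by_contra hc
    simp only [S, not_lt] at hc
    have key : ∀ k, rd (τ n) (lab n) x ((w.map Prod.fst).take k) =
        rd (τ n') (lab n') x' ((w.map Prod.fst).take k) := fun k => by
      rw [rd_take, rd_take, i2, j2]
    rcases lt_trichotomy n n' with h | rfl | h
    · exact (hL n').2.2 n h x _ ((i3 h5).take (2 * n + 6)) (by simp; omega) x' (key _).symm
    · exact (hL n).2.1 x x' _ (fun e => h1 (by rw [e])) h2 ((i3 h5).take (2 * n + 6))
        (by simp; omega) (key _)
    · exact (hL n).2.2 n' h x' _ ((i3 h5).take (2 * n' + 6)) (by simp; omega) x (key _)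
  · intro n
    rw [hc]
    refine le_trans ?_ (hlo n)
    have h1 : 8 ≤ (d + 1) ^ 2 :=
      le_trans (by norm_num) (Nat.pow_le_pow_left (show 4 ≤ d + 1 by omega) 2)
    calc 8 * (d + 1) ^ (3 * (2 * n + 6)) ≤ (d + 1) ^ 2 * (d + 1) ^ (3 * (2 * n + 6)) :=
          Nat.mul_le_mul_right _ h1
      _ ≤ _ := by rw [← pow_add]; exact Nat.pow_le_pow_right (by omega) (by omega)
  · intro n U h1 h2
    obtain ⟨U', -, rfl⟩ := subset_map_iff.1 h1
    rw [hc, card_map] at h2
    rw [card_map]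
    refine (hexp n U' h2).trans ?_
    apply card_le_card_of_injOn (fun q => ((⟨n, q.1⟩ : Σ n, X n), q.2))
    · intro q hq
      simpa [S] using hq
    · intro q _ q' _ e
      simp only [Prod.mk.injEq, Sigma.mk.injEq, heq_eq_eq, true_and] at e
      exact Prod.ext e.1 e.2
  · intro n
    rw [hc, hc]
    refine le_trans ?_ (hlo (n + 1))
    have h1 := hhi n
    have h2 : n ≤ (d + 1) ^ (2000 * (2 * n + 6) + 6) :=
      (Nat.lt_pow_self (show 1 < d + 1 by omega)).le.trans
        (Nat.pow_le_pow_right (by omega) (by omega))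
    calc 2 * (Fintype.card (X n) + n) ≤ (d + 1) * (d + 1) ^ (2000 * (2 * n + 6) + 6) := by
          have := Nat.mul_le_mul_right ((d + 1) ^ (2000 * (2 * n + 6) + 6)) (show 4 ≤ d + 1 by omega)
          omega
      _ ≤ _ := by rw [← pow_succ']; exact Nat.pow_le_pow_right (by omega) (by omega)

end Vale.Agent.P089
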