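import Vale.Agent.P089.FinalAux
import Vale.Agent.P089.Label
import Vale.Agent.P089.Codes
import Vale.Agent.P089.Mod
import Vale.Agent.P089.Fourier
import Vale.Agent.P089.Irr
import Vale.Agent.P089.Ell2

set_option linter.unusedSectionVars false

namespace Vale.Agent.P089

open Finset Vale.Agent.P194 Filter Topology

/-- The dual code. -/
def dualCode {K X : Type} [Field K] [Fintype X] (R : Submodule K (X → K)) : Submodule K (X → K) :=
  LinearMap.ker ((dotProductBilin K K).flip.compl₂ R.subtype)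

theorem mem_dualCode {K X : Type} [Field K] [Fintype X] (R : Submodule K (X → K)) (y : X → K) :
    y ∈ dualCode R ↔ ∀ r ∈ R, r ⬝ᵥ y = 0 := by
  simp [dualCode, LinearMap.ext_iff]

theorem finrank_dualCode {K X : Type} [Field K] [Fintype X] (R : Submodule K (X → K)) :
    Fintype.card X ≤ Module.finrank K (dualCode R) + Module.finrank K R ∧
      Module.finrank K (dualCode R) ≤ Fintype.card X := by
  have h1 := LinearMap.finrank_range_add_finrank_ker
    ((dotProductBilin K K).flip.compl₂ R.subtype : (X → K) →ₗ[K] Module.Dual K R)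
  have h2 := Submodule.finrank_le (LinearMap.range
    ((dotProductBilin K K).flip.compl₂ R.subtype : (X → K) →ₗ[K] Module.Dual K R))
  rw [Subspace.dual_finrank_eq] at h2
  rw [Module.finrank_fintype_fun_eq_card] at h1
  unfold dualCode
  omega

theorem main : ∃ (Γ : Type) (_ : Group Γ) (_ : Countable Γ)
    (lam : Γ → (lp (fun _ : Γ => ℂ) 2 →L[ℂ] lp (fun _ : Γ => ℂ) 2)),
    (∀ g ξ h, lam g ξ h = ξ (g⁻¹ * h)) ∧
    ∃ (p : lp (fun _ : Γ => ℂ) 2 →L[ℂ] lp (fun _ : Γ => ℂ) 2) (δ : lp (fun _ : Γ => ℂ) 2) (t : ℝ),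
      p ∈ closure ((Submodule.span ℂ (Set.range lam) : Submodule ℂ _) :
        Set (lp (fun _ : Γ => ℂ) 2 →L[ℂ] lp (fun _ : Γ => ℂ) 2)) ∧
      IsSelfAdjoint p ∧ p * p = p ∧ δ 1 = 1 ∧ (∀ g, g ≠ 1 → δ g = 0) ∧
      Irrational t ∧ p δ 1 = t := by
  classical
  obtain ⟨d, M, V, S, hS⟩ := exists_sys
  obtain ⟨γ, hγ'⟩ := exists_gamma_gen hS.isGraph (kills_qmk S.D S.σ)
  have hγ : S.Pot γ := by
    intro c x
    have := hγ' x (c, S.lab x c) (by simp [Sys.D])
    rwa [hS.sigma_eq (hS.valid_tau c x)] at this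
  obtain ⟨p, hp, hprime⟩ := Nat.exists_infinite_primes (2 ^ 16 + Fintype.card (Ty d M) + 1)
  haveI : Fact p.Prime := ⟨hprime⟩
  obtain ⟨enc, henc, henc0⟩ : ∃ enc : Ty d M → ZMod p, Function.Injective enc ∧ ∀ t, enc t ≠ 0 := by
    obtain ⟨f⟩ := Function.Embedding.nonempty_of_card_le (α := Ty d M) (β := (ZMod p)ˣ) (by
      rw [ZMod.card_units]; omega)
    exact ⟨fun t => f t, fun t t' e => f.injective (Units.ext e), fun t => (f t).ne_zero⟩
  have hbig : ∀ n, 16 ≤ (S.Xs n).card := by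
    intro n
    have h1 := hS.big n
    have h2 : (d + 1) ^ 1 ≤ (d + 1) ^ (3 * S.pc n) :=
      Nat.pow_le_pow_right (by omega) (by have := hS.pc_pos n; omega)
    have := hS.three
    rw [pow_one] at h2
    omega
  choose R hR1 hR2 hR3 hR4 using fun n => exists_code p (by omega) (S.Xs n)
    (by rw [Fintype.card_coe]; exact hbig n) (fun x => enc (S.ty x)) (fun x => henc0 _)
  haveI : Countable S.G := S.surj.countable
  obtain ⟨A, _, _, _, ρ, av, hρ, hav, hext⟩ := exists_mod (K := ZMod p) (G := S.G)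
    (fun n => S.Xs n) (fun n x => γ x) (fun n x y e => Subtype.ext (pot_inj hS hγ _ _
      (((hS.mem _ _).1 x.2).trans ((hS.mem _ _).1 y.2).symm) e)) R
    (fun n r h1 h2 => by convert hR2 n r h1 h2) (by
      intro c0 Fam h1 h2
      obtain ⟨x0, hx0⟩ := card_pos.1 (show 0 < (S.Xs c0.2).card by have := hbig c0.2; omega)
      obtain ⟨h, m, hg, hb⟩ := geo hS hγ (c0.1 * γ x0)
      obtain ⟨c, c1, c2⟩ := shell hS hg c0 (hb c0 ⟨x0, (hS.mem _ _).1 hx0, rfl⟩) Fam h1 h2
      refine ⟨c, c1, ?_⟩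
      rw [Fintype.card_coe]
      rw [← card_filter_sub] at c2
      convert c2 using 4 with x
      simp [Sys.InC, hS.mem])
  obtain ⟨Γ, _, _, π, e, u, he, hu, hpl, htr⟩ := fourier p ρ
  let T : Module.Dual (ZMod p) A → S.G → Option (Ty d M) := fun ω => dec enc (fun v => ω (av v))
  have hres : ∀ (ω : Module.Dual (ZMod p) A) (a : S.G) (n : ℕ),
      (fun x : S.Xs n => ω (av (a * γ x))) ∈ dualCode (R n) := by
    intro ω a n
    rw [mem_dualCode]
    intro r hr
    have := congrArg ω (hav a n r hr)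
    simpa [dotProduct] using this
  have hPat : ∀ (ω : Module.Dual (ZMod p) A) (c : S.G × ℕ), S.Pat γ (T ω) c ↔
      (fun x : S.Xs c.2 => ω (av (c.1 * γ x))) = fun x : S.Xs c.2 => enc (S.ty x) := by
    intro ω c
    simp only [Sys.Pat, T, dec_eq henc, funext_iff, Subtype.forall, hS.mem]
  have hT : ∀ ω (c : S.G × ℕ), S.Pat γ (T ω) c ∨ (S.Xs c.2).card ≤
      8 * ((S.Xs c.2).filter (fun x => T ω (c.1 * γ x) ≠ some (S.ty x))).card := by
    intro ω c
    rw [hPat, ← sub_eq_zero, or_iff_not_imp_left]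
    intro h
    have := hR3 c.2 _ (fun r hr => by
      rw [dotProduct_sub, (mem_dualCode _ _).1 (hres ω c.1 c.2) r hr, hR1 _ r hr, sub_zero]) h
    rw [Fintype.card_coe] at this
    rw [← card_filter_sub]
    refine this.le.trans (le_of_eq ?_)
    congr 3
    ext x
    simp [T, dec_eq henc, sub_eq_zero]
  let N : Fin d → MonoidAlgebra ℂ Γ := fun i => ∑ t : Ty d M, ∑ t' : Ty d M,
    if t'.1 = (!t.1) ∧ t'.2 i = t.2 i then
      e (av 1) (enc t) * (e (av (S.gn (i, t.2 i) t.1)) (enc t') * u (S.gn (i, t.2 i) t.1)) else 0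
  let q : MonoidAlgebra ℂ Γ := 1 - (1 / (2 * d) : ℂ) • ∑ i, (1 - N i)
  have hQ : ∀ ω f v, π ω q f v = f v - (1 / (2 * d) : ℂ) *
      ∑ i, (f v - if S.nu (T ω) i v = v then 0 else f (S.nu (T ω) i v)) := by
    intro ω f v
    simp only [q, map_sub, map_smul, map_sum, map_one, LinearMap.sub_apply, LinearMap.smul_apply,
      LinearMap.sum_apply, Module.End.one_apply, Finsupp.sub_apply, Finsupp.smul_apply,
      Finsupp.finset_sum_apply, smul_eq_mul]
    congr 3
    ext i
    congr 1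
    rw [← nu_sum henc (fun v => ω (av v)) i f v]
    simp only [N, map_sum, LinearMap.sum_apply, Finsupp.finset_sum_apply]
    refine sum_congr rfl (fun t _ => sum_congr rfl (fun t' _ => ?_))
    by_cases hc : t'.1 = (!t.1) ∧ t'.2 i = t.2 i
    · rw [if_pos hc, if_pos hc, map_mul, map_mul, Module.End.mul_apply, Module.End.mul_apply, he,
        he, hu, hρ, hρ, mul_one]
      congr
    · rw [if_neg hc, if_neg hc, map_zero]; rfl
  have hgap := fun ω => gap_sys hS hγ (T ω) (hT ω) (π ω q) (hQ ω)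
  set θ : ℝ := 1 - 1 / (16384 * (d : ℝ) ^ 2) with hθ
  have hd : (3 : ℝ) ≤ d := by exact_mod_cast hS.three
  have hθ0 : 0 ≤ θ := by
    rw [hθ, sub_nonneg, div_le_one (by positivity)]; nlinarith
  have hθ1 : θ < 1 := by
    rw [hθ]; exact sub_lt_self _ (by positivity)
  let ex : ℕ → ℕ := fun n => Module.finrank (ZMod p) (dualCode (R n))
  obtain ⟨hsum, hirr⟩ := irr p hprime.two_le ex (by
    intro n
    have h1 := (finrank_dualCode (R n)).2
    have h2 := (finrank_dualCode (R (n + 1))).1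
    have h3 := hR4 (n + 1)
    have h4 := hS.grow n
    rw [Fintype.card_coe] at h1 h2 h3
    simp only [ex]
    omega)
  have key : ∀ k n : ℕ, ‖(q ^ k).coeff 1 - ((∑ m ∈ range n, 1 / (p : ℝ) ^ (ex m) : ℝ) : ℂ)‖ ≤
      √(θ ^ k) + 1 / ((S.Xs n).card : ℝ) := by
    intro k n
    choose om hom using fun (a : S.G) (m : ℕ) (y : dualCode (R m)) =>
      hext a m y ((mem_dualCode _ _).1 y.2)
    obtain ⟨Ω, _, h1, h2⟩ := htr (q ^ k) ((range n).biUnion (fun m => (S.Xs m).biUnion
      (fun x => univ.image (om (γ x)⁻¹ m))))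
    have hΩ : (0 : ℝ) < Fintype.card Ω := by exact_mod_cast Fintype.card_pos
    have h3 : ∀ m ∈ range n, ∀ x ∈ S.Xs m,
        ∑ ω : Ω, (if S.Pat γ (T ω) ((γ x)⁻¹, m) then 1 / ((S.Xs m).card : ℂ) else 0) =
          Fintype.card Ω * (1 / (p : ℂ) ^ (ex m)) * (1 / ((S.Xs m).card : ℂ)) := by
      intro m hm x hx
      let φ : Ω →ₗ[ZMod p] dualCode (R m) :=
        { toFun := fun ω => ⟨_, hres ω (γ x)⁻¹ m⟩
          map_add' := fun _ _ => rfl
          map_smul' := fun _ _ => rfl }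
      have hφ : Function.Surjective φ := by
        intro y
        refine ⟨⟨om (γ x)⁻¹ m y, h1 _ (mem_biUnion.2 ⟨m, hm, mem_biUnion.2
          ⟨x, hx, mem_image_of_mem _ (mem_univ _)⟩⟩)⟩, Subtype.ext (funext (hom _ _ _))⟩
      have h4 := card_fiber_mul φ hφ ⟨fun x => enc (S.ty x), (mem_dualCode _ _).2 (hR1 m)⟩
      rw [Module.card_eq_pow_finrank (K := ZMod p), ZMod.card] at h4
      rw [← sum_filter, sum_const, nsmul_eq_mul, ← h4]
      congr 1
      have hp0 : (p : ℂ) ≠ 0 := by exact_mod_cast hprime.ne_zero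
      push_cast
      rw [mul_assoc, mul_one_div_cancel (pow_ne_zero _ hp0), mul_one]
      congr 2
      ext ω
      simp only [mem_filter, mem_univ, true_and, hPat, φ, Subtype.ext_iff]
      rfl
    have h4 : ∑ ω : Ω, ∑ m ∈ range n, ∑ x ∈ S.Xs m,
        (if S.Pat γ (T ω) ((γ x)⁻¹, m) then 1 / ((S.Xs m).card : ℂ) else 0) =
          Fintype.card Ω * ((∑ m ∈ range n, 1 / (p : ℝ) ^ (ex m) : ℝ) : ℂ) := by
      rw [sum_comm]
      push_cast
      rw [mul_sum]
      refine sum_congr rfl (fun m hm => ?_)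
      rw [sum_comm, sum_congr rfl (h3 m hm), sum_const, nsmul_eq_mul]
      have : ((S.Xs m).card : ℂ) ≠ 0 := by
        have := hbig m
        exact_mod_cast (show (S.Xs m).card ≠ 0 by omega)
      field_simp
    have h5 := norm_sum_le_of_le (univ : Finset Ω) (fun ω _ => (hgap ω).2.2 k n)
    rw [sum_sub_distrib, h4, sum_const, card_univ, nsmul_eq_mul] at h5
    simp only [← map_pow] at h5
    rw [← h2, ← mul_sub, norm_mul, Complex.norm_natCast] at h5
    exact le_of_mul_le_mul_left h5 hΩ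
  have key2 : ∀ k : ℕ, ‖(q ^ k).coeff 1 - ((∑' m, 1 / (p : ℝ) ^ (ex m) : ℝ) : ℂ)‖ ≤ √(θ ^ k) := by
    intro k
    have h1 := ((Complex.continuous_ofReal.tendsto _).comp hsum.hasSum.tendsto_sum_nat).const_sub
      ((q ^ k).coeff 1) |>.norm
    have h2 : Tendsto (fun n => √(θ ^ k) + 1 / ((S.Xs n).card : ℝ)) atTop (𝓝 (√(θ ^ k) + 0)) := by
      apply Tendsto.const_add
      apply tendsto_one_div_atTop_nhds_zero_nat.comp
      apply tendsto_atTop_mono (f := fun n => n) _ tendsto_id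
      intro n
      cases n with
      | zero => exact Nat.zero_le _
      | succ n =>
        have := hS.grow n
        have := hbig n
        omega
    rw [add_zero] at h2
    exact le_of_tendsto_of_tendsto' h1 h2 (key k)
  obtain ⟨lam, l1, P, l2, l3, l4, l5⟩ := ell2 q θ hθ0 hθ1 (fun ξ => by
      have := hpl q 1 (fun ω f => by rw [one_mul]; exact (hgap ω).1 f) ξ
      rwa [one_mul] at this)
    (fun k => hpl _ _ (fun ω f => by
      rw [map_sub, map_pow, map_pow]; exact (hgap ω).2.1 k f))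
    ((∑' m, 1 / (p : ℝ) ^ (ex m) : ℝ) : ℂ) (by
      rw [tendsto_iff_norm_sub_tendsto_zero]
      refine squeeze_zero (fun _ => norm_nonneg _) key2 ?_
      simpa using (tendsto_pow_atTop_nhds_zero_of_lt_one hθ0 hθ1).sqrt)
  exact ⟨Γ, inferInstance, inferInstance, lam, l1, P, lp.single 2 1 1, _, l2, l3, l4,
    lp.single_apply_self _ _ _, fun g hg => lp.single_apply_ne _ _ _ hg, hirr, l5⟩

end Vale.Agent.P089
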