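import Vale.Agent.P089.Fourier

namespace Vale.Agent.P089

open Finset

theorem exists_median {G : Type} (c : Finset G) (g : G → ℝ) :
    ∃ t, 2 * (c.filter (fun u => t < g u)).card ≤ c.card ∧
      2 * (c.filter (fun u => g u < t)).card ≤ c.card := by
  rcases c.eq_empty_or_nonempty with rfl | hne
  · exact ⟨0, by simp⟩
  obtain ⟨w, w1, w2⟩ := exists_max_image c g hne
  obtain ⟨v, v1, v2⟩ := exists_min_image
    (c.filter (fun v => 2 * (c.filter (fun u => g v < g u)).card ≤ c.card)) g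
    ⟨w, mem_filter.2 ⟨w1, by
      rw [filter_eq_empty_iff.2 (fun u hu => not_lt.2 (w2 u hu))]; simp⟩⟩
  refine ⟨g v, (mem_filter.1 v1).2, ?_⟩
  rcases (c.filter (fun u => g u < g v)).eq_empty_or_nonempty with h | h
  · simp [h]
  obtain ⟨u, u1, u2⟩ := exists_max_image _ g h
  have h1 : ¬ 2 * (c.filter (fun x => g u < g x)).card ≤ c.card := fun h1 =>
    not_lt.2 (v2 u (mem_filter.2 ⟨(mem_filter.1 u1).1, h1⟩)) (mem_filter.1 u1).2
  have h2 := card_filter_add_card_filter_not (s := c) (fun x => g u < g x)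
  have h3 : (c.filter (fun x => g x < g v)).card ≤ (c.filter (fun x => ¬ g u < g x)).card :=
    card_le_card (fun x hx => mem_filter.2 ⟨(mem_filter.1 hx).1, not_lt.2 (u2 x hx)⟩)
  omega

variable {G : Type} {d : ℕ}

open Classical in
/-- Boundary size. -/
noncomputable def bdry (ν : Fin d → G → G) (F : Finset G) : ℕ :=
  ((F ×ˢ (univ : Finset (Fin d))).filter (fun q => ν q.2 q.1 = q.1 ∨ ν q.2 q.1 ∉ F)).card

open Classical in
theorem layer (ν : Fin d → G → G) (W : Finset G) (n : ℕ) : ∀ φ : G → ℝ, (∀ v, 0 ≤ φ v) →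
    (∀ v, v ∉ W → φ v = 0) → (W.filter (fun v => 0 < φ v)).card ≤ n →
    (∀ t, 0 ≤ t → (W.filter (fun v => t < φ v)).card ≤ 32 * bdry ν (W.filter (fun v => t < φ v))) →
    ∑ v ∈ W, φ v ≤ 32 * ∑ v ∈ W, ∑ i, max (φ v - if ν i v = v then 0 else φ (ν i v)) 0 := by
  induction n with
  | zero =>
    intro φ h0 _ h2 _
    rw [sum_eq_zero]
    · positivity
    · intro v hv
      have := filter_eq_empty_iff.1 (card_eq_zero.1 (Nat.le_zero.1 h2)) hv
      exact le_antisymm (not_lt.1 this) (h0 v)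
  | succ n ih =>
    intro φ h0 h1 h2 h3
    rcases (W.filter (fun v => 0 < φ v)).eq_empty_or_nonempty with he | hne
    · exact ih φ h0 h1 (by simp [he]) h3
    obtain ⟨w, w1, w2⟩ := exists_min_image _ φ hne
    have ht := (mem_filter.1 w1).2
    have hmin : ∀ v, 0 < φ v → φ w ≤ φ v := fun v hv => w2 v (mem_filter.2
      ⟨by by_contra h; rw [h1 v h] at hv; exact lt_irrefl _ hv, hv⟩)
    let φ' : G → ℝ := fun v => if 0 < φ v then φ v - φ w else 0
    have a1 := ih φ' (fun v => by
        simp only [φ']; split_ifs with h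
        · exact sub_nonneg.2 (hmin v h)
        · exact le_rfl) (fun v hv => by simp [φ', h1 v hv]) (by
        refine Nat.le_of_lt_succ (lt_of_lt_of_le (card_lt_card ⟨?_, ?_⟩) h2)
        · intro v hv
          refine mem_filter.2 ⟨(mem_filter.1 hv).1, ?_⟩
          by_contra h
          simpa [φ', h] using (mem_filter.1 hv).2
        · intro h
          simpa [φ'] using (mem_filter.1 (h w1)).2) (by
        intro t ht'
        have : W.filter (fun v => t < φ' v) = W.filter (fun v => t + φ w < φ v) := by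
          apply filter_congr
          intro v _
          simp only [φ']
          split_ifs with h
          · exact lt_sub_iff_add_lt
          · constructor <;> intro h' <;> linarith
        rw [this]
        exact h3 _ (by linarith))
    have a2 : ((W.filter (fun v => 0 < φ v)).card : ℝ) ≤
        32 * bdry ν (W.filter (fun v => 0 < φ v)) := by exact_mod_cast h3 0 le_rfl
    have a3 : ∑ v ∈ W, φ v = ∑ v ∈ W, φ' v + φ w * (W.filter (fun v => 0 < φ v)).card := by
      rw [card_filter, Nat.cast_sum, mul_sum, ← sum_add_distrib]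
      refine sum_congr rfl (fun v _ => ?_)
      simp only [φ']
      split_ifs with h
      · simp
      · simpa using le_antisymm (not_lt.1 h) (h0 v)
    have a4 : ∑ v ∈ W, ∑ i, max (φ' v - if ν i v = v then 0 else φ' (ν i v)) 0 +
        φ w * bdry ν (W.filter (fun v => 0 < φ v)) ≤
        ∑ v ∈ W, ∑ i, max (φ v - if ν i v = v then 0 else φ (ν i v)) 0 := by
      rw [bdry, card_filter, sum_product, sum_filter, Nat.cast_sum, mul_sum, ← sum_add_distrib]
      refine sum_le_sum (fun v hv => ?_)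
      by_cases h : 0 < φ v
      · rw [if_pos h, Nat.cast_sum, mul_sum, ← sum_add_distrib]
        refine sum_le_sum (fun i _ => ?_)
        have b1 := hmin v h
        simp only [φ', if_pos h, mem_filter]
        by_cases h4 : ν i v = v
        · simp only [h4, if_true, true_or, sub_zero, Nat.cast_one, mul_one]
          rw [max_eq_left (by linarith), max_eq_left h.le]; linarith
        · by_cases h5 : 0 < φ (ν i v)
          · have : ν i v ∈ W := by
              by_contra h6; rw [h1 _ h6] at h5; exact lt_irrefl _ h5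
            simp [h4, h5, this]
          · have h6 := le_antisymm (not_lt.1 h5) (h0 _)
            simp only [h4, if_false, h6, lt_irrefl, and_false, not_false_eq_true, or_true, if_true,
              sub_zero, Nat.cast_one, mul_one]
            rw [max_eq_left (by linarith), max_eq_left h.le]; linarith
      · rw [if_neg h, Nat.cast_zero, mul_zero, add_zero]
        refine sum_le_sum (fun i _ => max_le ?_ (le_max_right _ _))
        refine le_trans ?_ (le_max_right _ _)
        simp only [φ', if_neg h]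
        split_ifs with h4 h5
        · simp
        · have := hmin _ h5; linarith
        · simp
    have a5 := mul_le_mul_of_nonneg_left a2 ht.le
    linarith

open Classical in
theorem cheeger0 (hd : 0 < d) (ν : Fin d → G → G) (W : Finset G) (h : G → ℝ) (h0 : ∀ v, 0 ≤ h v)
    (h1 : ∀ v, v ∉ W → h v = 0)
    (h3 : ∀ t, 0 ≤ t → (W.filter (fun v => t < h v)).card ≤
      32 * bdry ν (W.filter (fun v => t < h v))) :
    ∑ v ∈ W, h v ^ 2 ≤
      4096 * d * ∑ v ∈ W, ∑ i, (h v - if ν i v = v then 0 else h (ν i v)) ^ 2 := by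
  have hd' : (0 : ℝ) < d := by exact_mod_cast hd
  have a1 := layer ν W _ (fun v => h v ^ 2) (fun v => by positivity)
    (fun v hv => by simp [h1 v hv]) le_rfl (by
      intro t ht
      have : W.filter (fun v => t < h v ^ 2) = W.filter (fun v => √t < h v) :=
        filter_congr (fun v _ => (Real.sqrt_lt ht (h0 v)).symm)
      rw [this]
      exact h3 _ (Real.sqrt_nonneg _))
  have a2 : ∑ v ∈ W, ∑ i, max (h v ^ 2 - if ν i v = v then 0 else h (ν i v) ^ 2) 0 ≤
      ∑ v ∈ W, ∑ i, (64 * d * (h v - if ν i v = v then 0 else h (ν i v)) ^ 2 +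
        h v ^ 2 / (64 * d)) := by
    refine sum_le_sum (fun v _ => sum_le_sum (fun i _ => max_le ?_ (by positivity)))
    have key : ∀ a b : ℝ, 0 ≤ a → 0 ≤ b →
        a ^ 2 - b ^ 2 ≤ 64 * d * (a - b) ^ 2 + a ^ 2 / (64 * d) := by
      intro a b ha hb
      have e : 64 * d * (a - b) ^ 2 + a ^ 2 / (64 * d) - 2 * a * (a - b) =
          (64 * d * (a - b) - a) ^ 2 / (64 * d) := by field_simp; ring
      have : 0 ≤ (64 * d * (a - b) - a) ^ 2 / (64 * d) := by positivity
      nlinarith [sq_nonneg (a - b)]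
    split_ifs
    · simpa using key (h v) 0 (h0 v) le_rfl
    · exact key _ _ (h0 _) (h0 _)
  simp only [sum_add_distrib, ← mul_sum, sum_const, card_univ, Fintype.card_fin, nsmul_eq_mul,
    ← sum_div] at a2
  have e : (d : ℝ) * ((∑ v ∈ W, h v ^ 2) / (64 * d)) = (∑ v ∈ W, h v ^ 2) / 64 := by field_simp
  rw [e] at a2
  linarith

section
variable {ν : Fin d → G → G} {Pc : Set (Finset G)}

open Classical in
/-- The member of the family containing a point. -/
noncomputable def own (Pc : Set (Finset G)) (v : G) : Finset G :=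
  if h : ∃ c ∈ Pc, v ∈ c then h.choose else ∅

theorem own_eq (hdisj : ∀ c ∈ Pc, ∀ c' ∈ Pc, ∀ v ∈ c, v ∈ c' → c = c') {c : Finset G}
    (hc : c ∈ Pc) {v : G} (hv : v ∈ c) : own Pc v = c := by
  have h : ∃ c ∈ Pc, v ∈ c := ⟨c, hc, hv⟩
  rw [own, dif_pos h]
  exact hdisj _ h.choose_spec.1 _ hc v h.choose_spec.2 hv

theorem own_cases (v : G) :
    (own Pc v ∈ Pc ∧ v ∈ own Pc v) ∨ (own Pc v = ∅ ∧ ∀ c ∈ Pc, v ∉ c) := by
  unfold own
  split_ifs with h
  · exact Or.inl h.choose_spec
  · exact Or.inr ⟨rfl, fun c h1 h2 => h ⟨c, h1, h2⟩⟩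

theorem own_nu (hinv : ∀ i v, ν i (ν i v) = v)
    (hdisj : ∀ c ∈ Pc, ∀ c' ∈ Pc, ∀ v ∈ c, v ∈ c' → c = c')
    (hcl : ∀ c ∈ Pc, ∀ v ∈ c, ∀ i, ν i v ∈ c ∧ ν i v ≠ v) (i : Fin d) (v : G) :
    own Pc (ν i v) = own Pc v := by
  rcases own_cases (Pc := Pc) v with h | h
  · exact own_eq hdisj h.1 (hcl _ h.1 v h.2 i).1
  · rcases own_cases (Pc := Pc) (ν i v) with h' | h'
    · have := (hcl _ h'.1 _ h'.2 i).1
      rw [hinv] at this
      exact absurd this (h.2 _ h'.1)
    · rw [h.1, h'.1]

open Classical in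
theorem cheeger (hd : 0 < d) (hinv : ∀ i v, ν i (ν i v) = v)
    (hdisj : ∀ c ∈ Pc, ∀ c' ∈ Pc, ∀ v ∈ c, v ∈ c' → c = c')
    (hcl : ∀ c ∈ Pc, ∀ v ∈ c, ∀ i, ν i v ∈ c ∧ ν i v ≠ v)
    (hexp : ∀ c ∈ Pc, ∀ U ⊆ c, 2 * U.card ≤ c.card →
      U.card ≤ 32 * ((U ×ˢ (univ : Finset (Fin d))).filter (fun q => ν q.2 q.1 ∉ U)).card)
    (hiso : ∀ F : Finset G, (∀ v ∈ F, ∀ c ∈ Pc, v ∉ c) → F.card ≤ 32 * bdry ν F)
    (W : Finset G) (g : G → ℝ) (h1 : ∀ v, v ∉ W → g v = 0)
    (h2 : ∀ c ∈ Pc, ∀ v ∈ c, g v ≠ 0 → c ⊆ W) (h3 : ∀ c ∈ Pc, ∑ v ∈ c, g v = 0) :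
    ∑ v ∈ W, g v ^ 2 ≤
      4096 * d * ∑ v ∈ W, ∑ i, (g v - if ν i v = v then 0 else g (ν i v)) ^ 2 := by
  have hF : ∀ F : Finset G, (∀ c ∈ Pc, 2 * (F.filter (· ∈ c)).card ≤ c.card) →
      F.card ≤ 32 * bdry ν F := by
    intro F hF
    have e1 : bdry ν F = ∑ v ∈ F, (univ.filter (fun i => ν i v = v ∨ ν i v ∉ F)).card := by
      simp only [bdry, card_filter, sum_product]
    rw [e1, card_eq_sum_card_fiberwise (f := own Pc) (t := F.image (own Pc))
      (fun v hv => mem_coe.2 (mem_image_of_mem _ hv)),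
      ← sum_fiberwise_of_maps_to (s := F) (t := F.image (own Pc)) (g := own Pc)
      (fun v hv => mem_image_of_mem _ hv), mul_sum]
    refine sum_le_sum (fun c hc => ?_)
    have e2 : (F.filter (fun v => own Pc v = c)).card ≤
        32 * bdry ν (F.filter (fun v => own Pc v = c)) := by
      obtain ⟨w, -, rfl⟩ := mem_image.1 hc
      rcases own_cases (Pc := Pc) w with h | h
      · have e3 : F.filter (fun v => own Pc v = own Pc w) = F.filter (· ∈ own Pc w) := by
          refine filter_congr (fun v _ => ⟨fun e => ?_, own_eq hdisj h.1⟩)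
          rcases own_cases (Pc := Pc) v with h' | h'
          · exact e ▸ h'.2
          · rw [← e, h'.1] at h; simp at h
        rw [e3]
        refine (hexp _ h.1 _ (fun v hv => (mem_filter.1 hv).2) (hF _ h.1)).trans
          (Nat.mul_le_mul_left _ (card_le_card (monotone_filter_right _ (fun q _ hq => Or.inr hq))))
      · apply hiso
        intro v hv c' h4 h5
        have := (mem_filter.1 hv).2
        rw [own_eq hdisj h4 h5, h.1] at this
        simp [this] at h5
    refine e2.trans (Nat.mul_le_mul_left _ ?_)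
    simp only [bdry, card_filter, sum_product]
    refine sum_le_sum (fun v hv => sum_le_sum (fun i _ => le_of_eq ?_))
    simp only [mem_filter, own_nu hinv hdisj hcl, (mem_filter.1 hv).2, and_true]
  choose med m1 m2 using fun c => exists_median c g
  let m : G → ℝ := fun v => if own Pc v ⊆ W ∧ v ∈ own Pc v then med (own Pc v) else 0
  have hm0 : ∀ v, v ∉ W → m v = 0 := fun v hv => if_neg (fun h => hv (h.1 h.2))
  have hmν : ∀ i v, m (ν i v) = m v := by
    intro i v
    simp only [m, own_nu hinv hdisj hcl]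
    rcases own_cases (Pc := Pc) v with h | h
    · simp only [h.2, (hcl _ h.1 v h.2 i).1]
    · simp [h.1]
  have hmf : ∀ i v, ν i v = v → m v = 0 := by
    intro i v e
    rcases own_cases (Pc := Pc) v with h | h
    · exact absurd e (hcl _ h.1 v h.2 i).2
    · simp [m, h.1]
  have hlev : ∀ (s : ℝ), (s = 1 ∨ s = -1) → ∀ t, 0 ≤ t →
      (W.filter (fun v => t < max (s * (g v - m v)) 0)).card ≤
      32 * bdry ν (W.filter (fun v => t < max (s * (g v - m v)) 0)) := by
    intro s hs t ht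
    apply hF
    intro c hc
    have e : ∀ v ∈ (W.filter (fun v => t < max (s * (g v - m v)) 0)).filter (· ∈ c),
        v ∈ c ∧ 0 < s * (g v - med c) := by
      intro v hv
      obtain ⟨a1, a2⟩ := mem_filter.1 hv
      have a3 := (lt_max_iff.1 (mem_filter.1 a1).2).resolve_right (not_lt.2 ht)
      refine ⟨a2, ?_⟩
      simp only [m, own_eq hdisj hc a2, a2, and_true] at a3
      split_ifs at a3 with h
      · linarith
      · rw [show g v = 0 from by_contra (fun h' => h (h2 c hc v a2 h'))] at a3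
        simp at a3; linarith
    rcases hs with rfl | rfl
    · refine le_trans (Nat.mul_le_mul_left _ (card_le_card (fun v hv => ?_))) (m1 c)
      exact mem_filter.2 ⟨(e v hv).1, by linarith [(e v hv).2]⟩
    · refine le_trans (Nat.mul_le_mul_left _ (card_le_card (fun v hv => ?_))) (m2 c)
      exact mem_filter.2 ⟨(e v hv).1, by linarith [(e v hv).2]⟩
  have p1 := cheeger0 hd ν W (fun v => max (1 * (g v - m v)) 0) (fun v => le_max_right _ _)
    (fun v hv => by simp [h1 v hv, hm0 v hv]) (hlev 1 (Or.inl rfl))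
  have p2 := cheeger0 hd ν W (fun v => max (-1 * (g v - m v)) 0) (fun v => le_max_right _ _)
    (fun v hv => by simp [h1 v hv, hm0 v hv]) (hlev (-1) (Or.inr rfl))
  have p3 : ∑ v ∈ W, g v * m v = 0 := by
    rw [← sum_fiberwise_of_maps_to (s := W) (t := W.image (own Pc)) (g := own Pc)
      (fun v hv => mem_image_of_mem _ hv)]
    refine sum_eq_zero (fun c hc => ?_)
    by_cases h : c ∈ Pc ∧ c ⊆ W ∧ c.Nonempty
    · have e : W.filter (fun v => own Pc v = c) = c := by
        ext v
        rw [mem_filter]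
        refine ⟨fun h' => ?_, fun h' => ⟨h.2.1 h', own_eq hdisj h.1 h'⟩⟩
        rcases own_cases (Pc := Pc) v with h4 | h4
        · exact h'.2 ▸ h4.2
        · exact absurd (h'.2.symm.trans h4.1) h.2.2.ne_empty
      rw [e, sum_congr rfl (g := fun v => g v * med c), ← sum_mul, h3 c h.1, zero_mul]
      intro v hv
      simp [m, own_eq hdisj h.1 hv, hv, h.2.1]
    · refine sum_eq_zero (fun v hv => mul_eq_zero_of_right _ (if_neg (fun h' => h ?_)))
      rw [← (mem_filter.1 hv).2]
      rcases own_cases (Pc := Pc) v with h4 | h4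
      · exact ⟨h4.1, h'.1, v, h4.2⟩
      · rw [h4.1] at h'; simp at h'
  have p4 : ∑ v ∈ W, g v ^ 2 ≤
      ∑ v ∈ W, max (1 * (g v - m v)) 0 ^ 2 + ∑ v ∈ W, max (-1 * (g v - m v)) 0 ^ 2 := by
    have e : ∑ v ∈ W, g v ^ 2 = ∑ v ∈ W, (g v ^ 2 - 2 * (g v * m v)) := by
      rw [sum_sub_distrib, ← mul_sum, p3, mul_zero, sub_zero]
    rw [← sum_add_distrib, e]
    refine sum_le_sum (fun v _ => ?_)
    rcases le_total 0 (g v - m v) with h | h
    · rw [max_eq_left (by linarith), max_eq_right (by linarith)]; nlinarith [sq_nonneg (m v)]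
    · rw [max_eq_right (by linarith), max_eq_left (by linarith)]; nlinarith [sq_nonneg (m v)]
  refine p4.trans ((add_le_add p1 p2).trans ?_)
  rw [← mul_add, ← sum_add_distrib]
  refine mul_le_mul_of_nonneg_left (sum_le_sum (fun v _ => ?_)) (by positivity)
  rw [← sum_add_distrib]
  refine sum_le_sum (fun i _ => ?_)
  have key : ∀ a b : ℝ, (max (1 * a) 0 - max (1 * b) 0) ^ 2 +
      (max (-1 * a) 0 - max (-1 * b) 0) ^ 2 ≤ (a - b) ^ 2 := by
    intro a b
    simp only [one_mul, neg_mul]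
    rcases le_total 0 a with h | h <;> rcases le_total 0 b with h' | h'
    · rw [max_eq_left h, max_eq_left h', max_eq_right (neg_nonpos.2 h),
        max_eq_right (neg_nonpos.2 h')]
      simp
    · rw [max_eq_left h, max_eq_right h', max_eq_right (neg_nonpos.2 h),
        max_eq_left (neg_nonneg.2 h')]
      nlinarith [mul_nonneg h (neg_nonneg.2 h')]
    · rw [max_eq_right h, max_eq_left h', max_eq_left (neg_nonneg.2 h),
        max_eq_right (neg_nonpos.2 h')]
      nlinarith [mul_nonneg h' (neg_nonneg.2 h)]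
    · rw [max_eq_right h, max_eq_right h', max_eq_left (neg_nonneg.2 h),
        max_eq_left (neg_nonneg.2 h')]
      nlinarith
  split_ifs with h
  · simpa [hmf i v h] using key (g v) 0
  · have := key (g v - m v) (g (ν i v) - m (ν i v))
    rw [hmν] at this ⊢
    rwa [sub_sub_sub_cancel_right] at this

end

theorem sum_le_nsq (f : G →₀ ℂ) (s : Finset G) : ∑ v ∈ s, ‖f v‖ ^ 2 ≤ nsq f := by
  classical
  rw [nsq_eq_sum f (s ∪ f.support) subset_union_right]
  exact sum_le_sum_of_subset_of_nonneg subset_union_left (fun _ _ _ => by positivity)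

theorem norm_avg_sq (hd : 0 < d) (z : Fin d → ℂ) :
    ‖(1 / (2 * d) : ℂ) * ∑ i, z i‖ ^ 2 ≤ (1 / (4 * d)) * ∑ i, ‖z i‖ ^ 2 := by
  have hd' : (0 : ℝ) < d := by exact_mod_cast hd
  have h1 := (pow_le_pow_left₀ (norm_nonneg _) (norm_sum_le univ z) 2).trans sq_sum_le_card_mul_sum_sq
  rw [card_univ, Fintype.card_fin] at h1
  rw [norm_mul, mul_pow, norm_div, norm_one, norm_mul, Complex.norm_natCast, Complex.norm_ofNat]
  calc _ ≤ (1 / (2 * d : ℝ)) ^ 2 * (d * ∑ i, ‖z i‖ ^ 2) := by gcongr
    _ = _ := by field_simp; ring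

open Classical in
/-- Spectral gap for the lazy walk on a graph given by `d` involutions (fixed points absorb),
whose components are either finite expanders (the members of `Pc`) or uniformly non-amenable. -/
theorem gap {G : Type} {d : ℕ} (hd : 0 < d) (ν : Fin d → G → G) (hinv : ∀ i v, ν i (ν i v) = v)
    (Pc : Set (Finset G)) (hdisj : ∀ c ∈ Pc, ∀ c' ∈ Pc, ∀ v ∈ c, v ∈ c' → c = c')
    (hcl : ∀ c ∈ Pc, ∀ v ∈ c, ∀ i, ν i v ∈ c ∧ ν i v ≠ v)
    (hexp : ∀ c ∈ Pc, ∀ U ⊆ c, 2 * U.card ≤ c.card →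
      U.card ≤ 32 * ((U ×ˢ (univ : Finset (Fin d))).filter (fun q => ν q.2 q.1 ∉ U)).card)
    (hiso : ∀ F : Finset G, (∀ v ∈ F, ∀ c ∈ Pc, v ∉ c) →
      F.card ≤ 32 * ((F ×ˢ (univ : Finset (Fin d))).filter
        (fun q => ν q.2 q.1 = q.1 ∨ ν q.2 q.1 ∉ F)).card)
    (Q : Module.End ℂ (G →₀ ℂ))
    (hQ : ∀ f v, Q f v = f v - (1 / (2 * d) : ℂ) *
      ∑ i, (f v - if ν i v = v then 0 else f (ν i v))) :
    (∀ f, nsq (Q f) ≤ nsq f) ∧
    (∀ (k : ℕ) f, nsq ((Q ^ k - Q ^ (k + 1)) f) ≤ (1 - 1 / (16384 * (d : ℝ) ^ 2)) ^ k * nsq f) ∧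
    ∀ (k : ℕ) (v : G),
      (∀ c ∈ Pc, v ∈ c → ‖(Q ^ k) (Finsupp.single v 1) v - 1 / (c.card : ℂ)‖ ^ 2 ≤
        (1 - 1 / (16384 * (d : ℝ) ^ 2)) ^ k) ∧
      ((∀ c ∈ Pc, v ∉ c) → ‖(Q ^ k) (Finsupp.single v 1) v‖ ^ 2 ≤
        (1 - 1 / (16384 * (d : ℝ) ^ 2)) ^ k) := by
  have hd' : (0 : ℝ) < d := by exact_mod_cast hd
  have hd1 : (1 : ℝ) ≤ d := by exact_mod_cast hd
  have hdc : (d : ℂ) ≠ 0 := by exact_mod_cast hd.ne'
  set θ : ℝ := 1 - 1 / (16384 * (d : ℝ) ^ 2) with hθ
  have hθ0 : 0 ≤ θ := by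
    rw [hθ, sub_nonneg, div_le_one (by positivity)]; nlinarith
  have hνi : ∀ i, Function.Injective (ν i) := fun i => Function.LeftInverse.injective (hinv i)
  have hN : ∀ (f : G →₀ ℂ) (W : Finset G), f.support ⊆ W →
      ∑ v ∈ W, ∑ i, 2 * (‖f v‖ ^ 2 + ‖if ν i v = v then 0 else f (ν i v)‖ ^ 2) ≤
        4 * d * nsq f := by
    intro f W hW
    rw [sum_comm]
    refine (sum_le_card_nsmul _ _ (4 * nsq f) (fun i _ => ?_)).trans (le_of_eq (by simp; ring))
    rw [← mul_sum, sum_add_distrib, ← nsq_eq_sum f W hW]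
    have := sum_le_nsq f (W.image (ν i))
    rw [sum_image (hνi i).injOn] at this
    have h2 : ∑ v ∈ W, ‖if ν i v = v then 0 else f (ν i v)‖ ^ 2 ≤ ∑ v ∈ W, ‖f (ν i v)‖ ^ 2 :=
      sum_le_sum (fun v _ => by split_ifs <;> simp)
    linarith
  have hA : ∀ (f : G →₀ ℂ) (W : Finset G), f.support ⊆ W → (Q f).support ⊆ W →
      nsq (Q f) ≤ nsq f - (1 / (4 * d)) *
        ∑ v ∈ W, ∑ i, ‖f v - if ν i v = v then 0 else f (ν i v)‖ ^ 2 := by
    intro f W h1 h2
    have h3 := mul_le_mul_of_nonneg_left (hN f W h1) (show (0 : ℝ) ≤ 1 / (4 * d) by positivity)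
    rw [← mul_assoc, one_div_mul_cancel (by positivity), one_mul] at h3
    rw [nsq_eq_sum _ W h2, le_sub_iff_add_le]
    refine le_trans ?_ h3
    rw [mul_sum, mul_sum, ← sum_add_distrib]
    refine sum_le_sum (fun v _ => ?_)
    have e : Q f v = (1 / (2 * d) : ℂ) * ∑ i, (f v + if ν i v = v then 0 else f (ν i v)) := by
      rw [hQ, sum_add_distrib, sum_sub_distrib, sum_const, card_univ, Fintype.card_fin,
        nsmul_eq_mul]
      field_simp; ring
    rw [e]
    refine (add_le_add_left (norm_avg_sq hd _) _).trans (le_of_eq ?_)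
    rw [← mul_add, ← sum_add_distrib]
    congr 1
    exact sum_congr rfl (fun i _ => parallelogram_law_with_norm ℂ _ _)
  have hB : ∀ f : G →₀ ℂ, nsq (f - Q f) ≤ nsq f := by
    intro f
    have h3 := mul_le_mul_of_nonneg_left (hN f (f.support ∪ (f - Q f).support) subset_union_left)
      (show (0 : ℝ) ≤ 1 / (4 * d) by positivity)
    rw [← mul_assoc, one_div_mul_cancel (by positivity), one_mul] at h3
    rw [nsq_eq_sum _ _ subset_union_right]
    refine le_trans ?_ h3
    rw [mul_sum]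
    refine sum_le_sum (fun v _ => ?_)
    rw [Finsupp.sub_apply, hQ, sub_sub_cancel]
    refine (norm_avg_sq hd _).trans (mul_le_mul_of_nonneg_left (sum_le_sum (fun i _ => ?_))
      (by positivity))
    rw [← parallelogram_law_with_norm ℂ]
    exact le_add_of_nonneg_left (by positivity)
  have hC : ∀ f : G →₀ ℂ, (∀ c ∈ Pc, ∑ v ∈ c, f v = 0) → nsq (Q f) ≤ θ * nsq f := by
    intro f hf
    let W := f.support ∪ (Q f).support ∪ f.support.biUnion (own Pc)
    have w1 : f.support ⊆ W := subset_union_left.trans subset_union_left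
    have h1 := hA f W w1 (subset_union_right.trans subset_union_left)
    have key : ∀ φ : ℂ →+ ℝ, ∑ v ∈ W, φ (f v) ^ 2 ≤ 4096 * d *
        ∑ v ∈ W, ∑ i, φ (f v - if ν i v = v then 0 else f (ν i v)) ^ 2 := by
      intro φ
      have := cheeger hd hinv hdisj hcl hexp hiso W (fun v => φ (f v)) (fun v hv => by
        rw [Finsupp.notMem_support_iff.1 (fun h => hv (w1 h)), map_zero]) (by
          intro c hc v hv h u hu
          refine mem_union_right _ (mem_biUnion.2 ⟨v, Finsupp.mem_support_iff.2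
            (fun e => h (by rw [e, map_zero])), ?_⟩)
          rwa [own_eq hdisj hc hv]) (fun c hc => by rw [← map_sum, hf c hc, map_zero])
      simpa only [map_sub, apply_ite φ, map_zero] using this
    have h2 := add_le_add (key Complex.reAddGroupHom) (key Complex.imAddGroupHom)
    simp only [← mul_add, ← sum_add_distrib, Complex.coe_reAddGroupHom, Complex.coe_imAddGroupHom,
      sq, ← Complex.normSq_apply, Complex.normSq_eq_norm_sq] at h2
    simp only [← sq] at h2
    rw [← nsq_eq_sum f W w1] at h2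
    have h3 := mul_le_mul_of_nonneg_left h2 (show (0 : ℝ) ≤ 1 / (16384 * d ^ 2) by positivity)
    have e : ∀ x : ℝ, 1 / (16384 * (d : ℝ) ^ 2) * (4096 * d * x) = 1 / (4 * d) * x := fun x => by
      field_simp; ring
    rw [e] at h3
    rw [hθ]
    linarith
  have hS : ∀ (f : G →₀ ℂ), ∀ c ∈ Pc, ∑ v ∈ c, Q f v = ∑ v ∈ c, f v := by
    intro f c hc
    simp only [hQ, sum_sub_distrib (s := c), ← mul_sum]
    rw [sum_comm, sum_eq_zero (s := univ), mul_zero, sub_zero]
    intro i _
    rw [sum_sub_distrib, sub_eq_zero, sum_congr rfl (fun v hv => if_neg (hcl c hc v hv i).2)]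
    exact sum_nbij' (ν i) (ν i) (fun v hv => (hcl c hc v hv i).1) (fun v hv => (hcl c hc v hv i).1)
      (fun v _ => hinv i v) (fun v _ => hinv i v) (fun v _ => by rw [hinv])
  have hD : ∀ (k : ℕ) (f : G →₀ ℂ), (∀ c ∈ Pc, ∑ v ∈ c, f v = 0) →
      nsq ((Q ^ k) f) ≤ θ ^ k * nsq f := by
    intro k
    induction k with
    | zero => intro f _; simp
    | succ k ih =>
      intro f hf
      rw [pow_succ, Module.End.mul_apply, pow_succ, mul_assoc]
      exact (ih _ (fun c hc => by rw [hS f c hc, hf c hc])).trans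
        (mul_le_mul_of_nonneg_left (hC f hf) (pow_nonneg hθ0 k))
  have hE : ∀ (f : G →₀ ℂ) v, ‖f v‖ ^ 2 ≤ nsq f := fun f v => by simpa using sum_le_nsq f {v}
  refine ⟨fun f => (hA f _ subset_union_left subset_union_right).trans
    (sub_le_self _ (by positivity)), fun k f => ?_, fun k v => ⟨fun c hc hv => ?_, fun hv => ?_⟩⟩
  · have e : (Q ^ k - Q ^ (k + 1)) f = (Q ^ k) (f - Q f) := by
      rw [LinearMap.sub_apply, pow_succ, Module.End.mul_apply, map_sub]
    rw [e]
    refine (hD k _ (fun c hc => ?_)).trans (mul_le_mul_of_nonneg_left (hB f) (pow_nonneg hθ0 k))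
    simp only [Finsupp.sub_apply, sum_sub_distrib, hS f c hc, sub_self]
  · let χ : G →₀ ℂ := Finsupp.onFinset c (fun u => if u ∈ c then 1 / (c.card : ℂ) else 0)
      (fun u hu => by by_contra h; simp [h] at hu)
    have hχ : ∀ u, χ u = if u ∈ c then 1 / (c.card : ℂ) else 0 := fun u => rfl
    have hn : 0 < c.card := card_pos.2 ⟨v, hv⟩
    have hn' : (c.card : ℂ) ≠ 0 := by exact_mod_cast hn.ne'
    have h1 : Q χ = χ := by
      ext u
      rw [hQ, sum_eq_zero, mul_zero, sub_zero]
      intro i _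
      by_cases hu : u ∈ c
      · simp [hχ, hu, hcl c hc u hu i]
      · have : ν i u ∉ c := fun h => hu (hinv i u ▸ (hcl c hc _ h i).1)
        simp [hχ, hu, this]
    have h2 : (Q ^ k) χ = χ := by
      induction k with
      | zero => rfl
      | succ k ih => rw [pow_succ, Module.End.mul_apply, h1, ih]
    have h3 := hD k (Finsupp.single v 1 - χ) (by
      intro c' hc'
      simp only [Finsupp.sub_apply, sum_sub_distrib, hχ, Finsupp.single_apply, sum_ite_eq]
      by_cases h : c' = c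
      · subst h
        rw [if_pos hv, sum_congr rfl (fun u hu => if_pos hu)]
        simp [hn']
      · rw [if_neg (fun h' => h (hdisj _ hc' _ hc v h' hv)),
          sum_eq_zero (fun u hu => if_neg (fun h' => h (hdisj _ hc' _ hc u hu h'))), sub_zero])
    have h4 : nsq (Finsupp.single v 1 - χ) ≤ 1 := by
      rw [nsq_eq_sum _ c (fun u hu => by
        by_contra h
        have : v ≠ u := fun e => h (e ▸ hv)
        simp [hχ, h, this] at hu), ← add_sum_erase c _ hv,
        sum_congr rfl (g := fun _ => (1 / (c.card : ℝ)) ^ 2) (fun u hu => by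
          have := mem_erase.1 hu
          simp [hχ, this.2, this.1.symm]), sum_const, card_erase_of_mem hv, nsmul_eq_mul,
        Nat.cast_sub hn]
      have e : (Finsupp.single v 1 - χ : G →₀ ℂ) v = ((1 - 1 / (c.card : ℝ) : ℝ) : ℂ) := by simp [hχ, hv]
      rw [e, Complex.norm_real, Real.norm_eq_abs, sq_abs]
      have hn2 : (0 : ℝ) < c.card := by exact_mod_cast hn
      have e2 : (1 - 1 / (c.card : ℝ)) ^ 2 + ((c.card : ℝ) - (1 : ℕ)) * (1 / (c.card : ℝ)) ^ 2 =
          1 - 1 / c.card := by push_cast; field_simp; ring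
      rw [e2]
      exact sub_le_self _ (by positivity)
    have h5 := hE ((Q ^ k) (Finsupp.single v 1 - χ)) v
    rw [map_sub, h2, Finsupp.sub_apply, hχ, if_pos hv, ← h2, ← map_sub] at h5
    exact h5.trans (h3.trans (mul_le_of_le_one_right (pow_nonneg hθ0 k) h4))
  · have h3 := hD k (Finsupp.single v 1) (fun c hc => sum_eq_zero (fun u hu =>
      Finsupp.single_eq_of_ne (fun e => hv c hc (e ▸ hu))))
    refine (hE _ v).trans (h3.trans (le_of_eq ?_))
    simp [nsq]

end Vale.Agent.P089
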