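import Vale.Agent.P089.Conv

namespace Vale.Agent.P089

open Finset Vale.Agent.P194

variable {d M : ℕ} {V : Type} {S : Sys d M V}

theorem nu_eq {T : S.G → Option (Ty d M)} {i : Fin d} {v : S.G} {t t' : Ty d M}
    (h1 : T v = some t) (h2 : T (v * S.gn (i, t.2 i) t.1) = some t') (h3 : t'.1 = !t.1)
    (h4 : t'.2 i = t.2 i) : S.nu T i v = v * S.gn (i, t.2 i) t.1 := by
  simp only [Sys.nu, h1]
  exact if_pos ⟨t', h2, h3, h4⟩

theorem nu_ne {T : S.G → Option (Ty d M)} {i : Fin d} {v : S.G} (h : S.nu T i v ≠ v) :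
    ∃ t t', T v = some t ∧ S.nu T i v = v * S.gn (i, t.2 i) t.1 ∧
      T (v * S.gn (i, t.2 i) t.1) = some t' ∧ t'.1 = (!t.1) ∧ t'.2 i = t.2 i := by
  cases hT : T v with
  | none => simp [Sys.nu, hT] at h
  | some t =>
    by_cases hc : ∃ t', T (v * S.gn (i, t.2 i) t.1) = some t' ∧ t'.1 = (!t.1) ∧ t'.2 i = t.2 i
    · obtain ⟨t', h1, h2, h3⟩ := hc
      exact ⟨t, t', rfl, nu_eq hT h1 h2 h3, h1, h2, h3⟩
    · exfalso
      apply h
      simp only [Sys.nu, hT]
      exact if_neg hc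

theorem nu_invol (T : S.G → Option (Ty d M)) (i : Fin d) (v : S.G) :
    S.nu T i (S.nu T i v) = v := by
  by_cases h : S.nu T i v = v
  · rw [h, h]
  · obtain ⟨t, t', h1, h2, h3, h4, h5⟩ := nu_ne h
    have e : v * S.gn (i, t.2 i) t.1 * S.gn (i, t'.2 i) t'.1 = v := by
      rw [h4, h5, mul_assoc, Sys.gn, Sys.gn, gen_mul_not, mul_one]
    rw [h2, nu_eq h3 (t' := t) (by rw [e, h1]) (by rw [h4, Bool.not_not]) h5.symm, e]

theorem nu_pat (hS : S.Good) {γ : V → S.G} (hγ : S.Pot γ) {T : S.G → Option (Ty d M)}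
    {c : S.G × ℕ} (hc : S.Pat γ T c) (i : Fin d) (x : V) (hx : S.comp x = c.2) :
    S.nu T i (c.1 * γ x) = c.1 * γ (S.τ i x) := by
  have e : c.1 * γ x * S.gn (i, (S.ty x).2 i) (S.ty x).1 = c.1 * γ (S.τ i x) := by
    rw [hγ, mul_assoc]; rfl
  rw [nu_eq (hc x hx) (t' := S.ty (S.τ i x)) (by rw [e]; exact hc _ (by rw [hS.comp_τ, hx]))
    (hS.side_τ _ _) (hS.lab_τ _ _), e]

theorem pat_eq (hS : S.Good) {γ : V → S.G} (hγ : S.Pot γ) {T : S.G → Option (Ty d M)}
    {c c' : S.G × ℕ} (hc : S.Pat γ T c) (hc' : S.Pat γ T c') {v : S.G} (hv : S.InC γ c v)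
    (hv' : S.InC γ c' v) : c = c' := by
  have key : ∀ (k : ℕ) (i : Fin d) (x x' : V), S.comp x = c.2 → S.comp x' = c'.2 →
      c.1 * γ x = c'.1 * γ x' → ∃ w, w.length = k ∧ Valid S.σ x w ∧ Valid S.σ x' w ∧
        w.IsChain (· ≠ ·) ∧ ∀ s ∈ w.head?, s.1 = i := by
    intro k
    induction k with
    | zero => intro i x x' _ _ _; exact ⟨[], rfl, trivial, trivial, by simp, by simp⟩
    | succ k ih =>
      intro i x x' h1 h2 h3
      have h4 := hc x h1
      rw [h3, hc' x' h2, Option.some.injEq] at h4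
      have h5 : S.lab x' = S.lab x := congrArg Prod.snd h4
      obtain ⟨j, hj⟩ : ∃ j : Fin d, j ≠ i := by
        haveI : Nontrivial (Fin d) := Fin.nontrivial_iff_two_le.2 (by have := hS.three; omega)
        exact exists_ne i
      obtain ⟨w, w1, w2, w3, w4, w5⟩ := ih j (S.τ i x) (S.τ i x') (by rw [hS.comp_τ, h1])
        (by rw [hS.comp_τ, h2]) (by rw [← nu_pat hS hγ hc i x h1, h3, nu_pat hS hγ hc' i x' h2])
      have h6 := hS.valid_tau i x'
      rw [h5] at h6
      refine ⟨(i, S.lab x i) :: w, by simp [w1], ⟨hS.valid_tau i x, ?_⟩, ⟨h6, ?_⟩, ?_, by simp⟩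
      · rwa [hS.sigma_eq (hS.valid_tau i x)]
      · rwa [hS.sigma_eq h6]
      · rw [List.isChain_cons]
        refine ⟨fun s hs e => hj ?_, w4⟩
        rw [← w5 s hs, ← e]
  obtain ⟨x, h1, h2⟩ := hv
  obtain ⟨x', h3, h4⟩ := hv'
  obtain ⟨w, w1, w2, w3, w4, -⟩ := key (S.pc (S.comp x)) ⟨0, by have := hS.three; omega⟩ x x' h1 h3
    (h2.symm.trans h4)
  have h5 := hc x h1
  rw [← h2, h4, hc' x' h3, Option.some.injEq] at h5
  by_cases hx : x = x'
  · subst hx
    exact Prod.ext (mul_right_cancel (h2.symm.trans h4)) (h1.symm.trans h3)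
  · have := hS.piece x x' w hx (congrArg Prod.fst h5).symm w2 w3 w4
    omega

open Classical in
/-- Number of descending matched edges inside `F`. -/
noncomputable def down (S : Sys d M V) (T : S.G → Option (Ty d M)) (h : S.G → ℕ) (F : Finset S.G)
    (v : S.G) : ℕ := (univ.filter (fun i => S.nu T i v ∈ F ∧ h (S.nu T i v) < h v)).card

theorem down_le_one {γ : V → S.G} {h : S.G → ℕ} {m : S.G × ℕ → ℕ} (hg : S.Geo γ h m)
    (T : S.G → Option (Ty d M)) (F : Finset S.G) {v : S.G}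
    (hv : ∀ c, S.InC γ c v → h v < m c + 500 * S.pc c.2) : down S T h F v ≤ 1 := by
  classical
  rw [down, card_le_one]
  intro i hi j hj
  have hi' := (mem_filter.1 hi).2.2
  have hj' := (mem_filter.1 hj).2.2
  obtain ⟨t, -, a1, a2, -⟩ := nu_ne (T := T) (i := i) (v := v) (fun e => by rw [e] at hi'; omega)
  obtain ⟨t', -, b1, b2, -⟩ := nu_ne (T := T) (i := j) (v := v) (fun e => by rw [e] at hj'; omega)
  by_contra hij
  obtain ⟨c, c1, c2⟩ := hg.two v _ _ _ _ (fun e => hij (congrArg (fun q => q.1.1) e))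
    (a2 ▸ hi') (b2 ▸ hj')
  have := hv c c1
  omega

theorem card_le_tau (hS : S.Good) {A B : Finset (V × Fin d)}
    (h : ∀ q ∈ A, (S.τ q.2 q.1, q.2) ∈ B) : A.card ≤ B.card := by
  apply card_le_card_of_injOn (fun q : V × Fin d => (S.τ q.2 q.1, q.2)) (fun q hq => h q hq)
  rintro ⟨x, i⟩ - ⟨y, j⟩ - e
  simp only [Prod.mk.injEq] at e ⊢
  obtain ⟨e1, rfl⟩ := e
  exact ⟨by rw [← hS.invol i x, e1, hS.invol], rfl⟩

open Classical in
theorem iso_copy (hS : S.Good) {γ : V → S.G} (hγ : S.Pot γ) {h : S.G → ℕ} {m : S.G × ℕ → ℕ}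
    (hg : S.Geo γ h m) (T : S.G → Option (Ty d M)) (F : Finset S.G) (a : S.G) (n : ℕ)
    (hT : (∃ x ∈ S.Xs n, a * γ x ∈ F) → (S.Xs n).card ≤
      8 * ((S.Xs n).filter (fun x => T (a * γ x) ≠ some (S.ty x))).card) :
    ∑ x ∈ (S.Xs n).filter (fun x => a * γ x ∈ F ∧ m (a, n) + 2 * S.pc n ≤ h (a * γ x)),
      (64 * down S T h F (a * γ x) + 1) ≤
      32 * d * ((S.Xs n).filter
        (fun x => a * γ x ∈ F ∧ m (a, n) + 2 * S.pc n ≤ h (a * γ x))).card := by
  set X := (S.Xs n).filter (fun x => a * γ x ∈ F ∧ m (a, n) + 2 * S.pc n ≤ h (a * γ x)) with hX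
  have hpc := hS.pc_pos n
  have hd := hS.three
  obtain ⟨l, l1, l2⟩ : ∃ l < 64, 64 * (X.filter
      (fun x => h (a * γ x) = m (a, n) + 2 * S.pc n + l)).card ≤ X.card := by
    by_contra hc
    push Not at hc
    have h1 := card_eq_sum_card_fiberwise (s := X.filter (fun x => h (a * γ x) -
      (m (a, n) + 2 * S.pc n) < 64)) (t := range 64)
      (f := fun x => h (a * γ x) - (m (a, n) + 2 * S.pc n))
      (fun x hx => by simpa using (mem_filter.1 hx).2)
    have h2 := card_filter_le X (fun x => h (a * γ x) - (m (a, n) + 2 * S.pc n) < 64)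
    have h3 := sum_lt_sum_of_nonempty (s := range 64) (by simp) (f := fun _ => X.card)
      (g := fun l => 64 * ((X.filter (fun x => h (a * γ x) -
        (m (a, n) + 2 * S.pc n) < 64)).filter
          (fun x => h (a * γ x) - (m (a, n) + 2 * S.pc n) = l)).card) (fun l hl => by
        refine (hc l (mem_range.1 hl)).trans_le (Nat.mul_le_mul_left _ (card_le_card ?_))
        intro x hx
        have := mem_range.1 hl
        simp only [mem_filter] at hx ⊢
        exact ⟨⟨hx.1, by omega⟩, by omega⟩)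
    rw [← mul_sum, ← h1, sum_const, card_range, smul_eq_mul] at h3
    omega
  set L := m (a, n) + 2 * S.pc n + l with hL
  set U := X.filter (fun x => L ≤ h (a * γ x)) with hU
  have hXm : ∀ x ∈ X, S.comp x = n ∧ a * γ x ∈ F ∧ m (a, n) + 2 * S.pc n ≤ h (a * γ x) :=
    fun x hx => ⟨(hS.mem _ _).1 (mem_filter.1 hx).1, (mem_filter.1 hx).2⟩
  have h1 : ∀ x ∈ X, h (a * γ x) ≤ L → down S T h F (a * γ x) ≤ 1 := by
    intro x hx hl
    apply down_le_one hg
    intro c hc
    by_contra hn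
    obtain ⟨a1, -, a2⟩ := hXm x hx
    obtain rfl := hg.disj (a, n) c (a * γ x) ⟨x, a1, rfl⟩ hc a2 (by omega)
    simp only at hn
    omega
  let ok : V → Fin d → Prop := fun x i =>
    ∃ t, T (a * γ x) = some t ∧ t.2 i = S.lab x i ∧ t.1 = S.side x
  let cond : V × Fin d → Prop := fun q => S.τ q.2 q.1 ∈ U ∧ ok q.1 q.2 ∧ ok (S.τ q.2 q.1) q.2
  let Pm := (U ×ˢ (univ : Finset (Fin d))).filter cond
  let Ms := (U ×ˢ (univ : Finset (Fin d))).filter (fun q => ¬ cond q)
  let Pd := Pm.filter (fun q => h (a * γ (S.τ q.2 q.1)) < h (a * γ q.1))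
  have e1 : Pm.card + Ms.card = U.card * d := by
    rw [card_filter_add_card_filter_not, card_product, card_univ, Fintype.card_fin]
  have e2 : 2 * Pd.card ≤ Pm.card := by
    have a1 := card_filter_add_card_filter_not (s := Pm)
      (fun q => h (a * γ (S.τ q.2 q.1)) < h (a * γ q.1))
    have a2 := card_le_tau hS (A := Pd) (B := Pm.filter
      (fun q => ¬ h (a * γ (S.τ q.2 q.1)) < h (a * γ q.1))) (by
        intro q hq
        simp only [Pd, Pm, cond, mem_filter, mem_product, mem_univ, and_true, hS.invol] at hq ⊢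
        exact ⟨⟨hq.1.2.1, hq.1.1, hq.1.2.2.2, hq.1.2.2.1⟩, by omega⟩)
    change Pd.card + _ = _ at a1
    omega
  have e3 : ∑ x ∈ X.filter (fun x => ¬ h (a * γ x) ≤ L), down S T h F (a * γ x) ≤ Pd.card := by
    simp only [down]
    rw [← card_sigma]
    apply card_le_card_of_injOn (fun q => (q.1, q.2))
    · rintro ⟨x, i⟩ hq
      simp only [coe_sigma, Set.mem_sigma_iff, coe_filter, mem_univ, true_and,
        Set.mem_setOf_eq] at hq
      obtain ⟨⟨q1, q2⟩, q3, q4⟩ := hq
      obtain ⟨a1, a2, a3⟩ := hXm x q1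
      obtain ⟨t, t', b1, b2, b3, b4, b5⟩ := nu_ne (T := T) (i := i) (v := a * γ x)
        (fun e => by rw [e] at q4; omega)
      rw [b2] at q3 q4
      obtain ⟨c1, c2⟩ := hg.down a x _ _ (by rw [a1]; exact a3) q4
      have c3 : a * γ x * S.gn (i, t.2 i) t.1 = a * γ (S.τ i x) := by
        rw [hγ, mul_assoc, c2, c1]
      have c4 := hg.par (a * γ x) (i, t.2 i) t.1
      rw [c3] at q3 q4 b3 c4
      simp only [mem_coe, Pd, Pm, cond, ok, hU, hX, mem_filter, mem_product, mem_univ, and_true,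
        hS.mem, hS.comp_τ, hS.lab_τ, hS.side_τ]
      exact ⟨⟨⟨⟨a1, a2, a3⟩, by omega⟩, ⟨⟨a1, q3, by omega⟩, by omega⟩, ⟨t, b1, c1.symm, c2⟩,
        t', b3, b5.trans c1.symm, by rw [b4, c2]⟩, q4⟩
    · rintro ⟨x, i⟩ - ⟨y, j⟩ - e
      simp only [Prod.mk.injEq] at e
      obtain ⟨rfl, rfl⟩ := e
      rfl
  have hUX : U ⊆ S.Xs n := (filter_subset _ _).trans (filter_subset _ _)
  have e4 : U.card ≤ 16 * Ms.card := by
    by_cases hc : 2 * U.card ≤ (S.Xs n).card
    · refine (hS.exp n U hUX hc).trans (le_trans (card_le_card ?_)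
        (Nat.le_mul_of_pos_left _ (by omega)))
      intro q hq
      exact mem_filter.2 ⟨(mem_filter.1 hq).1, fun h => (mem_filter.1 hq).2 h.1⟩
    · obtain ⟨x0, hx0⟩ := card_pos.1 (show 0 < U.card by omega)
      have a1 := hT ⟨x0, hUX hx0, (hXm x0 (mem_filter.1 hx0).1).2.1⟩
      have a2 := card_sdiff_add_card_eq_card hUX
      have a3 := (hS.exp n (S.Xs n \ U) sdiff_subset (by omega)).trans
        (card_le_tau hS (B := Ms) (by
          intro q hq
          simp only [Ms, cond, mem_filter, mem_product, mem_univ, and_true, hS.invol, mem_sdiff,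
            not_and, not_not] at hq ⊢
          refine ⟨hq.2 ?_, fun h => absurd h hq.1.2⟩
          rw [hS.mem, hS.comp_τ, ← hS.mem]; exact hq.1.1))
      have a4 : ((S.Xs n).filter (fun x => T (a * γ x) ≠ some (S.ty x))) ⊆
          Ms.image Prod.fst ∪ (S.Xs n \ U) := by
        intro x hx
        obtain ⟨b1, b2⟩ := mem_filter.1 hx
        by_cases hxU : x ∈ U
        · apply mem_union_left
          by_contra hn
          apply b2
          have b3 : ∀ i, ok x i := by
            intro i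
            by_contra hi
            exact hn (mem_image.2 ⟨(x, i), mem_filter.2 ⟨by simp [hxU], fun h => hi h.2.1⟩, rfl⟩)
          obtain ⟨t, t1, -, t3⟩ := b3 ⟨0, by omega⟩
          rw [t1, Option.some.injEq]
          refine Prod.ext t3 (funext (fun i => ?_))
          obtain ⟨t', u1, u2, -⟩ := b3 i
          rw [t1, Option.some.injEq] at u1
          rw [u1]; exact u2
        · exact mem_union_right _ (mem_sdiff.2 ⟨b1, hxU⟩)
      have a5 := (card_le_card a4).trans ((card_union_le _ _).trans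
        (Nat.add_le_add_right card_image_le _))
      omega
  have e5 : ∑ x ∈ X.filter (fun x => h (a * γ x) ≤ L), down S T h F (a * γ x) ≤
      (X.filter (fun x => ¬ L ≤ h (a * γ x))).card + (X.filter (fun x => h (a * γ x) = L)).card := by
    refine (sum_le_card_nsmul _ _ 1 (fun x hx => h1 x (mem_filter.1 hx).1 (mem_filter.1 hx).2)).trans
      ?_
    rw [smul_eq_mul, mul_one]
    refine (card_le_card ?_).trans (card_union_le _ _)
    intro x hx
    simp only [mem_filter, mem_union] at hx ⊢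
    have := hx.2
    by_cases h2 : h (a * γ x) = L
    · exact Or.inr ⟨hx.1, h2⟩
    · exact Or.inl ⟨hx.1, by omega⟩
  have e6 := card_filter_add_card_filter_not (s := X) (fun x => L ≤ h (a * γ x))
  rw [sum_add_distrib, ← mul_sum, sum_const, smul_eq_mul, mul_one,
    ← sum_filter_add_sum_filter_not X (fun x => h (a * γ x) ≤ L), ← e6]
  rw [← hU] at e6 ⊢
  have e7 := Nat.mul_le_mul_right (X.filter (fun x => ¬ L ≤ h (a * γ x))).card hd
  have e8 : 32 * d * (U.card + (X.filter (fun x => ¬ L ≤ h (a * γ x))).card) =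
    32 * (U.card * d) + 32 * (d * (X.filter (fun x => ¬ L ≤ h (a * γ x))).card) := by ring
  omega

open Classical in
/-- Isoperimetric inequality away from the copies showing the full pattern. -/
theorem iso (hS : S.Good) {γ : V → S.G} (hγ : S.Pot γ) {h : S.G → ℕ} {m : S.G × ℕ → ℕ}
    (hg : S.Geo γ h m) (T : S.G → Option (Ty d M))
    (hT : ∀ c : S.G × ℕ, S.Pat γ T c ∨ (S.Xs c.2).card ≤
      8 * ((S.Xs c.2).filter (fun x => T (c.1 * γ x) ≠ some (S.ty x))).card)
    (F : Finset S.G) (hF : ∀ v ∈ F, ∀ c, S.Pat γ T c → ¬ S.InC γ c v) :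
    F.card ≤ 32 * ((F ×ˢ (univ : Finset (Fin d))).filter
      (fun q => S.nu T q.2 q.1 = q.1 ∨ S.nu T q.2 q.1 ∉ F)).card := by
  have hd := hS.three
  let own : S.G → Option (S.G × ℕ) := fun v =>
    if hv : ∃ c, S.InC γ c v ∧ m c + 2 * S.pc c.2 ≤ h v then some hv.choose else none
  have e1 : ∑ v ∈ F, (64 * down S T h F v + 1) ≤ ∑ v ∈ F, 32 * d := by
    rw [← sum_fiberwise_of_maps_to (s := F) (t := F.image own) (g := own)
      (fun v hv => mem_image_of_mem _ hv), ← sum_fiberwise_of_maps_to (s := F) (t := F.image own)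
      (g := own) (fun v hv => mem_image_of_mem _ hv)]
    apply sum_le_sum
    intro o _
    cases o with
    | none =>
      apply sum_le_sum
      intro v hv
      have h1 := (mem_filter.1 hv).2
      have := down_le_one hg T F (v := v) (fun c hc => by
        by_contra hn
        have h2 : ∃ c, S.InC γ c v ∧ m c + 2 * S.pc c.2 ≤ h v := ⟨c, hc, by omega⟩
        simp only [own, dif_pos h2] at h1
        cases h1)
      omega
    | some c =>
      have h1 : F.filter (fun v => own v = some c) = ((S.Xs c.2).filter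
          (fun x => c.1 * γ x ∈ F ∧ m c + 2 * S.pc c.2 ≤ h (c.1 * γ x))).image
            (fun x => c.1 * γ x) := by
        ext v
        simp only [mem_filter, mem_image, own, hS.mem]
        constructor
        · rintro ⟨a1, a2⟩
          split_ifs at a2 with a3
          have a4 := a3.choose_spec
          rw [Option.some.injEq] at a2
          rw [a2] at a4
          obtain ⟨⟨x, b1, rfl⟩, b2⟩ := a4
          exact ⟨x, ⟨b1, a1, b2⟩, rfl⟩
        · rintro ⟨x, ⟨b1, b2, b3⟩, rfl⟩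
          have a3 : ∃ c', S.InC γ c' (c.1 * γ x) ∧ m c' + 2 * S.pc c'.2 ≤ h (c.1 * γ x) :=
            ⟨c, ⟨x, b1, rfl⟩, b3⟩
          rw [dif_pos a3]
          exact ⟨b2, congrArg some (hg.disj _ _ _ a3.choose_spec.1 ⟨x, b1, rfl⟩
            a3.choose_spec.2 b3)⟩
      have h2 : Set.InjOn (fun x => c.1 * γ x) ((S.Xs c.2).filter
          (fun x => c.1 * γ x ∈ F ∧ m c + 2 * S.pc c.2 ≤ h (c.1 * γ x)) : Set V) := by
        intro x hx y hy e
        exact hg.inj x y (((hS.mem _ _).1 (mem_filter.1 hx).1).trans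
          ((hS.mem _ _).1 (mem_filter.1 hy).1).symm) (mul_left_cancel e)
      rw [h1, sum_image h2, sum_const, card_image_of_injOn h2, smul_eq_mul, mul_comm _ (32 * d)]
      exact iso_copy hS hγ hg T F c.1 c.2 (fun ⟨x, x1, x2⟩ => (hT c).resolve_left
        (fun hp => hF _ x2 c hp ⟨x, (hS.mem _ _).1 x1, rfl⟩))
  rw [sum_add_distrib, ← mul_sum, sum_const, sum_const, smul_eq_mul, smul_eq_mul] at e1
  let D := (F ×ˢ (univ : Finset (Fin d))).filter
    (fun q => S.nu T q.2 q.1 ∈ F ∧ h (S.nu T q.2 q.1) < h q.1)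
  let Up := (F ×ˢ (univ : Finset (Fin d))).filter
    (fun q => S.nu T q.2 q.1 ∈ F ∧ h q.1 < h (S.nu T q.2 q.1))
  have e2 : D.card = ∑ v ∈ F, down S T h F v := by
    simp only [D, down, card_filter, sum_product]
  have e3 : Up.card ≤ D.card := by
    apply card_le_card_of_injOn (fun q => (S.nu T q.2 q.1, q.2))
    · intro q hq
      simp only [Up, D, coe_filter, mem_product, mem_univ, and_true, Set.mem_setOf_eq,
        nu_invol] at hq ⊢
      exact ⟨hq.2.1, hq.1, hq.2.2⟩
    · rintro ⟨x, i⟩ - ⟨y, j⟩ - e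
      simp only [Prod.mk.injEq] at e ⊢
      obtain ⟨e1, rfl⟩ := e
      exact ⟨by rw [← nu_invol T i x, e1, nu_invol], rfl⟩
  have e4 : F ×ˢ (univ : Finset (Fin d)) ⊆ (F ×ˢ (univ : Finset (Fin d))).filter
      (fun q => S.nu T q.2 q.1 = q.1 ∨ S.nu T q.2 q.1 ∉ F) ∪ D ∪ Up := by
    intro q hq
    simp only [D, Up, mem_union, mem_filter, hq, true_and]
    by_cases h1 : S.nu T q.2 q.1 = q.1
    · simp [h1]
    · obtain ⟨t, -, -, a2, -⟩ := nu_ne h1
      have := hg.par q.1 (q.2, t.2 q.2) t.1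
      rw [← a2] at this
      by_cases h2 : S.nu T q.2 q.1 ∈ F
      · simp only [h2, true_and]
        omega
      · simp [h2]
  have e5 := (card_le_card e4).trans ((card_union_le _ _).trans
    (Nat.add_le_add_right (card_union_le _ _) _))
  rw [card_product, card_univ, Fintype.card_fin] at e5
  have e6 : F.card * (32 * d) = 32 * (F.card * d) := by ring
  omega

open Classical in
/-- Shelling of finite families of copies. -/
theorem shell {γ : V → S.G} {h : S.G → ℕ} {m : S.G × ℕ → ℕ} (hS : S.Good)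
    (hg : S.Geo γ h m) (c0 : S.G × ℕ)
    (hb : ∀ c v, c ≠ c0 → S.InC γ c v → S.InC γ c0 v → h v < m c + 2 * S.pc c.2)
    (Fam : Finset (S.G × ℕ)) (hne : Fam.Nonempty) (h0 : c0 ∉ Fam) :
    ∃ c ∈ Fam, 8 * ((S.Xs c.2).filter (fun x => S.InC γ c0 (c.1 * γ x) ∨
      ∃ c' ∈ Fam, c' ≠ c ∧ S.InC γ c' (c.1 * γ x))).card ≤ (S.Xs c.2).card := by
  have hex : ∀ c : S.G × ℕ, ∃ k, (S.Xs c.2).card <
      8 * ((S.Xs c.2).filter (fun x => h (c.1 * γ x) < k + 1)).card := by
    intro c
    refine ⟨(S.Xs c.2).sup (fun x => h (c.1 * γ x)), ?_⟩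
    rw [filter_true_of_mem (fun x hx => Nat.lt_succ_of_le (le_sup (f := fun x => h (c.1 * γ x)) hx))]
    have h1 := hS.big c.2
    have h2 : 0 < (d + 1) ^ (3 * S.pc c.2) := by positivity
    omega
  have h1 : ∀ c : S.G × ℕ, m c + 2 * S.pc c.2 ≤ Nat.find (hex c) := by
    intro c
    by_contra hc
    have a1 := Nat.find_spec (hex c)
    have a2 := hg.low c
    have a3 := card_le_card (monotone_filter_right (S.Xs c.2)
      (p := fun x => h (c.1 * γ x) < Nat.find (hex c) + 1)
      (q := fun x => h (c.1 * γ x) < m c + 2 * S.pc c.2) (fun x _ hx => by omega))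
    omega
  obtain ⟨c, c1, c2⟩ := exists_max_image Fam (fun c => Nat.find (hex c)) hne
  refine ⟨c, c1, le_trans (Nat.mul_le_mul_left _ (card_le_card (t := (S.Xs c.2).filter
    (fun x => h (c.1 * γ x) < Nat.find (hex c))) ?_)) ?_⟩
  · intro x hx
    obtain ⟨a1, a2⟩ := mem_filter.1 hx
    have a3 : S.InC γ c (c.1 * γ x) := ⟨x, (hS.mem _ _).1 a1, rfl⟩
    refine mem_filter.2 ⟨a1, ?_⟩
    have a4 := h1 c
    rcases a2 with a2 | ⟨c', b1, b2, b3⟩
    · have := hb c _ (fun e => h0 (e ▸ c1)) a3 a2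
      omega
    · by_contra hn
      have a5 := h1 c'
      have a6 := c2 c' b1
      exact b2 (hg.disj _ _ _ b3 a3 (by omega) (by omega))
  · rcases Nat.eq_zero_or_pos (Nat.find (hex c)) with e | e
    · rw [e]; simp
    · have := Nat.find_min (hex c) (m := Nat.find (hex c) - 1) (by omega)
      rw [Nat.sub_add_cancel e] at this
      omega

end Vale.Agent.P089
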