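import Vale.Agent.P089.Geom
import Vale.Agent.P089.Iso
import Vale.Agent.P089.Gap

set_option linter.unusedSectionVars false

namespace Vale.Agent.P089

open Finset Vale.Agent.P194

theorem card_filter_sub {α : Type} (s : Finset α) (p : α → Prop) [DecidablePred p]
    [DecidablePred (fun x : s => p x)] :
    (univ.filter (fun x : s => p x)).card = (s.filter p).card := by
  rw [← card_map (Function.Embedding.subtype _)]
  congr 1
  ext x
  simp only [mem_map, mem_filter, mem_univ, true_and, Function.Embedding.coe_subtype,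
    Subtype.exists, exists_and_left, exists_prop, exists_eq_right_right]
  tauto

theorem card_fiber_mul {K : Type} [Field K] {Ω C : Type} [AddCommGroup Ω] [Module K Ω]
    [AddCommGroup C] [Module K C] [Fintype Ω] [Fintype C] [DecidableEq C] (φ : Ω →ₗ[K] C)
    (hφ : Function.Surjective φ) (y : C) :
    (univ.filter (fun ω => φ ω = y)).card * Fintype.card C = Fintype.card Ω := by
  have h1 := card_eq_sum_card_fiberwise (s := (univ : Finset Ω)) (t := (univ : Finset C)) (f := φ)
    (fun _ _ => mem_coe.2 (mem_univ _))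
  rw [card_univ] at h1
  rw [h1, sum_congr rfl (fun z _ => AddMonoidHom.card_fiber_eq_of_mem_range φ (hφ z) (hφ y))]
  simp [mul_comm]

variable {d M : ℕ} {V : Type} {S : Sys d M V} {γ : V → S.G}

open Classical in
/-- Decoding of a function on the group into types. -/
noncomputable def dec {K G T : Type} (enc : T → K) (ω : G → K) (v : G) : Option T :=
  if h : ∃ t, enc t = ω v then some h.choose else none

theorem dec_eq {K G T : Type} {enc : T → K} (h : Function.Injective enc) (ω : G → K) (v : G)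
    (t : T) : dec enc ω v = some t ↔ ω v = enc t := by
  unfold dec
  split_ifs with h1
  · rw [Option.some.injEq]
    exact ⟨fun e => e ▸ h1.choose_spec.symm, fun e => h (h1.choose_spec.trans e)⟩
  · simp only [false_iff]
    exact fun e => h1 ⟨t, e.symm⟩

open Classical in
theorem nu_sum {K : Type} {enc : Ty d M → K} (h : Function.Injective enc) (ω : S.G → K)
    (i : Fin d) (f : S.G → ℂ) (v : S.G) :
    ∑ t : Ty d M, ∑ t' : Ty d M, (if t'.1 = (!t.1) ∧ t'.2 i = t.2 i then
      (if ω v = enc t then (if ω (v * S.gn (i, t.2 i) t.1) = enc t' then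
        f (v * S.gn (i, t.2 i) t.1) else 0) else 0) else 0) =
      if S.nu (dec enc ω) i v = v then 0 else f (S.nu (dec enc ω) i v) := by
  cases hT : dec enc ω v with
  | none =>
    have h1 : ∀ t, ω v ≠ enc t := fun t e => by
      rw [(dec_eq h ω v t).2 e] at hT; cases hT
    simp [h1, Sys.nu, hT]
  | some t0 =>
    have h1 := (dec_eq h ω v t0).1 hT
    rw [sum_eq_single t0 (fun t _ ht => by
      have : ω v ≠ enc t := fun e => ht (h (e.symm.trans h1))
      simp [this]) (by simp)]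
    simp only [h1, if_true, Sys.nu, hT]
    split_ifs with h2 h3 h3
    · exfalso
      obtain ⟨t', a1, a2, -⟩ := h2
      rw [h3, hT, Option.some.injEq] at a1
      rw [← a1] at a2
      cases t0.1 <;> simp at a2
    · obtain ⟨t', a1, a2⟩ := h2
      have a3 := (dec_eq h ω _ t').1 a1
      rw [sum_eq_single t' (fun t _ ht => by
        have : ω (v * S.gn (i, t0.2 i) t0.1) ≠ enc t := fun e => ht (h (e.symm.trans a3))
        simp [this]) (by simp)]
      simp [a2, a3]
    · apply sum_eq_zero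
      intro t' _
      split_ifs with a1 a2
      · exact absurd ⟨t', (dec_eq h ω _ t').2 a2, a1⟩ h2
      · rfl
      · rfl
    · exact absurd rfl h3

open Classical in
/-- The spectral gap for the walk determined by a type assignment. -/
theorem gap_sys (hS : S.Good) (hγ : S.Pot γ) (T : S.G → Option (Ty d M))
    (hT : ∀ c : S.G × ℕ, S.Pat γ T c ∨ (S.Xs c.2).card ≤
      8 * ((S.Xs c.2).filter (fun x => T (c.1 * γ x) ≠ some (S.ty x))).card)
    (Q : Module.End ℂ (S.G →₀ ℂ))
    (hQ : ∀ f v, Q f v = f v - (1 / (2 * d) : ℂ) *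
      ∑ i, (f v - if S.nu T i v = v then 0 else f (S.nu T i v))) :
    (∀ f, nsq (Q f) ≤ nsq f) ∧
    (∀ (k : ℕ) f, nsq ((Q ^ k - Q ^ (k + 1)) f) ≤ (1 - 1 / (16384 * (d : ℝ) ^ 2)) ^ k * nsq f) ∧
    ∀ (k N : ℕ), ‖(Q ^ k) (Finsupp.single 1 1) 1 - ∑ n ∈ range N, ∑ x ∈ S.Xs n,
      (if S.Pat γ T ((γ x)⁻¹, n) then 1 / ((S.Xs n).card : ℂ) else 0)‖ ≤
        √((1 - 1 / (16384 * (d : ℝ) ^ 2)) ^ k) + 1 / ((S.Xs N).card : ℝ) := by
  obtain ⟨h, m, hg, -⟩ := geo hS hγ 1
  have hinj : ∀ c : S.G × ℕ, Set.InjOn (fun x => c.1 * γ x) (S.Xs c.2 : Set V) := by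
    intro c x hx y hy e
    exact hg.inj x y (((hS.mem _ _).1 hx).trans ((hS.mem _ _).1 hy).symm) (mul_left_cancel e)
  have hmem : ∀ (c : S.G × ℕ) v, v ∈ (S.Xs c.2).image (fun x => c.1 * γ x) ↔ S.InC γ c v := by
    intro c v
    simp only [mem_image, hS.mem, Sys.InC, eq_comm]
  obtain ⟨g1, g2, g3⟩ := gap (by have := hS.three; omega) (S.nu T) (nu_invol T)
    {F | ∃ c : S.G × ℕ, S.Pat γ T c ∧ F = (S.Xs c.2).image (fun x => c.1 * γ x)} (by
      rintro _ ⟨c, h1, rfl⟩ _ ⟨c', h2, rfl⟩ v h3 h4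
      rw [pat_eq hS hγ h1 h2 ((hmem _ _).1 h3) ((hmem _ _).1 h4)]) (by
      rintro _ ⟨c, h1, rfl⟩ v h3 i
      obtain ⟨x, h4, rfl⟩ := (hmem _ _).1 h3
      rw [nu_pat hS hγ h1 i x h4]
      refine ⟨(hmem _ _).2 ⟨_, by rw [hS.comp_τ, h4], rfl⟩, fun e => hS.tau_ne i x ?_⟩
      exact hg.inj _ _ (hS.comp_τ _ _) (mul_left_cancel e)) (by
      rintro _ ⟨c, h1, rfl⟩ U h2 h3
      obtain ⟨U', h4, rfl⟩ := subset_image_iff.1 h2
      have hi := (hinj c).mono (coe_subset.2 h4)
      rw [card_image_of_injOn hi, card_image_of_injOn (hinj c)] at h3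
      rw [card_image_of_injOn hi]
      refine (hS.exp _ U' h4 h3).trans (le_trans ?_ (Nat.le_mul_of_pos_left _ (by omega)))
      apply card_le_card_of_injOn (fun q => (c.1 * γ q.1, q.2))
      · intro q hq
        simp only [coe_filter, mem_product, mem_univ, and_true, Set.mem_setOf_eq] at hq ⊢
        have h5 := (hS.mem _ _).1 (h4 hq.1)
        refine ⟨mem_image_of_mem _ hq.1, ?_⟩
        rw [nu_pat hS hγ h1 _ _ h5]
        intro h6
        obtain ⟨y, h7, h8⟩ := mem_image.1 h6
        apply hq.2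
        rwa [← hinj c (h4 h7) ((hS.mem _ _).2 (by rw [hS.comp_τ, h5])) h8]
      · intro q hq q' hq' e
        simp only [coe_filter, mem_product, mem_univ, and_true, Set.mem_setOf_eq,
          Prod.mk.injEq] at hq hq' e
        exact Prod.ext (hi hq.1 hq'.1 e.1) e.2) (by
      intro F hF
      convert iso hS hγ hg T hT F (fun v hv c hc hm => hF v hv _ ⟨c, hc, rfl⟩ ((hmem _ _).2 hm)))
    Q (by intro f v; convert hQ f v)
  refine ⟨g1, g2, fun k N => ?_⟩
  have hpos : ∀ n, 0 < (S.Xs n).card := by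
    intro n
    have h1 := hS.big n
    have h2 : 0 < (d + 1) ^ (3 * S.pc n) := by positivity
    omega
  have hin : ∀ n, ∀ x ∈ S.Xs n, S.InC γ ((γ x)⁻¹, n) 1 :=
    fun n x hx => ⟨x, (hS.mem _ _).1 hx, by simp⟩
  by_cases hc : ∃ c, S.Pat γ T c ∧ S.InC γ c 1
  · obtain ⟨c, c1, c2⟩ := hc
    have h1 := Real.le_sqrt_of_sq_le ((g3 k 1).1 _ ⟨c, c1, rfl⟩ ((hmem _ _).2 c2))
    rw [card_image_of_injOn (hinj c)] at h1
    obtain ⟨x0, x1, x2⟩ := id c2
    have hc1 : c = ((γ x0)⁻¹, c.2) := Prod.ext (eq_inv_of_mul_eq_one_left x2.symm) rfl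
    have h2 : ∀ n, ∑ x ∈ S.Xs n, (if S.Pat γ T ((γ x)⁻¹, n) then 1 / ((S.Xs n).card : ℂ) else 0) =
        if n = c.2 then 1 / ((S.Xs c.2).card : ℂ) else 0 := by
      intro n
      split_ifs with hn
      · subst hn
        rw [sum_eq_single x0, if_pos (hc1 ▸ c1)]
        · intro x hx hne
          rw [if_neg]
          intro hp
          have := pat_eq hS hγ c1 hp c2 (hin _ x hx)
          rw [hc1, Prod.mk.injEq, inv_inj] at this
          exact hne (hg.inj _ _ (((hS.mem _ _).1 hx).trans x1.symm) this.1.symm)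
        · intro hx
          exact absurd ((hS.mem _ _).2 x1) hx
      · apply sum_eq_zero
        intro x hx
        rw [if_neg]
        intro hp
        exact hn (congrArg Prod.snd (pat_eq hS hγ c1 hp c2 (hin _ x hx))).symm
    rw [sum_congr rfl (fun n _ => h2 n), sum_ite_eq']
    simp only [mem_range]
    split_ifs with hN
    · exact h1.trans (le_add_of_nonneg_right (one_div_nonneg.2 (Nat.cast_nonneg _)))
    · have h3 : (S.Xs N).card ≤ (S.Xs c.2).card :=
        monotone_nat_of_le_succ (f := fun n => (S.Xs n).card)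
          (fun n => by have := hS.grow n; omega) (not_lt.1 hN)
      have h4 : ‖1 / ((S.Xs c.2).card : ℂ)‖ ≤ 1 / ((S.Xs N).card : ℝ) := by
        rw [norm_div, norm_one, Complex.norm_natCast]
        exact one_div_le_one_div_of_le (by exact_mod_cast hpos N) (by exact_mod_cast h3)
      rw [sub_zero]
      exact (norm_le_norm_sub_add _ _).trans (add_le_add h1 h4)
  · have h1 := Real.le_sqrt_of_sq_le ((g3 k 1).2 (by
      rintro _ ⟨c, c1, rfl⟩ c2
      exact hc ⟨c, c1, (hmem _ _).1 c2⟩))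
    rw [sum_eq_zero (fun n _ => sum_eq_zero (fun x hx => if_neg
      (fun hp => hc ⟨_, hp, hin n x hx⟩))), sub_zero]
    exact h1.trans (le_add_of_nonneg_right (one_div_nonneg.2 (Nat.cast_nonneg _)))

end Vale.Agent.P089
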