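import Vale.Agent.P089.Conv

set_option linter.unusedSectionVars false

namespace Vale.Agent.P089

open Finset Vale.Agent.P194

variable {d M : ℕ} {V : Type} {S : Sys d M V} {γ : V → S.G}

/-- Two geodesics meet, or both run for a long time in a common copy. -/
def GoodPair (S : Sys d M V) (γ : V → S.G) (flag : Prop) (v v' : S.G)
    (α β : List ((Fin d × Fin M) × Bool)) (i j : ℕ) : Prop :=
  i ≤ α.length ∧ j ≤ β.length ∧ ((pt S.Ψ v α i = pt S.Ψ v' β j ∧ (flag → 0 < i)) ∨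
    ∃ c : S.G × ℕ, S.InC γ c (pt S.Ψ v α i) ∧ S.InC γ c (pt S.Ψ v' β j) ∧
      i + 500 * S.pc c.2 ≤ α.length ∧ j + 500 * S.pc c.2 ≤ β.length ∧
      S.InC γ c (pt S.Ψ v α (i + 500 * S.pc c.2)) ∧ S.InC γ c (pt S.Ψ v' β (j + 500 * S.pc c.2)))

theorem geo_ht {α : List ((Fin d × Fin M) × Bool)} (hα : IsGeo S.Ψ α) (v : S.G) {k : ℕ}
    (hk : k ≤ α.length) : dst S.Ψ (pt S.Ψ v α k) (v * ev S.Ψ α) = α.length - k := by
  rw [← pt_length]; exact hα.dst_pt S.surj v hk le_rfl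

theorem edge_take {v : S.G} {α : List ((Fin d × Fin M) × Bool)} {i : ℕ}
    {e : S.G × (Fin d × Fin M)} (he : e ∈ edges S.Ψ v (α.take i)) :
    ∃ k, k < i ∧ ∃ h : k < α.length, e = ed S.Ψ (pt S.Ψ v α k) α[k].1 α[k].2 := by
  obtain ⟨k, hk, rfl⟩ := mem_edges.1 he
  simp only [List.length_take, lt_min_iff] at hk
  exact ⟨k, hk.1, hk.2, by rw [pt_take _ _ hk.1.le, List.getElem_take]⟩

theorem long_seg (hS : S.Good) (hγ : S.Pot γ) {v : S.G} {α : List ((Fin d × Fin M) × Bool)}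
    (hα : IsGeo S.Ψ α) {i : ℕ} (hi : i ≤ α.length) {c : S.G × ℕ}
    (J : Finset (S.G × (Fin d × Fin M)))
    (hJ : ∀ e ∈ J, e ∈ edges S.Ψ v (α.take i) ∧ S.EIn γ c e) (hc : 500 * S.pc c.2 ≤ J.card) :
    ∃ k, k < i ∧ k + 500 * S.pc c.2 ≤ α.length ∧ S.InC γ c (pt S.Ψ v α k) ∧
      S.InC γ c (pt S.Ψ v α (k + 500 * S.pc c.2)) := by
  have hp := hS.pc_pos c.2
  obtain ⟨k, l, h1, h2, h3, h4⟩ := span v (α.take i) J (S.InC γ c)
    (fun e he => ⟨(hJ e he).1, EIn_ends hS hγ (hJ e he).2⟩) (card_pos.1 (by omega))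
  rw [List.length_take, min_eq_left hi] at h2
  rw [pt_take _ _ (by omega)] at h3 h4
  exact ⟨k, by omega, by omega, h3, conv_pt hS hγ hα (by omega) (by omega) (by omega) h3 h4⟩

/-- Triangles with one side in a copy. -/
theorem tri (hS : S.Good) (hγ : S.Pot γ) (flag : Prop) (a : S.G) (x : V)
    (w : List (Fin d × Fin M)) (hw : Valid S.σ x w) (v v' : S.G) (hv : v = a * γ (walk S.σ x w))
    (hv' : v' = a * γ x) (α β : List ((Fin d × Fin M) × Bool)) (hα : IsGeo S.Ψ α)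
    (hβ : IsGeo S.Ψ β) (ho : v * ev S.Ψ α = v' * ev S.Ψ β)
    (hflag : flag → α.length = β.length ∧ 0 < α.length ∧ ∀ (h : 0 < α.length) (h' : 0 < β.length),
      ed S.Ψ v α[0].1 α[0].2 ≠ ed S.Ψ v' β[0].1 β[0].2) :
    ∃ i j, GoodPair S γ flag v v' α β i j ∧
      (∀ e ∈ edges S.Ψ v (α.take i), S.EIn γ (a, S.comp x) e) ∧
      (∀ e ∈ edges S.Ψ v' (β.take j), S.EIn γ (a, S.comp x) e) ∧ (w = [] → i = 0) := by
  classical
  have hex : ∃ n, ∃ i j, i + j = n ∧ GoodPair S γ flag v v' α β i j :=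
    ⟨_, α.length, β.length, rfl, le_rfl, le_rfl,
      Or.inl ⟨by rw [pt_length, pt_length, ho], fun h => (hflag h).2.1⟩⟩
  obtain ⟨i, j, hn, hg⟩ := Nat.find_spec hex
  have hmin : ∀ k l, k + l < i + j → ¬ GoodPair S γ flag v v' α β k l :=
    fun k l h hkl => Nat.find_min hex (hn ▸ h) ⟨k, l, rfl, hkl⟩
  refine ⟨i, j, hg, ?_⟩
  obtain ⟨hi, hj, hg⟩ := hg
  have hdisj : ∀ e ∈ edges S.Ψ v (α.take i), e ∉ edges S.Ψ v' (β.take j) := by
    intro e he he'
    obtain ⟨k, k1, k2, e1⟩ := edge_take he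
    obtain ⟨l, l1, l2, e2⟩ := edge_take he'
    have a1 := edge_ends (Ψ := S.Ψ) v α k2
    have a2 := edge_ends (Ψ := S.Ψ) v' β l2
    rw [← e1] at a1
    rw [← e2] at a2
    have b1 := geo_ht hα v k2.le
    have b2 := geo_ht hα v (k := k + 1) k2
    have b3 := geo_ht hβ v' l2.le
    have b4 := geo_ht hβ v' (k := l + 1) l2
    rw [ho] at b1 b2
    have key : pt S.Ψ v α k = pt S.Ψ v' β l := by
      rcases a1 with a1 | a1 <;> rcases a2 with a2 | a2
      · rw [← a1.1, a2.1]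
      · rw [← a1.1, a2.1] at b1
        rw [← a1.2, a2.2] at b2
        omega
      · rw [← a1.2, a2.2] at b1
        rw [← a1.1, a2.1] at b2
        omega
      · rw [← a1.2, a2.2]
    refine hmin k l (by omega) ⟨k2.le, l2.le, Or.inl ⟨key, fun hf => ?_⟩⟩
    obtain ⟨f1, f2, f3⟩ := hflag hf
    rw [key, b3] at b1
    obtain rfl : k = l := by omega
    rcases Nat.eq_zero_or_pos k with rfl | h
    · rw [pt_zero] at e1 e2
      exact absurd (e1.symm.trans e2) (f3 _ _)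
    · exact h
  obtain ⟨δ, d1, d2, d3⟩ : ∃ δ, pt S.Ψ v α i * ev S.Ψ δ = pt S.Ψ v' β j ∧ IsGeo S.Ψ δ ∧
      (δ = [] ∨ ∃ c' : S.G × ℕ, S.InC γ c' (pt S.Ψ v α i) ∧
        (∀ e ∈ edges S.Ψ (pt S.Ψ v α i) δ, S.EIn γ c' e) ∧
        (∀ e ∈ edges S.Ψ v (α.take i), ¬ S.EIn γ c' e) ∧
        (∀ e ∈ edges S.Ψ v' (β.take j), ¬ S.EIn γ c' e)) := by
    rcases hg with hg | ⟨c', g1, g2, g3, g4, g5, g6⟩
    · exact ⟨[], by rw [ev_nil, mul_one, hg.1], by rw [IsGeo, ev_nil, len_one]; rfl, Or.inl rfl⟩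
    · obtain ⟨δ, d1, -, d2⟩ := exists_geo' S.surj (pt S.Ψ v α i) (pt S.Ψ v' β j)
      refine ⟨δ, d1, d2, Or.inr ⟨c', g1, convex hS hγ d2 g1 (d1 ▸ g2), ?_, ?_⟩⟩
      · intro e he hc
        obtain ⟨k, k1, k2, e1⟩ := edge_take he
        have b1 : S.InC γ c' (pt S.Ψ v α k) := by
          rcases edge_ends (Ψ := S.Ψ) v α k2 with a1 | a1
          · rw [← a1.1, ← e1]; exact (EIn_ends hS hγ hc).1
          · rw [← a1.2, ← e1]; exact (EIn_ends hS hγ hc).2
        exact hmin k j (by omega) ⟨k2.le, hj, Or.inr ⟨c', b1, g2, by omega, g4,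
          conv_pt hS hγ hα (by omega) (by omega) g3 b1 g5, g6⟩⟩
      · intro e he hc
        obtain ⟨k, k1, k2, e1⟩ := edge_take he
        have b1 : S.InC γ c' (pt S.Ψ v' β k) := by
          rcases edge_ends (Ψ := S.Ψ) v' β k2 with a1 | a1
          · rw [← a1.1, ← e1]; exact (EIn_ends hS hγ hc).1
          · rw [← a1.2, ← e1]; exact (EIn_ends hS hγ hc).2
        exact hmin i k (by omega) ⟨hi, k2.le, Or.inr ⟨c', g1, b1, g3, by omega, g5,
          conv_pt hS hγ hβ (by omega) (by omega) g4 b1 g6⟩⟩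
  have hE : edges S.Ψ v (α.take i ++ (δ ++ FreeGroup.invRev (β.take j))) =
      edges S.Ψ v (α.take i) ++ (edges S.Ψ (pt S.Ψ v α i) δ ++
        (edges S.Ψ v' (β.take j)).reverse) := by
    rw [edges_append, edges_append, ← edges_invRev]
    congr 3
  have hst := star hS hγ a x w hw (α.take i ++ (δ ++ FreeGroup.invRev (β.take j))) (by
    rw [← hv, ← hv', ev_append, ev_append, ← mul_assoc, ← mul_assoc, ev_invRev]
    change pt S.Ψ v α i * ev S.Ψ δ * _ = _
    rw [d1, pt, mul_inv_cancel_right]) (by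
    rw [← hv, hE, List.nodup_append, List.nodup_append, List.nodup_reverse]
    refine ⟨(hα.take S.surj i).nodup S.surj _, ⟨d2.nodup S.surj _,
      (hβ.take S.surj j).nodup S.surj _, ?_⟩, ?_⟩
    · rintro e he _ he' rfl
      rcases d3 with rfl | ⟨c', -, g2, -, g4⟩
      · simp [edges] at he
      · exact g4 e (List.mem_reverse.1 he') (g2 e he)
    · rintro e he _ he' rfl
      rcases List.mem_append.1 he' with he' | he'
      · rcases d3 with rfl | ⟨c', -, g2, g3, -⟩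
        · simp [edges] at he'
        · exact g3 e he (g2 e he')
      · exact hdisj e he (List.mem_reverse.1 he'))
  rw [← hv, hE] at hst
  rcases hst with ⟨s1, s2, -⟩ | ⟨c, L, J, Q, s1, s2, s3, s4, s5⟩
  · refine ⟨fun e he => s1 e (by simp [he]), fun e he => s1 e (by simp [he]), fun h => ?_⟩
    have := congrArg List.length (List.append_eq_nil_iff.1 (s2 h)).1
    simpa [hi] using this
  exfalso
  have hp := hS.pc_pos c.2
  let J1 := J.filter (fun e => e ∈ edges S.Ψ v (α.take i))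
  let J2 := J.filter (fun e => e ∈ edges S.Ψ (pt S.Ψ v α i) δ)
  let J3 := J.filter (fun e => e ∈ edges S.Ψ v' (β.take j))
  have hJ : J.card ≤ J1.card + J2.card + J3.card := by
    refine le_trans (card_le_card (t := J1 ∪ J2 ∪ J3) ?_)
      ((card_union_le _ _).trans (Nat.add_le_add_right (card_union_le _ _) _))
    intro e he
    have := (s3 e he).1
    simp only [List.mem_append, List.mem_reverse] at this
    simp only [J1, J2, J3, mem_union, mem_filter, he, true_and]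
    tauto
  have t1 : 2 * J1.card ≤ L := span_geo J1 v (hα.take S.surj i)
    (fun e he => ⟨(mem_filter.1 he).2, (s3 e (mem_filter.1 he).1).2.2⟩) s5
  have t2 : 2 * J2.card ≤ L := span_geo J2 _ d2
    (fun e he => ⟨(mem_filter.1 he).2, (s3 e (mem_filter.1 he).1).2.2⟩) s5
  have t3 : 2 * J3.card ≤ L := span_geo J3 v' (hβ.take S.surj j)
    (fun e he => ⟨(mem_filter.1 he).2, (s3 e (mem_filter.1 he).1).2.2⟩) s5
  have t4 : J2.card ≤ S.pc c.2 := by
    rcases J2.eq_empty_or_nonempty with h | hne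
    · simp [h]
    rcases d3 with rfl | ⟨c', g1, g2, g3, g4⟩
    · obtain ⟨e, he⟩ := hne
      simpa [edges] using (mem_filter.1 he).2
    by_cases hc : c = c'
    · subst hc
      have u1 : J1 = ∅ := eq_empty_of_forall_notMem
        (fun e he => g3 e (mem_filter.1 he).2 (s3 e (mem_filter.1 he).1).2.1)
      have u3 : J3 = ∅ := eq_empty_of_forall_notMem
        (fun e he => g4 e (mem_filter.1 he).2 (s3 e (mem_filter.1 he).1).2.1)
      rw [u1, u3, card_empty] at hJ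
      omega
    · obtain ⟨k, l, h1, h2, h3, h4⟩ := span _ δ J2 (S.InC γ c)
        (fun e he => ⟨(mem_filter.1 he).2, EIn_ends hS hγ (s3 e (mem_filter.1 he).1).2.1⟩) hne
      have := pc_bound hS hγ hc h3 (pts_in hS hγ g1 g2 (by omega)) h4 (pts_in hS hγ g1 g2 h2)
      rw [d2.dst_pt S.surj _ (by omega) h2] at this
      omega
  obtain ⟨k, k1, k2, k3, k4⟩ := long_seg hS hγ hα hi (c := c) J1
    (fun e he => ⟨(mem_filter.1 he).2, (s3 e (mem_filter.1 he).1).2.1⟩) (by omega)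
  obtain ⟨l, l1, l2, l3, l4⟩ := long_seg hS hγ hβ hj (c := c) J3
    (fun e he => ⟨(mem_filter.1 he).2, (s3 e (mem_filter.1 he).1).2.1⟩) (by omega)
  exact hmin k l (by omega) ⟨by omega, by omega, Or.inr ⟨c, k3, l3, k2, l2, k4, l4⟩⟩

/-- Geodesics to the base point stay in a copy until they are close to its lowest point. -/
theorem stay (hS : S.Good) (hγ : S.Pot γ) {c : S.G × ℕ} {o r v : S.G} (hr : S.InC γ c r)
    (hmin : ∀ g, S.InC γ c g → dst S.Ψ r o ≤ dst S.Ψ g o) (hv : S.InC γ c v)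
    {α : List ((Fin d × Fin M) × Bool)} (hα : IsGeo S.Ψ α) (ho : v * ev S.Ψ α = o) :
    ∃ i ≤ α.length, (∀ e ∈ edges S.Ψ v (α.take i), S.EIn γ c e) ∧
      S.InC γ c (pt S.Ψ v α i) ∧ dst S.Ψ (pt S.Ψ v α i) r < S.pc c.2 := by
  obtain ⟨β, b1, b2, hβ⟩ := exists_geo' S.surj r o
  obtain ⟨x, x1, x2⟩ := id hr
  obtain ⟨y, y1, y2⟩ := id hv
  obtain ⟨w, w1, rfl⟩ := hS.conn (x1.trans y1.symm)
  obtain ⟨i, j, ⟨g1, g2, g3⟩, g4, g5, -⟩ := tri hS hγ False c.1 x w w1 v r y2 x2 α β hα hβ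
    (ho.trans b1.symm) (fun h => h.elim)
  rw [x1] at g4 g5
  have hi : S.InC γ c (pt S.Ψ v α i) := by
    have := pts_in hS hγ hv g4 (k := i) (by simp [g1])
    rwa [pt_take _ _ le_rfl] at this
  have hlow : ∀ k, k ≤ β.length → S.InC γ c (pt S.Ψ r β k) → k = 0 := by
    intro k hk h
    have h1 := hmin _ h
    have h2 := geo_ht hβ r hk
    rw [b1] at h2
    omega
  have hj : j = 0 := hlow j g2 (by
    have := pts_in hS hγ hr g5 (k := j) (by simp [g2])
    rwa [pt_take _ _ le_rfl] at this)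
  subst hj
  refine ⟨i, g1, g4, hi, ?_⟩
  rcases g3 with g3 | ⟨c', a1, a2, -, a4, -, a6⟩
  · rw [g3.1, pt_zero, dst_self]; exact hS.pc_pos _
  · rw [pt_zero] at a2
    refine pc_bound hS hγ ?_ hi a1 hr a2
    rintro rfl
    have := hlow _ a4 a6
    have := hS.pc_pos c.2
    omega

theorem walk_even (hS : S.Good) {x : V} {w : List (Fin d × Fin M)} (hw : Valid S.σ x w) :
    S.side (walk S.σ x w) = S.side x ↔ Even w.length := by
  induction w generalizing x with
  | nil => simp [walk]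
  | cons s w ih =>
    have h1 := hS.isGraph.side_of_ne hw.1
    change S.side (S.σ s x) = !S.side x at h1
    rw [walk, List.length_cons, Nat.even_add_one, ← ih hw.2, h1]
    cases S.side x <;> simp

theorem lift_neg (u : List ((Fin d × Fin M) × Bool)) :
    FreeGroup.lift (fun _ : Fin d × Fin M => (-1 : ℤˣ)) (FreeGroup.mk u) = (-1) ^ u.length := by
  induction u with
  | nil => exact map_one _
  | cons l u ih =>
    rw [P194.mk_cons, map_mul, ih, List.length_cons, pow_succ']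
    congr 1
    obtain ⟨s, b⟩ := l
    cases b <;> simp [FreeGroup.lift_mk]

theorem parity (hS : S.Good) {u u' : List ((Fin d × Fin M) × Bool)}
    (h : ev S.Ψ u = ev S.Ψ u') : u.length % 2 = u'.length % 2 := by
  let χ : S.G →* ℤˣ := QuotientGroup.lift _ (FreeGroup.lift (fun _ => (-1 : ℤˣ))) (by
    apply Subgroup.normalClosure_le_normal
    rintro n ⟨x, w, h1, h2, rfl⟩
    have := (walk_even hS h1).1 (by rw [h2])
    simp only [SetLike.mem_coe, MonoidHom.mem_ker, lift_neg, word_length]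
    exact this.neg_one_pow)
  have h1 : ∀ u, χ (ev S.Ψ u) = (-1) ^ u.length := fun u => lift_neg u
  have h2 := h1 u
  rw [h, h1] at h2
  rcases Nat.even_or_odd u.length with a | a <;> rcases Nat.even_or_odd u'.length with b | b
  · rw [Nat.even_iff.1 a, Nat.even_iff.1 b]
  · rw [a.neg_one_pow, b.neg_one_pow] at h2; exact absurd h2 (by decide)
  · rw [a.neg_one_pow, b.neg_one_pow] at h2; exact absurd h2 (by decide)
  · rw [Nat.odd_iff.1 a, Nat.odd_iff.1 b]

theorem dst_gen (v : S.G) (s : Fin d × Fin M) (b : Bool) :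
    dst S.Ψ v (v * gen S.Ψ s b) ≤ 1 := by
  rw [dst, inv_mul_cancel_left]; exact len_gen s b

theorem geo_down {v o : S.G} {s : Fin d × Fin M} {b : Bool}
    (h : dst S.Ψ (v * gen S.Ψ s b) o < dst S.Ψ v o) :
    ∃ α, IsGeo S.Ψ ((s, b) :: α) ∧ v * ev S.Ψ ((s, b) :: α) = o ∧
      α.length + 1 = dst S.Ψ v o := by
  obtain ⟨α, h1, h2, -⟩ := exists_geo' S.surj (v * gen S.Ψ s b) o
  have h3 : v * ev S.Ψ ((s, b) :: α) = o := by rw [ev_cons, ← mul_assoc]; exact h1
  have h4 := dst_ev (Ψ := S.Ψ) v ((s, b) :: α)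
  rw [h3, List.length_cons] at h4
  refine ⟨α, ?_, h3, by omega⟩
  have h5 : dst S.Ψ v o = len S.Ψ (ev S.Ψ ((s, b) :: α)) := by
    rw [← h3, dst, inv_mul_cancel_left]
  rw [IsGeo, ← h5, List.length_cons]
  omega

open Classical in
/-- Balls in the graph. -/
noncomputable def ball (S : Sys d M V) (x : V) : ℕ → Finset V
  | 0 => {x}
  | k + 1 => ball S x k ∪ univ.biUnion (fun i => (ball S x k).image (S.τ i))

theorem card_ball (x : V) (k : ℕ) : (ball S x k).card ≤ (d + 1) ^ k := by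
  classical
  induction k with
  | zero => simp [ball]
  | succ k ih =>
    rw [ball]
    refine (card_union_le _ _).trans ?_
    have h1 : (univ.biUnion (fun i => (ball S x k).image (S.τ i))).card ≤ d * (ball S x k).card := by
      refine card_biUnion_le.trans ?_
      refine (sum_le_card_nsmul _ _ _ (fun i _ => card_image_le)).trans ?_
      simp
    have h2 := Nat.mul_le_mul_left (d + 1) ih
    rw [pow_succ']
    convert le_trans (Nat.add_le_add_left h1 _) (le_trans (le_of_eq _) h2) using 3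
    ring

theorem mem_ball (hS : S.Good) (x : V) (k : ℕ) : ∀ w, w.length ≤ k → Valid S.σ x w →
    walk S.σ x w ∈ ball S x k := by
  classical
  induction k with
  | zero =>
    intro w hw _
    obtain rfl := List.length_eq_zero_iff.1 (Nat.le_zero.1 hw)
    simp [ball, walk]
  | succ k ih =>
    intro w hw hv
    rw [ball, mem_union]
    rcases List.eq_nil_or_concat w with rfl | ⟨w', s, rfl⟩
    · exact Or.inl (ih [] (by simp) hv)
    · right
      rw [List.concat_eq_append] at hw hv ⊢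
      obtain ⟨h1, h2⟩ := valid_append.1 hv
      rw [walk_append, walk, walk, hS.sigma_eq h2.1, mem_biUnion]
      exact ⟨s.1, mem_univ _, mem_image_of_mem _ (ih w' (by simpa using hw) h1)⟩

/-- The geometry of the copies relative to a base point. -/
theorem geo (hS : S.Good) (hγ : S.Pot γ) (o : S.G) :
    ∃ (h : S.G → ℕ) (m : S.G × ℕ → ℕ), S.Geo γ h m ∧ ∀ c0, S.InC γ c0 o →
      ∀ c v, c ≠ c0 → S.InC γ c v → S.InC γ c0 v → h v < m c + 2 * S.pc c.2 := by
  classical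
  have hroot : ∀ c : S.G × ℕ, ∃ r, S.InC γ c r ∧
      ∀ g, S.InC γ c g → dst S.Ψ r o ≤ dst S.Ψ g o := by
    intro c
    have h1 := hS.big c.2
    have h2 : 0 < (d + 1) ^ (3 * S.pc c.2) := by positivity
    obtain ⟨x, hx⟩ := card_pos.1 (show 0 < (S.Xs c.2).card by omega)
    have hex : ∃ n, ∃ r, S.InC γ c r ∧ dst S.Ψ r o = n := ⟨_, _, ⟨x, (hS.mem _ _).1 hx, rfl⟩, rfl⟩
    obtain ⟨r, h3, h4⟩ := Nat.find_spec hex
    exact ⟨r, h3, fun g hg => h4 ▸ Nat.find_min' hex ⟨g, hg, rfl⟩⟩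
  choose r hr hmin using hroot
  have key : ∀ c v, S.InC γ c v → ∀ α, IsGeo S.Ψ α → v * ev S.Ψ α = o →
      ∃ i ≤ α.length, (∀ e ∈ edges S.Ψ v (α.take i), S.EIn γ c e) ∧
        (∀ k ≤ i, S.InC γ c (pt S.Ψ v α k)) ∧ dst S.Ψ (pt S.Ψ v α i) (r c) < S.pc c.2 ∧
        dst S.Ψ v o < i + S.pc c.2 + dst S.Ψ (r c) o ∧ i + dst S.Ψ (r c) o ≤ dst S.Ψ v o := by
    intro c v hv α hα ho
    obtain ⟨i, h1, h2, h3, h4⟩ := stay hS hγ (hr c) (hmin c) hv hα ho
    have h5 := geo_ht hα v h1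
    have h6 := hα.dst v
    have h7 := dst_tri S.surj (pt S.Ψ v α i) (r c) o
    have h8 := hmin c _ h3
    rw [ho] at h5 h6
    refine ⟨i, h1, h2, fun k hk => ?_, h4, by omega, by omega⟩
    exact conv_pt hS hγ hα (Nat.zero_le _) hk h1 (by rwa [pt_zero]) h3
  refine ⟨fun g => dst S.Ψ g o, fun c => dst S.Ψ (r c) o, ⟨pot_inj hS hγ, ?_, ?_, ?_, ?_, ?_⟩, ?_⟩
  · intro v s b
    change dst S.Ψ (v * gen S.Ψ s b) o = _ ∨ dst S.Ψ (v * gen S.Ψ s b) o + 1 = _
    have h1 := dst_tri S.surj v (v * gen S.Ψ s b) o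
    have h2 := dst_tri S.surj (v * gen S.Ψ s b) v o
    have h3 := dst_gen v s b
    rw [dst_comm S.surj (v * _) v] at h2
    obtain ⟨α, a1, a2, -⟩ := exists_geo' S.surj v o
    obtain ⟨β, b1, b2, -⟩ := exists_geo' S.surj (v * gen S.Ψ s b) o
    have h4 := parity hS (u := α) (u' := (s, b) :: β) (by
      rw [ev_cons, ← mul_right_inj v, a1, ← mul_assoc, b1])
    rw [List.length_cons] at h4
    omega
  · intro a x s b h1 h2
    obtain ⟨α, a1, a2, a3⟩ := geo_down h2
    obtain ⟨i, -, b2, -, -, b5, -⟩ := key (a, S.comp x) _ ⟨x, rfl, rfl⟩ _ a1 a2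
    simp only at h1 b5
    obtain ⟨i, rfl⟩ : ∃ k, i = k + 1 := ⟨i - 1, by omega⟩
    obtain ⟨c1, c2⟩ := lift1 hS hγ (b2 _ (by rw [List.take_succ_cons]; exact List.mem_cons_self))
    exact ⟨(hS.moves _ _).1 c1, c2⟩
  · intro v s b s' b' hne h1 h2
    obtain ⟨α, a1, a2, a3⟩ := geo_down h1
    obtain ⟨β, b1, b2, b3⟩ := geo_down h2
    obtain ⟨i, j, ⟨g1, g2, g3⟩, -, -, g6⟩ := tri hS hγ True (v * (γ S.root)⁻¹) S.root [] trivial
      v v (by simp [walk]) (by simp) _ _ a1 b1 (a2.trans b2.symm) (fun _ => ⟨by simp; omega, by simp, by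
        intro _ _ e
        simp only [List.getElem_cons_zero] at e
        change dst S.Ψ (v * gen S.Ψ s b) o < dst S.Ψ v o at h1
        change dst S.Ψ (v * gen S.Ψ s' b') o < dst S.Ψ v o at h2
        cases b <;> cases b' <;>
          simp only [ed, Bool.false_eq_true, if_false, if_true, Prod.mk.injEq] at e
        · exact hne (by rw [e.2])
        · rw [e.1] at h1; omega
        · rw [← e.1] at h2; omega
        · exact hne (by rw [e.2])⟩)
    obtain rfl := g6 rfl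
    rcases g3 with g3 | ⟨c, c1, -, c3, -, c5, -⟩
    · exact absurd (g3.2 trivial) (by omega)
    · rw [pt_zero] at c1
      refine ⟨c, c1, ?_⟩
      have h3 := hmin c _ c5
      have h4 := geo_ht a1 v c3
      rw [a2, List.length_cons] at h4
      rw [List.length_cons] at c3
      omega
  · intro c c' v h1 h2 h3 h4
    by_contra hc
    obtain ⟨α, a1, a2, a3⟩ := exists_geo' S.surj v o
    obtain ⟨i, b1, -, b3, -, b5, -⟩ := key c v h1 α a3 a1
    obtain ⟨j, c1, -, c3, -, c5, -⟩ := key c' v h2 α a3 a1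
    have e1 := pc_bound hS hγ hc h1 h2 (b3 (min i j) (min_le_left _ _))
      (c3 (min i j) (min_le_right _ _))
    have e2 := pc_bound hS hγ (Ne.symm hc) h2 h1 (c3 (min i j) (min_le_right _ _))
      (b3 (min i j) (min_le_left _ _))
    have e3 := a3.dst_pt S.surj v (Nat.zero_le (min i j)) (by omega)
    rw [pt_zero] at e3
    omega
  · intro c
    obtain ⟨x0, x1, x2⟩ := hr c
    refine le_trans (Nat.mul_le_mul_left 8 ((card_le_card ?_).trans
      (card_ball (S := S) x0 (3 * S.pc c.2)))) (hS.big c.2)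
    intro x hx
    obtain ⟨h1, h2⟩ := mem_filter.1 hx
    have h3 : S.InC γ c (c.1 * γ x) := ⟨x, (hS.mem _ _).1 h1, rfl⟩
    obtain ⟨α, a1, a2, a3⟩ := exists_geo' S.surj (c.1 * γ x) o
    obtain ⟨i, b1, -, -, b4, -, b6⟩ := key c _ h3 α a3 a1
    have e3 := a3.dst_pt S.surj (c.1 * γ x) (Nat.zero_le i) b1
    rw [pt_zero] at e3
    have e4 := dst_tri S.surj (c.1 * γ x) (pt S.Ψ (c.1 * γ x) α i) (r c)
    obtain ⟨u, u1, u2, u3⟩ := exists_geo' S.surj (r c) (c.1 * γ x)
    have e5 := convex hS hγ u3 (hr c) (u1 ▸ h3)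
    rw [x2] at e5 u1
    obtain ⟨l1, l2⟩ := lift hS hγ (x := x0) (by rw [x1]; exact e5)
    have e6 : walk S.σ x0 (u.map Prod.fst) = x := by
      apply pot_inj hS hγ
      · rw [hS.comp_walk, x1, (hS.mem _ _).1 h1]
      · rw [hS.pot_walk hγ l1, l2, ← mul_right_inj c.1, ← mul_assoc]; exact u1
    rw [← e6]
    apply mem_ball hS _ _ _ _ l1
    rw [dst_comm S.surj] at u2
    rw [List.length_map]
    omega
  · intro c0 h0 c v hc h1 h2
    by_contra hn
    obtain ⟨α, a1, a2, a3⟩ := exists_geo' S.surj v o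
    obtain ⟨i, b1, -, b3, -, b5, -⟩ := key c v h1 α a3 a1
    have e1 := pc_bound hS hγ hc h1 h2 (b3 i le_rfl) (conv_pt hS hγ a3 (Nat.zero_le _) b1 le_rfl
      (by rwa [pt_zero]) (by rwa [pt_length, a1]))
    have e3 := a3.dst_pt S.surj v (Nat.zero_le i) b1
    rw [pt_zero] at e3
    simp only at hn
    omega

end Vale.Agent.P089
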