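import Vale.Agent.P089.Defs
import Vale.Agent.P089.LLL

set_option linter.unusedSectionVars false

namespace Vale.Agent.P089

open Finset Vale.Agent.P194

theorem det_pairs {E : Type} [DecidableEq E] (A B : List E) (hl : A.length = B.length)
    (hA : A.Nodup) (hne : ∀ q ∈ A.zip B, q.1 ≠ q.2) (e : E) (he : e ∈ A.toFinset ∪ B.toFinset) :
    ∃ R ⊆ A.toFinset ∪ B.toFinset, e ∈ R ∧ A.length / 2 ≤ R.card ∧
      ∀ (Λ : Type) (a a' : E → Λ), A.map a = B.map a → A.map a' = B.map a' →
        (∀ e', e' ∉ R → a e' = a' e') → a = a' := by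
  classical
  let s : Setoid E := Relation.EqvGen.setoid (fun u v => (u, v) ∈ A.zip B)
  have hp : ∀ u ∈ A.toFinset ∪ B.toFinset, ∃ v ∈ A.toFinset ∪ B.toFinset, v ≠ u ∧ s v u := by
    intro u hu
    simp only [mem_union, List.mem_toFinset] at hu ⊢
    rcases hu with hu | hu
    · obtain ⟨k, hk, rfl⟩ := List.getElem_of_mem hu
      have : (A[k], B[k]'(hl ▸ hk)) ∈ A.zip B :=
        List.mem_iff_getElem.2 ⟨k, by simp; omega, by simp⟩
      exact ⟨_, Or.inr (List.getElem_mem _), (hne _ this).symm,
        s.symm (Relation.EqvGen.rel _ _ this)⟩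
    · obtain ⟨k, hk, rfl⟩ := List.getElem_of_mem hu
      have : (A[k]'(hl ▸ hk), B[k]) ∈ A.zip B :=
        List.mem_iff_getElem.2 ⟨k, by simp; omega, by simp⟩
      exact ⟨_, Or.inl (List.getElem_mem _), hne _ this, Relation.EqvGen.rel _ _ this⟩
  obtain ⟨e', -, e2, e3⟩ := hp e he
  let rep : E → E := fun u => if s u e then e' else (Quotient.mk s u).out
  have r1 : ∀ u, s (rep u) u := by
    intro u
    simp only [rep]
    split_ifs with h
    · exact s.trans e3 (s.symm h)
    · exact Quotient.mk_out u
  have r2 : ∀ u v, s u v → rep u = rep v := by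
    intro u v h
    simp only [rep, Quotient.sound h]
    congr 1
    exact propext ⟨fun h' => s.trans (s.symm h) h', fun h' => s.trans h h'⟩
  refine ⟨(A.toFinset ∪ B.toFinset).filter (fun u => rep u ≠ u), filter_subset _ _,
    mem_filter.2 ⟨he, by simpa [rep, s.refl e] using e2⟩, ?_, ?_⟩
  · have h1 := card_filter_add_card_filter_not (s := A.toFinset ∪ B.toFinset)
      (fun u => rep u ≠ u)
    have h2 : ((A.toFinset ∪ B.toFinset).filter (fun u => ¬ rep u ≠ u)).card ≤
        ((A.toFinset ∪ B.toFinset).filter (fun u => rep u ≠ u)).card := by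
      refine le_trans (card_le_card ?_) (card_image_le (f := rep))
      intro u hu
      obtain ⟨u1, u2⟩ := mem_filter.1 hu
      obtain ⟨v, v1, v2, v3⟩ := hp u u1
      have := (r2 v u v3).trans (not_not.1 u2)
      exact mem_image.2 ⟨v, mem_filter.2 ⟨v1, by rw [this]; exact v2.symm⟩, this⟩
    have h3 := card_le_card (subset_union_left (s₁ := A.toFinset) (s₂ := B.toFinset))
    rw [List.toFinset_card_of_nodup hA] at h3
    omega
  · intro Λ a a' h1 h2 h3
    have key : ∀ a : E → Λ, A.map a = B.map a → ∀ u v, s u v → a u = a v := by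
      intro a h u v huv
      induction huv with
      | rel u v h' =>
        obtain ⟨k, hk, e⟩ := List.getElem_of_mem h'
        simp only [List.getElem_zip, Prod.mk.injEq] at e
        simp only [List.length_zip, lt_min_iff] at hk
        have := List.getElem_of_eq h (i := k) (by simpa using hk.1)
        simpa [e.1, e.2] using this
      | refl => rfl
      | symm _ _ _ ih => exact ih.symm
      | trans _ _ _ _ _ ih1 ih2 => exact ih1.trans ih2
    funext u
    rw [← key a h1 _ _ (r1 u), ← key a' h2 _ _ (r1 u)]
    exact h3 _ (fun h => (mem_filter.1 h).2 (r2 _ _ (r1 u)))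

variable {d : ℕ} {X : Type} (side : X → Bool) (τ : Fin d → X → X)

/-- The main end of an edge. -/
def me (c : Fin d) (x : X) : Fin d × X := (c, if side x = true then x else τ c x)

/-- The edges along a colour word. -/
def el : X → List (Fin d) → List (Fin d × X)
  | _, [] => []
  | x, c :: w => me side τ c x :: el (τ c x) w

/-- The labels along a colour word. -/
def rd {Λ : Type} (lab : X → Fin d → Λ) : X → List (Fin d) → List Λ
  | _, [] => []
  | x, c :: w => lab x c :: rd lab (τ c x) w

variable {side τ}

theorem rd_eq {Λ : Type} (a : Fin d × X → Λ) (x : X) (w : List (Fin d)) :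
    rd τ (fun x c => a (me side τ c x)) x w = (el side τ x w).map a := by
  induction w generalizing x with
  | nil => rfl
  | cons c w ih => simp only [rd, el, List.map_cons, ih]

theorem el_length (x : X) (w : List (Fin d)) : (el side τ x w).length = w.length := by
  induction w generalizing x with
  | nil => rfl
  | cons c w ih => simp only [el, List.length_cons, ih]

theorem me_cases (hi : ∀ c x, τ c (τ c x) = x) {c c' : Fin d} {x y : X}
    (h : me side τ c x = me side τ c' y) : c = c' ∧ (y = x ∨ y = τ c x) := by
  simp only [me, Prod.mk.injEq] at h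
  obtain ⟨rfl, h⟩ := h
  refine ⟨rfl, ?_⟩
  split_ifs at h
  · exact Or.inl h.symm
  · exact Or.inr (by rw [h, hi])
  · exact Or.inr h.symm
  · exact Or.inl (by rw [← hi c y, ← h, hi])

theorem mem_el {x : X} {w : List (Fin d)} {e : Fin d × X} (h : e ∈ el side τ x w) :
    ∃ w1 c w2, w = w1 ++ c :: w2 ∧ e = me side τ c (walk τ x w1) := by
  induction w generalizing x with
  | nil => simp [el] at h
  | cons c w ih =>
    rcases List.mem_cons.1 h with h | h
    · exact ⟨[], c, w, rfl, h⟩
    · obtain ⟨w1, c', w2, rfl, h'⟩ := ih h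
      exact ⟨c :: w1, c', w2, rfl, h'⟩

theorem valid_all (hs : ∀ c x, side (τ c x) = !side x) (x : X) (w : List (Fin d)) :
    Valid τ x w := by
  induction w generalizing x with
  | nil => trivial
  | cons c w ih =>
    refine ⟨fun e => ?_, ih _⟩
    have := hs c x
    rw [e] at this
    cases hb : side x <;> simp [hb] at this

theorem el_nodup (hi : ∀ c x, τ c (τ c x) = x) (hs : ∀ c x, side (τ c x) = !side x) {g : ℕ}
    (hg : Girth τ g) (x : X) (w : List (Fin d)) (hw : w.IsChain (· ≠ ·)) (hl : w.length ≤ g) :
    (el side τ x w).Nodup := by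
  induction w generalizing x with
  | nil => simp [el]
  | cons c w ih =>
    rw [el, List.nodup_cons]
    refine ⟨fun h => ?_, ih _ hw.tail (by simp at hl; omega)⟩
    obtain ⟨w1, c', w2, rfl, h'⟩ := mem_el h
    obtain ⟨rfl, h''⟩ := me_cases hi h'
    simp only [List.length_cons, List.length_append] at hl
    rcases h'' with h | h
    · have := hg x (c :: w1) (valid_all hs _ _) (List.IsChain.left_of_append (l₂ := c :: w2) hw)
        (by simp; omega) h
      simp at this
    · obtain rfl := hg _ w1 (valid_all hs _ _) (List.IsChain.left_of_append hw.tail) (by omega) h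
      simp at hw

theorem el_ne (hi : ∀ c x, τ c (τ c x) = x) (hs : ∀ c x, side (τ c x) = !side x) {x x' : X}
    (h1 : x ≠ x') (h2 : side x = side x') (w : List (Fin d)) :
    ∀ q ∈ (el side τ x w).zip (el side τ x' w), q.1 ≠ q.2 := by
  induction w generalizing x x' with
  | nil => simp [el]
  | cons c w ih =>
    intro q hq
    simp only [el, List.zip_cons_cons, List.mem_cons] at hq
    rcases hq with rfl | hq
    · intro e
      rcases (me_cases hi e).2 with h | h
      · exact h1 h.symm
      · rw [h, hs] at h2
        cases hb : side x <;> simp [hb] at h2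
    · exact ih (fun e => h1 (by rw [← hi c x, e, hi])) (by rw [hs, hs, h2]) q hq

theorem cnt_el [Fintype X] [DecidableEq X] (hi : ∀ c x, τ c (τ c x) = x) (e : Fin d × X)
    (w : List (Fin d)) : (univ.filter (fun x => e ∈ el side τ x w)).card ≤ 2 * w.length := by
  induction w with
  | nil => simp [el]
  | cons c w ih =>
    have : univ.filter (fun x => e ∈ el side τ x (c :: w)) ⊆ {e.2, τ c e.2} ∪
        (univ.filter (fun x => e ∈ el side τ x w)).image (τ c) := by
      intro x hx
      simp only [mem_filter, mem_univ, true_and, el, List.mem_cons] at hx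
      rcases hx with rfl | hx
      · apply mem_union_left
        simp only [me]
        split_ifs <;> simp [hi]
      · exact mem_union_right _ (mem_image.2 ⟨τ c x, by simpa using hx, hi _ _⟩)
    have h1 := (card_le_card this).trans (card_union_le _ _)
    have h2 : ({e.2, τ c e.2} : Finset X).card ≤ 2 := card_le_two
    have h3 := card_image_le (s := univ.filter (fun x => e ∈ el side τ x w)) (f := τ c)
    rw [List.length_cons]
    omega

theorem sum_ite_le {ι : Type} [Fintype ι] (p : ι → Prop) (inst : ∀ i, Decidable (p i))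
    [inst' : DecidablePred p] (c N : ℝ) (hc : 0 ≤ c) (h : ((univ.filter p).card : ℝ) ≤ N) :
    ∑ i, @ite _ (p i) (inst i) c 0 ≤ N * c := by
  refine le_trans (le_of_eq ?_) (mul_le_mul_of_nonneg_right h hc)
  rw [← nsmul_eq_mul, ← sum_const, sum_filter]
  exact sum_congr rfl (fun i _ => by congr)

/-- Labelling one graph. -/
theorem level [Fintype X] [DecidableEq X] (hi : ∀ c x, τ c (τ c x) = x)
    (hs : ∀ c x, side (τ c x) = !side x) {g : ℕ} (hg : Girth τ g) (l : ℕ) (hl0 : 0 < l)
    (hl : l ≤ g) (M : ℕ) (β : ℝ) (hβ : 1 ≤ β) (κ : Type) [Fintype κ] (cw : κ → List (Fin d))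
    (lw : κ → List (Fin M))
    (hcw : ∀ k, (cw k).IsChain (· ≠ ·) ∧ 0 < (cw k).length ∧ (cw k).length ≤ g)
    (hsum : β + (4 * l * Fintype.card X * d ^ l * (β / β ^ (l / 2)) +
      ∑ k, 2 * (cw k).length * (β / β ^ (cw k).length)) ≤ M) :
    ∃ lab : X → Fin d → Fin M, (∀ c x, lab (τ c x) c = lab x c) ∧
      (∀ x x' w, x ≠ x' → side x = side x' → w.IsChain (· ≠ ·) → w.length = l →
        rd τ lab x w ≠ rd τ lab x' w) ∧ ∀ k x, rd τ lab x (cw k) ≠ lw k := by
  classical
  let ι1 := {q : List.Vector (Fin d) l × X × X //
    q.2.1 ≠ q.2.2 ∧ side q.2.1 = side q.2.2 ∧ q.1.toList.IsChain (· ≠ ·)}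
  have hβ' : ∀ k : ℕ, 0 ≤ β / β ^ k := fun k => by positivity
  have hM : (0 : ℝ) < M := lt_of_lt_of_le (by positivity) hsum
  obtain ⟨a, ha⟩ := lll (E := Fin d × X) (Λ := Fin M) (ι := ι1 ⊕ (κ × X))
    (Sum.elim (fun q a => (el side τ q.1.2.1 q.1.1.toList).map a = (el side τ q.1.2.2 q.1.1.toList).map a)
      (fun q a => (el side τ q.2 (cw q.1)).map a = lw q.1))
    (Sum.elim (fun q => (el side τ q.1.2.1 q.1.1.toList).toFinset ∪ (el side τ q.1.2.2 q.1.1.toList).toFinset)
      (fun q => (el side τ q.2 (cw q.1)).toFinset))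
    (Sum.elim (fun _ => l / 2) (fun q => (cw q.1).length)) β hβ (by
      rintro (q | q)
      · obtain ⟨e, he⟩ := List.exists_mem_of_length_pos (l := el side τ q.1.2.1 q.1.1.toList)
          (by rw [el_length, List.Vector.toList_length]; exact hl0)
        exact ⟨e, by simp [he]⟩
      · obtain ⟨e, he⟩ := List.exists_mem_of_length_pos (l := el side τ q.2 (cw q.1))
          (by rw [el_length]; exact (hcw _).2.1)
        exact ⟨e, by simp [he]⟩) (by
      rintro (q | q) a a' h1 h2
      · simp only [Sum.elim_inl, mem_union, List.mem_toFinset] at h1 h2 ⊢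
        rw [← List.map_congr_left (fun e he => h1 e (Or.inl he)),
          ← List.map_congr_left (fun e he => h1 e (Or.inr he)), h2]
      · simp only [Sum.elim_inr, List.mem_toFinset] at h1 h2 ⊢
        rw [← List.map_congr_left h1, h2]) (by
      rintro (q | q) e he
      · obtain ⟨R, r1, r2, r3, r4⟩ := det_pairs _ _ (by rw [el_length, el_length])
          (el_nodup hi hs hg q.1.2.1 _ q.2.2.2 (by rw [List.Vector.toList_length]; exact hl))
          (el_ne hi hs q.2.1 q.2.2.1 _) e he
        rw [el_length, List.Vector.toList_length] at r3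
        exact ⟨R, r1, r2, r3, r4 _⟩
      · refine ⟨_, Subset.refl _, he, ?_, ?_⟩
        · simp only [Sum.elim_inr]
          rw [List.toFinset_card_of_nodup (el_nodup hi hs hg _ _ (hcw _).1 (hcw _).2.2), el_length]
        · intro a a' h1 h2 h3
          simp only [Sum.elim_inr, List.mem_toFinset] at h1 h2 h3
          funext e'
          by_cases h4 : e' ∈ el side τ q.2 (cw q.1)
          · exact List.map_inj_left.1 (h1.trans h2.symm) e' h4
          · exact h3 e' h4) (by
      intro e
      rw [Fintype.card_fin, sum_filter, Fintype.sum_sum_type]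
      refine le_trans (add_le_add_right (add_le_add ?_ ?_) β) hsum
      · simp only [Sum.elim_inl]
        refine sum_ite_le _ _ _ _ (hβ' _) ?_
        have h1 : (univ.filter (fun q : ι1 => e ∈ (el side τ q.1.2.1 q.1.1.toList).toFinset ∪
            (el side τ q.1.2.2 q.1.1.toList).toFinset)).card ≤
            (univ.biUnion (fun w : List.Vector (Fin d) l => {w} ×ˢ
              ((univ.filter (fun x => e ∈ el side τ x w.toList)) ×ˢ (univ : Finset X) ∪
                (univ : Finset X) ×ˢ (univ.filter (fun x => e ∈ el side τ x w.toList))))).card := by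
          apply card_le_card_of_injOn Subtype.val _ Subtype.val_injective.injOn
          intro q hq
          refine mem_coe.2 (mem_biUnion.2 ⟨q.1.1, mem_univ _, ?_⟩)
          simpa using hq
        have h2 := h1.trans (card_biUnion_le.trans (sum_le_card_nsmul _ _ (4 * l * Fintype.card X)
          (fun w _ => by
            have a1 := cnt_el (side := side) hi e w.toList
            rw [List.Vector.toList_length] at a1
            rw [card_product, card_singleton, one_mul]
            refine (card_union_le _ _).trans ?_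
            rw [card_product, card_product, card_univ]
            have := Nat.mul_le_mul_right (Fintype.card X) a1
            nlinarith)))
        rw [card_univ, card_vector, Fintype.card_fin, smul_eq_mul, mul_comm] at h2
        exact_mod_cast h2
      · simp only [Sum.elim_inr]
        rw [Fintype.sum_prod_type]
        refine sum_le_sum (fun k _ => ?_)
        refine sum_ite_le (fun x => e ∈ (el side τ x (cw k)).toFinset) _ _ _
          (hβ' (cw k).length) ?_
        have := cnt_el (side := side) hi e (cw k)
        simp only [List.mem_toFinset]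
        exact_mod_cast this) ⟨⟨0, by exact_mod_cast hM⟩⟩
  refine ⟨fun x c => a (me side τ c x), ?_, ?_, ?_⟩
  · intro c x
    simp only [me, hs, hi]
    cases side x <;> rfl
  · intro x x' w h1 h2 h3 h4
    rw [rd_eq, rd_eq]
    exact ha (Sum.inl ⟨(⟨w, h4⟩, x, x'), h1, h2, h3⟩)
  · intro k x
    rw [rd_eq]
    exact ha (Sum.inr (k, x))

end Vale.Agent.P089
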