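import Vale.Agent.P089.Star

set_option linter.unusedSectionVars false

namespace Vale.Agent.P089

open Finset Vale.Agent.P194

variable {P H : Type} [Group H] {Ψ : FreeGroup P →* H}

/-- Value of a word. -/
def ev (Ψ : FreeGroup P →* H) (u : List (P × Bool)) : H := Ψ (FreeGroup.mk u)

theorem ev_nil : ev Ψ [] = 1 := map_one Ψ

theorem ev_append (u v : List (P × Bool)) : ev Ψ (u ++ v) = ev Ψ u * ev Ψ v := by
  simp only [ev, ← FreeGroup.mul_mk, map_mul]

theorem ev_cons (e : P × Bool) (u : List (P × Bool)) :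
    ev Ψ (e :: u) = gen Ψ e.1 e.2 * ev Ψ u := map_mk_cons Ψ e.1 e.2 u

theorem ev_invRev (u : List (P × Bool)) : ev Ψ (FreeGroup.invRev u) = (ev Ψ u)⁻¹ := by
  simp only [ev, ← FreeGroup.inv_mk, map_inv]

/-- Word length. -/
noncomputable def len (Ψ : FreeGroup P →* H) (g : H) : ℕ :=
  sInf {n | ∃ u : List (P × Bool), ev Ψ u = g ∧ u.length = n}

theorem len_le (u : List (P × Bool)) : len Ψ (ev Ψ u) ≤ u.length := Nat.sInf_le ⟨u, rfl, rfl⟩

/-- Geodesic words. -/
def IsGeo (Ψ : FreeGroup P →* H) (u : List (P × Bool)) : Prop := len Ψ (ev Ψ u) = u.length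

theorem exists_geo (hΨ : Function.Surjective Ψ) (g : H) :
    ∃ u, ev Ψ u = g ∧ u.length = len Ψ g ∧ IsGeo Ψ u := by
  have hne : {n | ∃ u : List (P × Bool), ev Ψ u = g ∧ u.length = n}.Nonempty := by
    obtain ⟨n, rfl⟩ := hΨ g
    obtain ⟨u, rfl⟩ := Quot.exists_rep n
    exact ⟨_, u, rfl, rfl⟩
  obtain ⟨u, h1, h2⟩ := Nat.sInf_mem hne
  exact ⟨u, h1, h2, by rw [IsGeo, h1]; exact h2.symm⟩

theorem len_mul (hΨ : Function.Surjective Ψ) (g g' : H) :
    len Ψ (g * g') ≤ len Ψ g + len Ψ g' := by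
  obtain ⟨u, rfl, h1, -⟩ := exists_geo hΨ g
  obtain ⟨u', rfl, h2, -⟩ := exists_geo hΨ g'
  rw [← ev_append, ← h1, ← h2, ← List.length_append]
  exact len_le _

theorem len_inv (hΨ : Function.Surjective Ψ) (g : H) : len Ψ g⁻¹ = len Ψ g := by
  have key : ∀ g : H, len Ψ g⁻¹ ≤ len Ψ g := by
    intro g
    obtain ⟨u, rfl, h1, -⟩ := exists_geo hΨ g
    rw [← ev_invRev, ← h1, ← FreeGroup.invRev_length (L₁ := u)]
    exact len_le _
  exact le_antisymm (key g) (by simpa using key g⁻¹)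

theorem len_one : len Ψ 1 = 0 := by
  have := len_le (Ψ := Ψ) []
  rw [ev_nil] at this
  simpa using this

theorem len_gen (s : P) (b : Bool) : len Ψ (gen Ψ s b) ≤ 1 := len_le [(s, b)]

/-- Word distance. -/
noncomputable def dst (Ψ : FreeGroup P →* H) (g g' : H) : ℕ := len Ψ (g⁻¹ * g')

theorem dst_comm (hΨ : Function.Surjective Ψ) (g g' : H) : dst Ψ g g' = dst Ψ g' g := by
  rw [dst, dst, ← len_inv hΨ, mul_inv_rev, inv_inv]

theorem dst_tri (hΨ : Function.Surjective Ψ) (g g' g'' : H) :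
    dst Ψ g g'' ≤ dst Ψ g g' + dst Ψ g' g'' := by
  have := len_mul hΨ (g⁻¹ * g') (g'⁻¹ * g'')
  rwa [mul_assoc, mul_inv_cancel_left] at this

theorem dst_self (g : H) : dst Ψ g g = 0 := by rw [dst, inv_mul_cancel, len_one]

theorem dst_mul (a g g' : H) : dst Ψ (a * g) (a * g') = dst Ψ g g' := by
  rw [dst, dst, mul_inv_rev, mul_assoc, inv_mul_cancel_left]

theorem dst_ev (p : H) (u : List (P × Bool)) : dst Ψ p (p * ev Ψ u) ≤ u.length := by
  rw [dst, inv_mul_cancel_left]; exact len_le u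

theorem IsGeo.dst {u : List (P × Bool)} (h : IsGeo Ψ u) (p : H) :
    dst Ψ p (p * ev Ψ u) = u.length := by
  rw [P089.dst, inv_mul_cancel_left]; exact h

theorem exists_geo' (hΨ : Function.Surjective Ψ) (g g' : H) :
    ∃ u, g * ev Ψ u = g' ∧ u.length = dst Ψ g g' ∧ IsGeo Ψ u := by
  obtain ⟨u, h1, h2, h3⟩ := exists_geo hΨ (g⁻¹ * g')
  exact ⟨u, by rw [h1, mul_inv_cancel_left], h2, h3⟩

theorem IsGeo.split (hΨ : Function.Surjective Ψ) {u v : List (P × Bool)}
    (h : IsGeo Ψ (u ++ v)) : IsGeo Ψ u ∧ IsGeo Ψ v := by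
  have h1 := len_mul hΨ (ev Ψ u) (ev Ψ v)
  have h2 := len_le (Ψ := Ψ) u
  have h3 := len_le (Ψ := Ψ) v
  unfold IsGeo at *
  rw [ev_append, List.length_append] at h
  omega

theorem IsGeo.take (hΨ : Function.Surjective Ψ) {u : List (P × Bool)} (h : IsGeo Ψ u) (k : ℕ) :
    IsGeo Ψ (u.take k) := by
  rw [← List.take_append_drop k u] at h; exact (h.split hΨ).1

theorem IsGeo.drop (hΨ : Function.Surjective Ψ) {u : List (P × Bool)} (h : IsGeo Ψ u) (k : ℕ) :
    IsGeo Ψ (u.drop k) := by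
  rw [← List.take_append_drop k u] at h; exact (h.split hΨ).2

/-- The `k`-th point of a path. -/
def pt (Ψ : FreeGroup P →* H) (p : H) (u : List (P × Bool)) (k : ℕ) : H := p * ev Ψ (u.take k)

theorem pt_zero (p : H) (u : List (P × Bool)) : pt Ψ p u 0 = p := by simp [pt, ev_nil]

theorem pt_length (p : H) (u : List (P × Bool)) : pt Ψ p u u.length = p * ev Ψ u := by simp [pt]

theorem pt_cons_succ (p : H) (e : P × Bool) (u : List (P × Bool)) (k : ℕ) :
    pt Ψ p (e :: u) (k + 1) = pt Ψ (p * gen Ψ e.1 e.2) u k := by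
  simp [pt, ev_cons, mul_assoc]

theorem pt_take (p : H) (u : List (P × Bool)) {i k : ℕ} (h : k ≤ i) :
    pt Ψ p (u.take i) k = pt Ψ p u k := by
  simp [pt, List.take_take, min_eq_left h]

theorem pt_drop (p : H) (u : List (P × Bool)) (i k : ℕ) :
    pt Ψ (pt Ψ p u i) (u.drop i) k = pt Ψ p u (i + k) := by
  rw [pt, pt, pt, List.take_add, ev_append, mul_assoc]

theorem pt_succ (p : H) (u : List (P × Bool)) {k : ℕ} (h : k < u.length) :
    pt Ψ p u (k + 1) = pt Ψ p u k * gen Ψ u[k].1 u[k].2 := by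
  rw [pt, pt, List.take_succ_eq_append_getElem h, ev_append, ev_cons, ev_nil, mul_one, mul_assoc]

theorem pt_mul (a p : H) (u : List (P × Bool)) (k : ℕ) : pt Ψ (a * p) u k = a * pt Ψ p u k := by
  simp [pt, mul_assoc]

theorem dst_pt_le (p : H) (u : List (P × Bool)) (i k : ℕ) :
    dst Ψ (pt Ψ p u i) (pt Ψ p u (i + k)) ≤ k := by
  rw [← pt_drop]
  refine (dst_ev _ _).trans ?_
  simp

theorem IsGeo.dst_pt (hΨ : Function.Surjective Ψ) {u : List (P × Bool)} (h : IsGeo Ψ u) (p : H)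
    {i j : ℕ} (hij : i ≤ j) (hj : j ≤ u.length) :
    P089.dst Ψ (pt Ψ p u i) (pt Ψ p u j) = j - i := by
  obtain ⟨k, rfl⟩ := Nat.exists_eq_add_of_le hij
  rw [← pt_drop]
  refine (((h.drop hΨ i).take hΨ k).dst _).trans ?_
  simp; omega

theorem edges_append (p : H) (u v : List (P × Bool)) :
    edges Ψ p (u ++ v) = edges Ψ p u ++ edges Ψ (p * ev Ψ u) v := by
  induction u generalizing p with
  | nil => simp [edges, ev_nil]
  | cons e u ih => simp only [List.cons_append, edges, ih, ev_cons, mul_assoc]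

theorem edges_invRev (p : H) (u : List (P × Bool)) :
    edges Ψ (p * ev Ψ u) (FreeGroup.invRev u) = (edges Ψ p u).reverse := by
  induction u generalizing p with
  | nil => rfl
  | cons e u ih =>
    rw [FreeGroup.invRev_cons, edges_append, ev_cons, ← mul_assoc, ih, ev_invRev, mul_assoc,
      mul_inv_cancel, mul_one]
    simp only [edges, List.reverse_cons, FreeGroup.invRev, List.map_cons, List.map_nil,
      List.reverse_nil, List.nil_append, ed_mirror]

theorem mem_edges {p : H} {u : List (P × Bool)} {e : H × P} :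
    e ∈ edges Ψ p u ↔ ∃ k, ∃ h : k < u.length, e = ed Ψ (pt Ψ p u k) u[k].1 u[k].2 := by
  induction u generalizing p with
  | nil => simp [edges]
  | cons l u ih =>
    simp only [edges, List.mem_cons, ih]
    constructor
    · rintro (h | ⟨k, hk, h⟩)
      · exact ⟨0, by simp, by simpa [pt_zero] using h⟩
      · exact ⟨k + 1, by simpa using hk, by simpa [pt_cons_succ] using h⟩
    · rintro ⟨k, hk, h⟩
      cases k with
      | zero => exact Or.inl (by simpa [pt_zero] using h)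
      | succ k => exact Or.inr ⟨k, by simpa using hk, by simpa [pt_cons_succ] using h⟩

theorem edges_take_sub (p : H) (u : List (P × Bool)) (k : ℕ) :
    ∀ e ∈ edges Ψ p (u.take k), e ∈ edges Ψ p u := by
  intro e he
  rw [← List.take_append_drop k u, edges_append]
  exact List.mem_append_left _ he

/-- The head of an edge. -/
def hd (Ψ : FreeGroup P →* H) (e : H × P) : H := e.1 * gen Ψ e.2 true

theorem ed_ends (p : H) (s : P) (b : Bool) :
    ((ed Ψ p s b).1 = p ∧ hd Ψ (ed Ψ p s b) = p * gen Ψ s b) ∨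
      ((ed Ψ p s b).1 = p * gen Ψ s b ∧ hd Ψ (ed Ψ p s b) = p) := by
  cases b
  · right
    have := gen_mul_not Ψ s false
    simp only [Bool.not_false] at this
    simp [ed, hd, mul_assoc, this]
  · left; simp [ed, hd]

theorem edge_ends (p : H) (u : List (P × Bool)) {k : ℕ} (h : k < u.length) :
    ((ed Ψ (pt Ψ p u k) u[k].1 u[k].2).1 = pt Ψ p u k ∧
        hd Ψ (ed Ψ (pt Ψ p u k) u[k].1 u[k].2) = pt Ψ p u (k + 1)) ∨
      ((ed Ψ (pt Ψ p u k) u[k].1 u[k].2).1 = pt Ψ p u (k + 1) ∧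
        hd Ψ (ed Ψ (pt Ψ p u k) u[k].1 u[k].2) = pt Ψ p u k) := by
  rw [pt_succ p u h]; exact ed_ends _ _ _

theorem IsGeo.nodup (hΨ : Function.Surjective Ψ) {u : List (P × Bool)} (h : IsGeo Ψ u) (p : H) :
    (edges Ψ p u).Nodup := by
  induction u generalizing p with
  | nil => simp [edges]
  | cons l u ih =>
    rw [edges, List.nodup_cons]
    refine ⟨?_, ih (h.split hΨ (u := [l])).2 _⟩
    intro hm
    obtain ⟨k, hk, e⟩ := mem_edges.1 hm
    have h1 := h.dst_pt hΨ p (Nat.zero_le (k + 1)) (by simp; omega)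
    have h2 := h.dst_pt hΨ p (Nat.zero_le (k + 2)) (by simp; omega)
    rw [pt_zero, pt_cons_succ] at h1 h2
    have h3 := edge_ends (Ψ := Ψ) (p * gen Ψ l.1 l.2) u hk
    rw [← e] at h3
    rcases ed_ends (Ψ := Ψ) p l.1 l.2 with h4 | h4 <;> rcases h3 with h3 | h3
    · rw [← h3.1, h4.1, dst_self] at h1; omega
    · rw [← h3.1, h4.1, dst_self] at h2; omega
    · rw [← h3.2, h4.2, dst_self] at h2; omega
    · rw [← h3.2, h4.2, dst_self] at h1; omega

/-- A set of edges of a path spans a long subpath. -/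
theorem span (p : H) (u : List (P × Bool)) (J : Finset (H × P)) (Q : H → Prop)
    (hJ : ∀ e ∈ J, e ∈ edges Ψ p u ∧ Q e.1 ∧ Q (hd Ψ e)) (hne : J.Nonempty) :
    ∃ i j, i + J.card ≤ j ∧ j ≤ u.length ∧ Q (pt Ψ p u i) ∧ Q (pt Ψ p u j) := by
  classical
  let K : Finset ℕ := (range u.length).filter
    (fun k => ∃ h : k < u.length, ed Ψ (pt Ψ p u k) u[k].1 u[k].2 ∈ J)
  have hK : ∀ e ∈ J, ∃ k ∈ K, ∃ h : k < u.length, e = ed Ψ (pt Ψ p u k) u[k].1 u[k].2 := by
    intro e he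
    obtain ⟨k, hk, rfl⟩ := mem_edges.1 (hJ e he).1
    exact ⟨k, mem_filter.2 ⟨mem_range.2 hk, hk, he⟩, hk, rfl⟩
  have hKne : K.Nonempty := by
    obtain ⟨e, he⟩ := hne
    obtain ⟨k, hk, -⟩ := hK e he
    exact ⟨k, hk⟩
  have hQ : ∀ k ∈ K, k < u.length ∧ Q (pt Ψ p u k) ∧ Q (pt Ψ p u (k + 1)) := by
    intro k hk
    obtain ⟨-, h, hm⟩ := mem_filter.1 hk
    obtain ⟨-, h1, h2⟩ := hJ _ hm
    rcases edge_ends (Ψ := Ψ) p u h with h3 | h3
    · exact ⟨h, h3.1 ▸ h1, h3.2 ▸ h2⟩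
    · exact ⟨h, h3.2 ▸ h2, h3.1 ▸ h1⟩
  have hc : J.card ≤ K.card := by
    choose! f hf using hK
    apply card_le_card_of_injOn f (fun e he => (hf e he).1)
    intro e he e' he' hee
    obtain ⟨h1, e1⟩ := (hf e he).2
    obtain ⟨h2, e2⟩ := (hf e' he').2
    rw [e1, e2]
    simp only [hee]
  have hc2 : K.card ≤ (Icc (K.min' hKne) (K.max' hKne)).card :=
    card_le_card (fun k hk => mem_Icc.2 ⟨K.min'_le k hk, K.le_max' k hk⟩)
  have h1 := hQ _ (K.min'_mem hKne)
  have h2 := hQ _ (K.max'_mem hKne)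
  have h3 := K.min'_le _ (K.max'_mem hKne)
  rw [Nat.card_Icc] at hc2
  exact ⟨K.min' hKne, K.max' hKne + 1, by omega, h2.1, h1.2.1, h2.2.2⟩

theorem dst_loop (hΨ : Function.Surjective Ψ) (p : H) {u : List (P × Bool)} (hu : ev Ψ u = 1)
    {i j : ℕ} (hi : i ≤ u.length) (hj : j ≤ u.length) :
    2 * dst Ψ (pt Ψ p u i) (pt Ψ p u j) ≤ u.length := by
  wlog hij : i ≤ j generalizing i j
  · rw [dst_comm hΨ]; exact this hj hi (by omega)
  have h1 := dst_pt_le (Ψ := Ψ) p u i (j - i)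
  have h2 := dst_pt_le (Ψ := Ψ) p u j (u.length - j)
  have h3 := dst_pt_le (Ψ := Ψ) p u 0 i
  rw [show i + (j - i) = j by omega] at h1
  rw [show j + (u.length - j) = u.length by omega, pt_length, hu, mul_one] at h2
  rw [zero_add, pt_zero] at h3
  have h4 := dst_tri hΨ (pt Ψ p u j) p (pt Ψ p u i)
  rw [dst_comm hΨ] at h4
  omega

end Vale.Agent.P089
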