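import Vale.Agent.P089.Dg2
import Vale.Agent.P089.Face
import Vale.Agent.P089.Defs2

set_option linter.unusedSectionVars false

namespace Vale.Agent.P089

open Finset Vale.Agent.P194

section
variable {P V H : Type} [Group H] {D : Design P V} {σ : P → V → V} {Ψ : FreeGroup P →* H}

/-- The edge of the Cayley graph crossed by a letter at a position. -/
def ed (Ψ : FreeGroup P →* H) (p : H) (s : P) (b : Bool) : H × P :=
  if b = true then (p, s) else (p * gen Ψ s false, s)

/-- The edges of a path in the Cayley graph. -/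
def edges (Ψ : FreeGroup P →* H) : H → List (P × Bool) → List (H × P)
  | _, [] => []
  | p, e :: u => ed Ψ p e.1 e.2 :: edges Ψ (p * gen Ψ e.1 e.2) u

/-- The edge of a record. -/
def erc (Ψ : FreeGroup P →* H) (r : Rc P V H) : H × P := ed Ψ r.p r.s r.b

theorem ed_mirror (p : H) (s : P) (b : Bool) : ed Ψ (p * gen Ψ s b) s (!b) = ed Ψ p s b := by
  cases b
  · simp [ed]
  · have := gen_mul_not Ψ s true
    simp only [Bool.not_true] at this
    simp [ed, mul_assoc, this]

theorem ed_mul (g p : H) (s : P) (b : Bool) :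
    ed Ψ (g * p) s b = (g * (ed Ψ p s b).1, (ed Ψ p s b).2) := by
  cases b <;> simp [ed, mul_assoc]

theorem edges_mul (g p : H) (u : List (P × Bool)) :
    edges Ψ (g * p) u = (edges Ψ p u).map (fun e => (g * e.1, e.2)) := by
  induction u generalizing p with
  | nil => rfl
  | cons e u ih => simp only [edges, List.map_cons, ed_mul, mul_assoc, ih]

theorem edges_bpath {p : H} {B : List (Rc P V H)} (h : BPath Ψ p B) :
    edges Ψ p (B.map Rc.sb) = B.map (erc Ψ) := by
  induction B generalizing p with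
  | nil => rfl
  | cons r B ih =>
    obtain ⟨h1, h2⟩ := h
    simp only [List.map_cons, edges, Rc.sb, erc, h1]
    congr 1
    exact ih h2

theorem rpath_walk {u v : V × H} {f : List (Rc P V H)} (h : RPath D σ Ψ u f v) :
    Valid σ u.1 (f.map Rc.s) ∧ walk σ u.1 (f.map Rc.s) = v.1 ∧
      f.map (erc Ψ) = edges Ψ u.2 (word D σ u.1 (f.map Rc.s)) := by
  induction f generalizing u with
  | nil => exact ⟨trivial, congrArg Prod.fst h, rfl⟩
  | cons r f ih =>
    obtain ⟨a1, a2, a3, a4, a5⟩ := h
    obtain ⟨b1, b2, b3⟩ := ih a5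
    simp only [List.map_cons, Valid, walk, word, edges, ← a1, ← a2, ← a3] at b1 b2 b3 ⊢
    exact ⟨⟨a4, b1⟩, b2, by rw [b3]; rfl⟩

theorem rpath_infix {u v : V × H} {f l : List (Rc P V H)} (h : RPath D σ Ψ u f v)
    (hl : l <:+: f) : ∃ u' v', RPath D σ Ψ u' l v' := by
  obtain ⟨A, B, rfl⟩ := hl
  obtain ⟨m, h1, -⟩ := rpath_append.1 h
  obtain ⟨m', -, h2⟩ := rpath_append.1 h1
  exact ⟨_, _, h2⟩

theorem rq_erc {l : List (Rc P V H)} (h : RQ Ψ l) {r r' : Rc P V H} (hr : r ∈ l) (hr' : r' ∈ l)
    (hk : r'.key = opp r.key) : erc Ψ r' = erc Ψ r ∧ r'.s = r.s ∧ r'.b = !r.b := by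
  have e1 : r'.id = r.id := congrArg Prod.fst hk
  have e2 : r'.b = !r.b := congrArg Prod.snd hk
  obtain ⟨h1, h2⟩ := h.cons r hr r' hr' e1.symm
  refine ⟨?_, h1.symm, e2⟩
  rw [erc, h2 (by rw [e2]; cases r.b <;> simp), ← h1, e2, ed_mirror, erc]

theorem isChain_of_infix {α β : Type} (φ : α → β) (l : List α)
    (h : ∀ x y, [x, y] <:+: l → φ x ≠ φ y) : (l.map φ).IsChain (· ≠ ·) := by
  induction l with
  | nil => simp
  | cons x l ih =>
    cases l with
    | nil => simp
    | cons y l =>
      simp only [List.map_cons, List.isChain_cons_cons] at ih ⊢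
      exact ⟨h x y ⟨[], l, by simp⟩,
        ih (fun a b hab => h a b (hab.trans (List.suffix_cons _ _).isInfix))⟩

end

variable {d M : ℕ} {V : Type} {S : Sys d M V}

theorem Sys.Good.tau_ne (hS : S.Good) (c : Fin d) (x : V) : S.τ c x ≠ x := by
  intro e
  have := hS.side_τ c x
  rw [e] at this
  cases hb : S.side x <;> simp [hb] at this

theorem Sys.Good.moves (hS : S.Good) (s : Fin d × Fin M) (x : V) :
    S.σ s x ≠ x ↔ S.lab x s.1 = s.2 := by
  unfold Sys.σ
  split_ifs with h
  · simp [h, hS.tau_ne]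
  · simp [h]

theorem Sys.Good.sigma_eq (hS : S.Good) {s : Fin d × Fin M} {x : V} (h : S.σ s x ≠ x) :
    S.σ s x = S.τ s.1 x := by
  rw [Sys.σ, if_pos ((hS.moves s x).1 h)]

theorem Sys.Good.isGraph (hS : S.Good) : IsGraph S.D S.σ where
  invol := by
    intro s x
    by_cases h : S.lab x s.1 = s.2
    · have h2 : S.lab (S.τ s.1 x) s.1 = s.2 := by rw [hS.lab_τ, h]
      simp only [Sys.σ, if_pos h, if_pos h2, hS.invol]
    · simp only [Sys.σ, if_neg h]
  moves := by
    intro s x
    rw [hS.moves]; simp [Sys.D]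
  side := by
    intro s x h
    have h' : S.lab x s.1 = s.2 := by simpa [Sys.D] using h
    simp only [Sys.σ, if_pos h', Sys.D, hS.side_τ]
  part := fun _ _ => rfl

theorem Sys.Good.comp_sigma (hS : S.Good) (s : Fin d × Fin M) (x : V) :
    S.comp (S.σ s x) = S.comp x := by
  unfold Sys.σ
  split_ifs
  · exact hS.comp_τ _ _
  · rfl

theorem Sys.Good.comp_walk (hS : S.Good) (x : V) (w : List (Fin d × Fin M)) :
    S.comp (walk S.σ x w) = S.comp x := by
  induction w generalizing x with
  | nil => rfl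
  | cons s w ih => rw [walk, ih, hS.comp_sigma]

theorem Sys.Good.pot_sigma (hS : S.Good) {γ : V → S.G} (hγ : S.Pot γ) {s : Fin d × Fin M} {x : V}
    (h : S.σ s x ≠ x) : γ (S.σ s x) = γ x * gen (qmk S.D S.σ) s (S.side x) := by
  rw [hS.sigma_eq h, hγ, (hS.moves s x).1 h]; rfl

theorem Sys.Good.pot_walk (hS : S.Good) {γ : V → S.G} (hγ : S.Pot γ) {x : V}
    {w : List (Fin d × Fin M)} (h : Valid S.σ x w) :
    γ (walk S.σ x w) = γ x * qmk S.D S.σ (FreeGroup.mk (word S.D S.σ x w)) := by
  induction w generalizing x with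
  | nil =>
    have : FreeGroup.mk ([] : List ((Fin d × Fin M) × Bool)) = 1 := rfl
    simp [walk, word, this]
  | cons s w ih =>
    rw [walk, ih h.2, hS.pot_sigma hγ h.1, word, map_mk_cons, mul_assoc]; rfl

theorem rpath_comp (hS : S.Good) {H : Type} [Group H] {Ψ : FreeGroup (Fin d × Fin M) →* H}
    {u v : V × H} {f : List (Rc (Fin d × Fin M) V H)} (h : RPath S.D S.σ Ψ u f v) :
    ∀ r ∈ f, S.comp r.x = S.comp u.1 := by
  induction f generalizing u with
  | nil => simp
  | cons r f ih =>
    intro y hy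
    rcases List.mem_cons.1 hy with rfl | hy
    · rw [h.1]
    · rw [ih h.2.2.2.2 y hy, hS.comp_sigma, h.1]

/-- The Greendlinger type alternative, at the base position `1`. -/
theorem star0 (hS : S.Good) (x : V) (w : List (Fin d × Fin M)) (hw : Valid S.σ x w)
    (u : List ((Fin d × Fin M) × Bool)) (q : S.G)
    (hq : q = qmk S.D S.σ (FreeGroup.mk (word S.D S.σ x w)))
    (hu : q * qmk S.D S.σ (FreeGroup.mk u) = 1) (hn : (edges (qmk S.D S.σ) q u).Nodup) :
    ((∃ w', Valid S.σ x w' ∧ ∀ e ∈ edges (qmk S.D S.σ) q u,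
        e ∈ edges (qmk S.D S.σ) 1 (word S.D S.σ x w')) ∧
      (w = [] → u = []) ∧ (u = [] → walk S.σ x w = x)) ∨
    ∃ (p : S.G) (y : V) (v : List (Fin d × Fin M)) (J : Finset (S.G × (Fin d × Fin M))),
      Valid S.σ y v ∧ walk S.σ y v = y ∧ 2000 * S.pc (S.comp y) ≤ v.length ∧
      9 * v.length ≤ 10 * J.card ∧ ∀ e ∈ J, e ∈ edges (qmk S.D S.σ) q u ∧
        e ∈ edges (qmk S.D S.σ) p (word S.D S.σ y v) := by
  classical
  have hσ := hS.isGraph
  have hΨ := kills_qmk S.D S.σ
  set Ψ := qmk S.D S.σ with hΨdef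
  obtain ⟨c, hc⟩ := exists_fill hσ Ψ (n := (FreeGroup.mk (word S.D S.σ x w ++ u))⁻¹)
    (by rw [map_inv, ← FreeGroup.mul_mk, map_mul, ← hq, hu, inv_one])
  obtain ⟨Bd0, Fs0, h1, h2, h3, h4, -⟩ := hc.diagB hΨ x _ (inv_inv _).symm
  obtain ⟨R, B, rfl, hR, hB⟩ := List.map_eq_append_iff.1 h1
  rw [bpath_append, hR, one_mul, ← hq] at h2
  obtain ⟨b1, -⟩ := setx_path (D := S.D) hw hR h2.1
  have h3' : Pl Ψ (B :: setx S.σ x R :: Fs0) := by
    have e : R ++ B = [] ++ R ++ B := by simp
    rw [e] at h3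
    have := (h3.extract.perm (List.Perm.swap _ _ _)).congr_head (setx_core (σ := S.σ) x R).symm
    exact this.perm (List.Perm.swap _ _ _)
  have hd : Dg2 S.D S.σ Ψ (B.map rdat) (x, 1) (walk S.σ x w, 1 * Ψ (FreeGroup.mk (word S.D S.σ x w)))
      _ (setx S.σ x R) Fs0 := ⟨⟨B, rfl, h3'⟩, b1, h4, rfl⟩
  obtain ⟨f0, Fs, ⟨⟨Bd, a1, a2⟩, a3, a4, -⟩, a5, a6, a7, a8⟩ := hd.reduce hσ
  have hE : edges Ψ q u = Bd.map (erc Ψ) := by
    rw [← hB, edges_bpath h2.2]
    have := congrArg (List.map (fun t : Bool × (Fin d × Fin M) × S.G => ed Ψ t.2.2 t.2.1 t.1)) a1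
    rw [List.map_map, List.map_map] at this
    exact this.symm
  rw [hE] at hn ⊢
  have hq1 := a2.1
  have hnd := hq1.nodup
  have hBB : ∀ r ∈ Bd, ∀ r' ∈ Bd, r'.key ≠ opp r.key := by
    intro r hr r' hr' hk
    have := (rq_erc hq1 (List.mem_append_left _ hr) (List.mem_append_left _ hr') hk).1
    rw [List.inj_on_of_nodup_map hn hr' hr this] at hk
    exact opp_ne _ hk.symm
  have hred0 : ∀ z, ¬ [z, opp z] <:+: f0.map Rc.key := by
    intro z hz
    obtain ⟨r, r', c1, rfl, c3⟩ := cadj_pair_map hz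
    have m1 : r ∈ f0 := c1.subset (by simp)
    have m2 : r' ∈ f0 := c1.subset (by simp)
    exact a7 r r' (Or.inl c1) (rq_erc hq1 (by simp [m1]) (by simp [m2]) c3).2.1.symm
  by_cases hFs : Fs = []
  · subst hFs
    left
    obtain ⟨c1, c2, c3⟩ := rpath_walk a3
    have hm : ∀ r ∈ Bd, ∃ r' ∈ f0, r'.key = opp r.key := by
      intro r hr
      obtain ⟨r', hr', hk⟩ := List.mem_map.1 (hq1.closed r (List.mem_append_left _ hr))
      simp only [List.flatten_cons, List.flatten_nil, List.append_nil, List.mem_append] at hr'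
      exact ⟨r', hr'.resolve_left (fun e => hBB r hr r' e hk), hk⟩
    refine ⟨⟨_, c1, ?_⟩, ?_, ?_⟩
    · intro e he
      obtain ⟨r, hr, rfl⟩ := List.mem_map.1 he
      obtain ⟨r', hr', hk⟩ := hm r hr
      rw [← c3, ← (rq_erc hq1 (List.mem_append_left _ hr) (by simp [hr']) hk).1]
      exact List.mem_map_of_mem hr'
    · rintro rfl
      have hR' : R = [] := by simpa [word] using hR
      subst hR'
      obtain rfl := a5 rfl
      cases Bd with
      | nil =>
        rw [← hB]
        simpa using a1.symm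
      | cons r Bd =>
        obtain ⟨r', hr', -⟩ := hm r List.mem_cons_self
        simp at hr'
    · rintro rfl
      have hB' : B = [] := by simpa using hB
      subst hB'
      have hBd : Bd = [] := by simpa using a1
      subst hBd
      have h5 : rwd f0 = 1 := a2.drop_nil.2.eq_one
      have h6 : (f0.map Rc.key).Nodup := by simpa using hnd
      have h7 := (nc_breaks (nc_of_wd (neu := ∅) h6 (by rw [wd_empty]; exact h5))).1
      have e4 : leaves (f0.map Rc.key) ≤ (f0.map Rc.key).countP (fun _ => false) :=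
        planar_countP_zip _ _ _ (fun x y hxy e => absurd (of_decide_eq_true e ▸ hxy) (hred0 x))
      have e5 : (f0.map Rc.key).countP (fun x => decide (x.1 ∈ (∅ : Finset ℕ))) = 0 :=
        List.countP_eq_zero.2 (fun a _ => by simp)
      simp only [List.countP_false, Function.const] at e4
      by_cases h8 : f0 = []
      · subst h8
        exact (congrArg Prod.fst a3).symm
      · have := h7 (by simpa using h8)
        omega
  right
  have eF : (Bd.map Rc.key :: f0.map Rc.key :: Fs.map (List.map Rc.key)).flatten =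
      (Bd :: f0 :: Fs).flatten.map Rc.key := by
    rw [List.map_flatten]; rfl
  obtain ⟨f', hf', Z, z1, z2, z3⟩ := planar_face (Bd.map Rc.key) (f0.map Rc.key)
    (Fs.map (List.map Rc.key)) (by rw [eF]; exact hnd) (by
      rw [eF]
      intro z hz
      obtain ⟨r, hr, rfl⟩ := List.mem_map.1 hz
      exact hq1.closed r hr) (by
      have := a2.2
      rw [← List.map_cons, ← List.map_cons, List.map_map]
      convert this using 1
      apply List.map_congr_left
      intro f _
      simp only [Function.comp, wd_empty, rwd]) (by simpa using hFs) (by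
      intro z hz
      obtain ⟨r, r', c1, rfl, c3⟩ := cadj_pair_map hz
      exact hBB r (c1.subset (by simp)) r' (c1.subset (by simp)) c3) hred0 (by
      intro f' hf' z hz
      obtain ⟨f, hf, rfl⟩ := List.mem_map.1 hf'
      obtain ⟨r, r', c1, rfl, c3⟩ := cadj_map hz
      have m1 : r ∈ Fs.flatten := List.mem_flatten.2 ⟨f, hf, cadj_mem_left c1⟩
      have m2 : r' ∈ Fs.flatten := List.mem_flatten.2 ⟨f, hf, cadj_mem_right c1⟩
      exact a7 r r' (Or.inr ⟨f, hf, c1⟩) (rq_erc hq1
        (List.mem_append_right _ (List.mem_append_right _ m1))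
        (List.mem_append_right _ (List.mem_append_right _ m2)) c3).2.1.symm)
  obtain ⟨f, hf, rfl⟩ := List.mem_map.1 hf'
  obtain ⟨⟨y, p⟩, hy⟩ := a4 f hf
  obtain ⟨c1, c2, c3⟩ := rpath_walk hy
  have hfm : ∀ r ∈ f, r ∈ (f0 :: Fs).flatten := fun r hr =>
    List.mem_append_right _ (List.mem_flatten.2 ⟨f, hf, hr⟩)
  have hchain : ∀ l, l <:+: f → (l.map Rc.s).IsChain (· ≠ ·) := fun l hl =>
    isChain_of_infix _ _ (fun r r' h => a7 r r' (Or.inr ⟨f, hf, Or.inl (h.trans hl)⟩))
  have hlen : 2000 * S.pc (S.comp y) ≤ (f.map Rc.s).length :=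
    hS.girth y _ c1 (hchain f (List.infix_refl _)) c2 (by simpa using a6 f hf)
  have hnd' := hnd
  rw [List.flatten_cons, List.map_append, List.nodup_append] at hnd'
  have huniq : ∀ r ∈ (f0 :: Fs).flatten, ∀ r' ∈ (f0 :: Fs).flatten, r.key = r'.key → r = r' :=
    fun r hr r' hr' e => List.inj_on_of_nodup_map hnd'.2.1 hr hr' e
  have hpath : ∀ g ∈ f0 :: Fs, ∃ u v, RPath S.D S.σ Ψ u g v := by
    intro g hg
    rcases List.mem_cons.1 hg with rfl | hg
    · exact ⟨_, _, a3⟩
    · obtain ⟨w, hw⟩ := a4 g hg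
      exact ⟨_, _, hw⟩
  have hmv : ∀ r ∈ (f0 :: Fs).flatten, r.b = S.side r.x ∧ S.σ r.s r.x ≠ r.x := by
    intro r hr
    obtain ⟨g, hg, hr⟩ := List.mem_flatten.1 hr
    obtain ⟨u, v, h⟩ := hpath g hg
    exact rpath_mem h r hr
  have step : ∀ r1 r2, [r1, r2] <:+: f → r1.key ∉ Z →
      (opp r1.key ∈ Bd.map Rc.key ∧ opp r2.key ∈ Bd.map Rc.key) ∨
      ∃ r1' ∈ (f0 :: Fs).flatten, ∃ r2' ∈ (f0 :: Fs).flatten, r1'.key = opp r1.key ∧
        r2'.key = opp r2.key ∧ r1'.x = S.σ r2'.s r2'.x := by
    intro r1 r2 h12 hz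
    obtain ⟨g', hg', hi⟩ := z3 r1.key r2.key (h12.map Rc.key) hz
    rcases List.mem_cons.1 hg' with rfl | hg'
    · exact Or.inl ⟨hi.subset (by simp), hi.subset (by simp)⟩
    · right
      rw [← List.map_cons] at hg'
      obtain ⟨g, hg, rfl⟩ := List.mem_map.1 hg'
      obtain ⟨r2', r1', e1, e2, e3⟩ := cadj_pair_map hi
      obtain ⟨u, v, h⟩ := hpath g hg
      obtain ⟨u', v', h'⟩ := rpath_infix h e1
      exact ⟨r1', List.mem_flatten.2 ⟨g, hg, e1.subset (by simp)⟩, r2',
        List.mem_flatten.2 ⟨g, hg, e1.subset (by simp)⟩, e3, e2, h'.2.2.2.2.1⟩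
  have hJ : ∀ r : Rc (Fin d × Fin M) V S.G, ∀ r' ∈ (f0 :: Fs).flatten, r'.key = opp r.key → opp r.key ∉ Bd.map Rc.key :=
    fun r r' hr' hk hm => hnd'.2.2 _ hm _ (List.mem_map_of_mem hr') hk.symm
  have run1 : ∀ (a : List (Rc (Fin d × Fin M) V S.G)) r0 r, r :: a <:+: f →
      (r :: a).getLast? = some r0 → (∀ y ∈ (r :: a).dropLast, y.key ∉ Z) →
      (opp r.key ∈ Bd.map Rc.key → ∀ y ∈ r :: a, opp y.key ∈ Bd.map Rc.key) ∧
      ∀ r' ∈ (f0 :: Fs).flatten, r'.key = opp r.key →
        Valid S.σ (S.σ r.s r'.x) ((r :: a).map Rc.s) := by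
    intro a r0
    induction a with
    | nil =>
      intro r hi _ _
      refine ⟨by simp, fun r' hr' hk => ⟨?_, trivial⟩⟩
      have e := (rq_erc hq1 (List.mem_append_right _ (hfm r (hi.subset (by simp))))
        (List.mem_append_right _ hr') hk).2.1
      rw [hσ.invol, ← e]
      exact (hmv r' hr').2.symm
    | cons r2 a ih =>
      intro r hi hl hz
      obtain ⟨i1, i2⟩ := ih r2 ((List.suffix_cons _ _).isInfix.trans hi) (by simpa using hl)
        (fun y hy => hz y (by rw [List.dropLast_cons₂]; exact List.mem_cons_of_mem _ hy))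
      have hst := step r r2 ((List.IsInfix.trans ⟨[], a, by simp⟩ hi))
        (hz r (by rw [List.dropLast_cons₂]; exact List.mem_cons_self))
      constructor
      · intro hb y hy
        rcases List.mem_cons.1 hy with rfl | hy
        · exact hb
        · rcases hst with hst | ⟨r1', m1, r2', m2, k1, -, -⟩
          · exact i1 hst.2 y hy
          · exact absurd hb (hJ r r1' m1 k1)
      · intro r' hr' hk
        have e := (rq_erc hq1 (List.mem_append_right _ (hfm r (hi.subset (by simp))))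
          (List.mem_append_right _ hr') hk).2.1
        rcases hst with hst | ⟨r1', m1, r2', m2, k1, k2, k3⟩
        · exact absurd hst.1 (hJ r r' hr' hk)
        · obtain rfl := huniq r' hr' r1' m1 (hk.trans k1.symm)
          have e2 := (rq_erc hq1 (List.mem_append_right _ (hfm r2 (hi.subset (by simp))))
            (List.mem_append_right _ m2) k2).2.1
          rw [List.map_cons]
          refine ⟨?_, ?_⟩
          · rw [hσ.invol, ← e]
            exact (hmv r' hr').2.symm
          · rw [hσ.invol, k3, e2]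
            exact i2 r2' m2 k2
  have hcount := runs_count (fun r : Rc (Fin d × Fin M) V S.G => decide (r.key ∈ Z))
    (fun r => decide (opp r.key ∈ Bd.map Rc.key)) (S.pc (S.comp y)) f.length f le_rfl (by
      intro r hr
      exact decide_eq_true (z2 _ (by rw [List.getLast?_map, hr]; rfl))) (by
      intro a r0 hi hz
      obtain ⟨r, a', e⟩ : ∃ r a', a ++ [r0] = r :: a' := by
        cases a with
        | nil => exact ⟨_, _, rfl⟩
        | cons r a => exact ⟨_, _, rfl⟩
      have hl : a.length + 1 = (r :: a').length := by rw [← e]; simp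
      rw [e] at hi ⊢
      obtain ⟨i1, i2⟩ := run1 a' r0 r hi (by rw [← e]; simp) (by
        rw [← e, List.dropLast_concat]
        intro y hy
        simpa using hz y hy)
      have hr : r ∈ f := hi.subset (by simp)
      by_cases hb : opp r.key ∈ Bd.map Rc.key
      · exact Or.inl (fun y hy => decide_eq_true (i1 hb y hy))
      · right
        have := hq1.closed r (List.mem_append_right _ (hfm r hr))
        rw [List.flatten_cons, List.map_append, List.mem_append] at this
        obtain ⟨r', hr', hk⟩ := List.mem_map.1 (this.resolve_left hb)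
        obtain ⟨-, e1, e2⟩ := rq_erc hq1 (List.mem_append_right _ (hfm r hr))
          (List.mem_append_right _ hr') hk
        obtain ⟨u', v', h'⟩ := rpath_infix hy hi
        have hv := (rpath_walk h').1
        rw [← h'.1] at hv
        have := hS.piece r.x (S.σ r.s r'.x) _ (by
          intro e3
          apply a8 r (hfm r hr) r' hr' (congrArg Prod.fst hk).symm
            (by rw [e2]; cases r.b <;> simp)
          rw [e3, hσ.invol]) (by
          have e4 := hσ.side_of_ne (hmv r' hr').2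
          rw [e1] at e4
          have e5 := (hmv r' hr').1
          have e6 := (hmv r (hfm r hr)).1
          change S.side (S.σ r.s r'.x) = !S.side r'.x at e4
          rw [e4, ← e5, e2, e6, Bool.not_not]) hv (i2 r' hr' hk) (hchain _ hi)
        rw [rpath_comp hS hy r hr, List.length_map] at this
        rw [hl]
        exact this.le)
  have hz1 : f.countP (fun r => decide (r.key ∈ Z)) ≤ 140 := by
    rw [List.countP_map] at z1; exact z1
  have hmir : ∀ r ∈ f.filter (fun r => decide (opp r.key ∈ Bd.map Rc.key)),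
      ∃ r' ∈ Bd, r'.key = opp r.key ∧ erc Ψ r' = erc Ψ r := by
    intro r hr
    obtain ⟨m1, m2⟩ := List.mem_filter.1 hr
    obtain ⟨r', hr', hk⟩ := List.mem_map.1 (of_decide_eq_true m2)
    exact ⟨r', hr', hk, (rq_erc hq1 (List.mem_append_right _ (hfm r m1))
      (List.mem_append_left _ hr') hk).1⟩
  have hfn : f.Nodup := (List.Nodup.of_map _ hnd'.2.1).sublist
    (List.sublist_flatten_of_mem (List.mem_cons_of_mem _ hf))
  refine ⟨p, y, f.map Rc.s,
    ((f.filter (fun r => decide (opp r.key ∈ Bd.map Rc.key))).map (erc Ψ)).toFinset,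
    c1, c2, hlen, ?_, ?_⟩
  · rw [List.toFinset_card_of_nodup, List.length_map, List.length_map,
      ← List.countP_eq_length_filter]
    · rw [List.length_map] at hlen
      have h9 : f.length ≤ f.countP (fun r => decide (opp r.key ∈ Bd.map Rc.key)) +
          S.pc (S.comp y) * 140 :=
        hcount.trans (Nat.add_le_add_left (Nat.mul_le_mul_left (S.pc (S.comp y)) hz1) _)
      omega
    · apply List.Nodup.map_on _ (hfn.filter _)
      intro r1 h1 r2 h2 e
      obtain ⟨r1', m1, k1, e1⟩ := hmir r1 h1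
      obtain ⟨r2', m2, k2, e2⟩ := hmir r2 h2
      obtain rfl := List.inj_on_of_nodup_map hn m1 m2 (e1.trans (e.trans e2.symm))
      exact huniq r1 (hfm r1 (List.mem_filter.1 h1).1) r2 (hfm r2 (List.mem_filter.1 h2).1)
        (opp_injective (k1.symm.trans k2))
  · intro e he
    obtain ⟨r, hr, rfl⟩ := List.mem_map.1 (List.mem_toFinset.1 he)
    obtain ⟨r', m1, -, e1⟩ := hmir r hr
    refine ⟨e1 ▸ List.mem_map_of_mem m1, ?_⟩
    rw [← c3]
    exact List.mem_map_of_mem (List.mem_filter.1 hr).1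

end Vale.Agent.P089
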